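import Mathlib.Combinatorics.SimpleGraph.Hamiltonian
import Mathlib.GroupTheory.Perm.Cycle.Basic
import Mathlib.Data.ZMod.Basic
import Mathlib.Logic.Relation
import Mathlib.Data.Fin.VecNotation

namespace Vale.Agent.P039.Sk

/-- A cubic bipartite multigraph with black vertices `B` and white vertices `W`, whose edges are
properly coloured with the colours `0, 1, 2`: the edge of colour `i` at the black vertex `b` leads
to the white vertex `e i b`. The cyclic order of the colours at the vertices (clockwise at black,
anticlockwise at white vertices) makes it a map on an oriented surface. -/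
structure Web (B W : Type) where
  e : Fin 3 → B ≃ W

variable {B W : Type}

/-- The underlying simple graph. -/
def Web.graph (X : Web B W) : SimpleGraph (B ⊕ W) :=
  SimpleGraph.fromRel fun x y => ∃ (i : Fin 3) (b : B), x = Sum.inl b ∧ y = Sum.inr (X.e i b)

/-- One step along the boundary of a face of class `j` (its boundary alternates between the
colours `j + 1` and `j + 2`): from a black vertex to the next black vertex. -/
def Web.rho (X : Web B W) (j : Fin 3) : Equiv.Perm B := (X.e (j + 2)).trans (X.e (j + 1)).symm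

/-- Two black vertices lie on the same face of class `j`. -/
def Web.SameFace (X : Web B W) (j : Fin 3) (b b' : B) : Prop := (X.rho j).SameCycle b b'

/-- `X` arises from `Y` by removing the 4-face `b₁ w₁ b₂ w₂` (of class `j`) and joining
the four edges which leave it in such a way that the two faces of class `j + 1` next to it are
merged. Here `w₁ = Y.e (j+2) b₁ = Y.e (j+1) b₂` and `w₂ = Y.e (j+2) b₂ = Y.e (j+1) b₁`. -/
structure SqRel {B' W' : Type} (Y : Web B W) (X : Web B' W') (f : B' → B) (g : W' → W)
    (j : Fin 3) (b₁ b₂ : B) : Prop where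
  fi : Function.Injective f
  gi : Function.Injective g
  ne : b₁ ≠ b₂
  fr : ∀ b, (∃ b', f b' = b) ↔ b ≠ b₁ ∧ b ≠ b₂
  gr : ∀ w, (∃ w', g w' = w) ↔ w ≠ Y.e (j + 2) b₁ ∧ w ≠ Y.e (j + 2) b₂
  face : Y.e (j + 1) b₂ = Y.e (j + 2) b₁
  face' : Y.e (j + 1) b₁ = Y.e (j + 2) b₂
  o1 : ∃ w', g w' = Y.e j b₁
  o2 : ∃ w', g w' = Y.e j b₂
  other : ∀ i, i ≠ j → ∀ b, Y.e i (f b) = g (X.e i b)
  same : ∀ b, Y.e j (f b) ≠ Y.e (j + 2) b₁ → Y.e j (f b) ≠ Y.e (j + 2) b₂ →
    Y.e j (f b) = g (X.e j b)
  out1 : ∀ b, Y.e j (f b) = Y.e (j + 2) b₁ → g (X.e j b) = Y.e j b₂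
  out2 : ∀ b, Y.e j (f b) = Y.e (j + 2) b₂ → g (X.e j b) = Y.e j b₁

/-- Mirror image: black and white vertices are exchanged. -/
def Web.dual (X : Web B W) : Web W B := ⟨fun i => (X.e (-i)).symm⟩

/-- Colours renamed cyclically. -/
def Web.rot (X : Web B W) : Web B W := ⟨fun i => X.e (i + 1)⟩

/-- two black and two white vertices: a 4-cycle with two opposite edges doubled -/
def base4 : Web (Fin 2) (Fin 2) := ⟨![Equiv.refl _, Equiv.refl _, Equiv.swap 0 1]⟩

/-- three black and three white vertices, faces of sizes 2, 2, 4, 4, 6 -/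
def base6 : Web (Fin 3) (Fin 3) := ⟨![Equiv.refl _, Equiv.swap 0 1, Equiv.swap 1 2]⟩

/-- The smallest class of maps which contains the two base maps, is closed under renaming the
colours cyclically and under mirror images, and is closed under the inverse of removing a 4-face
(`SqRel`) whenever the two faces of class `j + 1` next to the 4-face are different faces. -/
inductive Gen : {B W : Type} → Web B W → Prop
  | base4 : Gen base4
  | base6 : Gen base6
  | rot {B W : Type} (X : Web B W) : Gen X → Gen X.rot
  | mirror {B W : Type} (X : Web B W) : Gen X → Gen X.dual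
  | square {B W B' W' : Type} (Y : Web B W) (X : Web B' W') (f : B' → B) (g : W' → W) (j : Fin 3)
      (b₁ b₂ : B) : SqRel Y X f g j b₁ b₂ → ¬ Y.SameFace (j + 1) b₁ b₂ → Gen X → Gen Y

end Vale.Agent.P039.Sk
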