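import Vale.Agent.P039.Sk.Defs
import Mathlib.Algebra.BigOperators.Fin
import Mathlib.Algebra.BigOperators.Ring.Finset
import Mathlib.Data.Fintype.Pi
import Mathlib.Data.Fintype.BigOperators

namespace Vale.Agent.P039.Sk

variable {B W V : Type} {X : Web B W}

theorem f11 (j : Fin 3) : j + 1 + 1 = j + 2 := by revert j; decide
theorem f12 (j : Fin 3) : j + 1 + 2 = j := by revert j; decide
theorem f21 (j : Fin 3) : j + 2 + 1 = j := by revert j; decide
theorem f22 (j : Fin 3) : j + 2 + 2 = j + 1 := by revert j; decide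
theorem fcase (i j : Fin 3) : i = j ∨ i = j + 1 ∨ i = j + 2 := by revert i j; decide
theorem fne1 (j : Fin 3) : j + 1 ≠ j := by revert j; decide
theorem fne2 (j : Fin 3) : j + 2 ≠ j := by revert j; decide
theorem fne12 (j : Fin 3) : j + 1 ≠ j + 2 := by revert j; decide
theorem fne21 (j : Fin 3) : j + 2 ≠ j + 1 := by revert j; decide
theorem fne1' (j : Fin 3) : j ≠ j + 1 := by revert j; decide
theorem fne2' (j : Fin 3) : j ≠ j + 2 := by revert j; decide

/-- A labelling of the faces of `X` by the elements of `V`: `c j b` is the face of class `j` at the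
black vertex `b`. -/
structure Lab (X : Web B W) (V : Type) where
  c : Fin 3 → B → V
  step : ∀ j b b', X.e (j + 1) b' = X.e (j + 2) b → c j b' = c j b
  exact : ∀ j b b', c j b = c j b' →
    Relation.EqvGen (fun x y => X.e (j + 1) y = X.e (j + 2) x) b b'
  cls : ∀ j j' b b', c j b = c j' b' → j = j'
  surj : ∀ v, ∃ j b, c j b = v

/-- `h` is a height function. -/
def Lab.Valid (L : Lab X V) (h : V → ZMod 12) : Prop :=
  ∀ i b, h (L.c (i + 2) b) = h (L.c (i + 1) b) + 1 ∨ h (L.c (i + 2) b) = h (L.c (i + 1) b) - 2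

/-- The edges of the 2-factor given by `h`. -/
def Lab.HE (L : Lab X V) (h : V → ZMod 12) (x y : B ⊕ W) : Prop :=
  ∃ i b, h (L.c (i + 2) b) = h (L.c (i + 1) b) + 1 ∧ x = Sum.inl b ∧ y = Sum.inr (X.e i b)

def Lab.Conn (L : Lab X V) (h : V → ZMod 12) : Prop :=
  ∀ x y, Relation.EqvGen (L.HE h) x y

def Lab.Sol (L : Lab X V) (h : V → ZMod 12) : Prop := L.Valid h ∧ L.Conn h

/-- Reduction of heights modulo 4. -/
def kap : ZMod 12 →+* ZMod 4 := ZMod.castHom (by decide) (ZMod 4)

def eps (a : ZMod 4) : ℤ := if a = 0 then 1 else if a = 2 then -1 else 0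

theorem eps_add_two (a : ZMod 4) : eps (a + 2) = - eps a := by revert a; decide
theorem eps_neg (a : ZMod 4) : eps (-a) = eps a := by revert a; decide

/-- The exponent of the weight of `h`, for marks `m`. -/
def Lab.E [Fintype B] [Fintype V] (L : Lab X V) (m : V → ZMod 4) (h : V → ZMod 12) : ZMod 4 :=
  ∑ v, (3 + m v) * kap (h v) - ∑ b, ∑ j, kap (h (L.c j b))

open Classical in
/-- The signed count. -/
noncomputable def Lab.S [Fintype B] [Fintype V] (L : Lab X V) (m : V → ZMod 4) : ℤ :=
  ∑ h : V → ZMod 12, if L.Sol h then eps (L.E m h) else 0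

/-- the white vertex `w` has the same corner as a black vertex -/
theorem Lab.cw (L : Lab X V) (j : Fin 3) {b b' : B} (h : X.e (j + 1) b' = X.e (j + 2) b) :
    L.c j b' = L.c j b := L.step j b b' h

end Vale.Agent.P039.Sk
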