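import Vale.Agent.P039.Sk.Basic

/-! Further definitions for the square rule, duality and digons. -/

namespace Vale.Agent.P039.Sk

variable {B W V B' W' : Type}

/-- Faces of the web after removing the 4-face: `s = L.c j b₁` disappears, `p' = L.c (j+1) b₂` is
merged into `p = L.c (j+1) b₁`. (`q' = L.c (j+2) b₁`, `q = L.c (j+2) b₂`.) -/
abbrev Lab.V1 {Y : Web B W} (L : Lab Y V) (j : Fin 3) (b₁ b₂ : B) : Type :=
  {v : V // v ≠ L.c j b₁ ∧ v ≠ L.c (j + 1) b₂}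

section
variable {Y : Web B W}

def Lab.type1 (L : Lab Y V) (j : Fin 3) (b₁ b₂ : B) (h : V → ZMod 12) : Prop :=
  h (L.c (j + 1) b₁) = h (L.c (j + 1) b₂) ∧
    h (L.c j b₁) + h (L.c (j + 1) b₁) = h (L.c (j + 2) b₁) + h (L.c (j + 2) b₂)

def Lab.type2 (L : Lab Y V) (j : Fin 3) (b₁ b₂ : B) (h : V → ZMod 12) : Prop :=
  h (L.c (j + 2) b₁) = h (L.c (j + 2) b₂) ∧
    h (L.c j b₁) + h (L.c (j + 2) b₁) = h (L.c (j + 1) b₁) + h (L.c (j + 1) b₂)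

/-- the marks on the smaller web -/
def Lab.m1 [DecidableEq V] (L : Lab Y V) (j : Fin 3) (b₁ b₂ : B) (m : V → ZMod 4) :
    L.V1 j b₁ b₂ → ZMod 4 :=
  fun v => if v.1 = L.c (j + 1) b₁ then m (L.c (j + 1) b₁) + m (L.c (j + 1) b₂) else m v.1

/-- both new edges of the smaller web lie in the perfect matching -/
def Lab.mono {X : Web B' W'} {V' : Type} (L' : Lab X V') (j : Fin 3) (β₁ β₂ : B')
    (h : V' → ZMod 12) : Prop :=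
  h (L'.c (j + 2) β₁) = h (L'.c (j + 1) β₁) - 2 ∧ h (L'.c (j + 2) β₂) = h (L'.c (j + 1) β₂) - 2

/-- height functions on the outside of the 4-face which have both new edges in the matching -/
def Lab.ZS (L : Lab Y V) (j : Fin 3) (b₁ b₂ : B) (h : V → ZMod 12) : Prop :=
  h (L.c j b₁) = 0 ∧ h (L.c (j + 1) b₂) = h (L.c (j + 1) b₁) ∧
  h (L.c (j + 2) b₁) = h (L.c (j + 1) b₁) - 2 ∧ h (L.c (j + 2) b₂) = h (L.c (j + 1) b₁) - 2 ∧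
  (∀ i b, b ≠ b₁ → b ≠ b₂ →
    h (L.c (i + 2) b) = h (L.c (i + 1) b) + 1 ∨ h (L.c (i + 2) b) = h (L.c (i + 1) b) - 2) ∧
  ∀ x y : B ⊕ W, (x ≠ Sum.inl b₁ ∧ x ≠ Sum.inl b₂ ∧ x ≠ Sum.inr (Y.e (j + 2) b₁) ∧
      x ≠ Sum.inr (Y.e (j + 2) b₂)) →
    (y ≠ Sum.inl b₁ ∧ y ≠ Sum.inl b₂ ∧ y ≠ Sum.inr (Y.e (j + 2) b₁) ∧
      y ≠ Sum.inr (Y.e (j + 2) b₂)) →
    Relation.EqvGen (fun x y => ∃ i b, b ≠ b₁ ∧ b ≠ b₂ ∧ Y.e i b ≠ Y.e (j + 2) b₁ ∧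
      Y.e i b ≠ Y.e (j + 2) b₂ ∧ h (L.c (i + 2) b) = h (L.c (i + 1) b) + 1 ∧
      x = Sum.inl b ∧ y = Sum.inr (Y.e i b)) x y

variable [Fintype B] [Fintype V] [DecidableEq V]

open Classical in
noncomputable def Lab.T1 (L : Lab Y V) (j : Fin 3) (b₁ b₂ : B) (m : V → ZMod 4) : ℤ :=
  ∑ h : V → ZMod 12, if L.Sol h ∧ L.type1 j b₁ b₂ h then eps (L.E m h) else 0

open Classical in
noncomputable def Lab.T2 (L : Lab Y V) (j : Fin 3) (b₁ b₂ : B) (m : V → ZMod 4) : ℤ :=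
  ∑ h : V → ZMod 12, if L.Sol h ∧ L.type2 j b₁ b₂ h then eps (L.E m h) else 0

open Classical in
noncomputable def Lab.M1 (L : Lab Y V) (j : Fin 3) (b₁ b₂ : B) (m : V → ZMod 4) : ℤ :=
  ∑ h : V → ZMod 12, if L.ZS j b₁ b₂ h then eps (L.E m h + kap (h (L.c (j + 1) b₁))) else 0

end

/-- a 4-face `b₁ w₁ b₂ w₂` of class `j`, whose four outgoing edges do not end at the 4-face -/
structure Sq4 (Y : Web B W) (j : Fin 3) (b₁ b₂ : B) : Prop where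
  ne : b₁ ≠ b₂
  face : Y.e (j + 1) b₂ = Y.e (j + 2) b₁
  face' : Y.e (j + 1) b₁ = Y.e (j + 2) b₂
  n11 : Y.e j b₁ ≠ Y.e (j + 2) b₁
  n12 : Y.e j b₁ ≠ Y.e (j + 2) b₂
  n21 : Y.e j b₂ ≠ Y.e (j + 2) b₁
  n22 : Y.e j b₂ ≠ Y.e (j + 2) b₂

/-- `X` arises from `Y` by removing the digon at `b` (class `j`) -/
structure DgRel (Y : Web B W) (X : Web B' W') (f : B' → B) (g : W' → W) (j : Fin 3) (b : B) :
    Prop where
  fi : Function.Injective f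
  gi : Function.Injective g
  fr : ∀ b', (∃ a, f a = b') ↔ b' ≠ b
  gr : ∀ w, (∃ a, g a = w) ↔ w ≠ Y.e (j + 2) b
  face : Y.e (j + 1) b = Y.e (j + 2) b
  out : ∃ a, g a = Y.e j b
  other : ∀ i, i ≠ j → ∀ a, Y.e i (f a) = g (X.e i a)
  same : ∀ a, Y.e j (f a) ≠ Y.e (j + 2) b → Y.e j (f a) = g (X.e j a)
  out1 : ∀ a, Y.e j (f a) = Y.e (j + 2) b → g (X.e j a) = Y.e j b

end Vale.Agent.P039.Sk
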