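import Vale.Agent.P039.Sk.Basic2
import Mathlib.Tactic.LinearCombination

/-! The digon rules. -/

namespace Vale.Agent.P039.Sk

variable {B W V B' W' : Type}

section gen

variable {Y : Web B W} {j : Fin 3} {b : B}

theorem Lab.dg_edge (L : Lab Y V) (hu : ∀ b', L.c j b' = L.c j b → b' = b) :
    Y.e (j + 1) b = Y.e (j + 2) b := by
  have h := L.step j b ((Y.e (j + 1)).symm (Y.e (j + 2) b)) (by simp)
  have h2 := hu _ h
  rw [Equiv.symm_apply_eq] at h2
  exact h2.symm

theorem Lab.dg_not_conn_of_closed {L : Lab Y V} {h : V → ZMod 12} (P : B ⊕ W → Prop)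
    (hP : ∀ x y, L.HE h x y → (P x ↔ P y)) {x y : B ⊕ W} (hx : P x) (hy : ¬ P y) :
    ¬ L.Conn h := by
  intro hc
  have : ∀ x y, Relation.EqvGen (L.HE h) x y → (P x ↔ P y) := by
    intro x y hxy
    induction hxy with
    | rel x y h => exact hP x y h
    | refl x => exact Iff.rfl
    | symm x y _ ih => exact ih.symm
    | trans x y z _ _ ih1 ih2 => exact ih1.trans ih2
  exact hy ((this x y (hc x y)).1 hx)

/-- the single edges at a digon are in the 2-factor -/
theorem Lab.dg_up {L : Lab Y V} (hf : Y.e (j + 1) b = Y.e (j + 2) b) (hN : ∃ b', b' ≠ b)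
    {h : V → ZMod 12} (hc : L.Conn h) : h (L.c (j + 2) b) = h (L.c (j + 1) b) + 1 := by
  by_contra hne
  obtain ⟨b', hb'⟩ := hN
  refine Lab.dg_not_conn_of_closed (fun x => x = Sum.inl b ∨ x = Sum.inr (Y.e (j + 2) b)) ?_
    (x := Sum.inl b) (y := Sum.inl b') (Or.inl rfl) (by simp [hb']) hc
  rintro x y ⟨i, b1, h1, rfl, rfl⟩
  simp only [Sum.inl.injEq, reduceCtorEq, or_false, false_or, Sum.inr.injEq]
  rcases fcase i j with hi | hi | hi
  · rw [hi] at h1
    constructor
    · intro hb
      rw [hb] at h1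
      exact absurd h1 hne
    · intro h2
      rw [hi] at h2
      exfalso
      apply hne
      have s1 := L.step (j + 1) b1 b (by rw [f11, f12]; exact h2.symm)
      have s2 := L.step (j + 2) b b1 (by rw [f21, f22, h2, hf])
      rw [← s2, s1]
      exact h1
  · rw [hi, ← hf]
    exact ⟨fun hb => by rw [hb], fun h2 => (Y.e (j + 1)).injective h2⟩
  · rw [hi]
    exact ⟨fun hb => by rw [hb], fun h2 => (Y.e (j + 2)).injective h2⟩

theorem dg_sum3 (g : Fin 3 → ZMod 4) (j : Fin 3) : ∑ k, g k = g j + g (j + 1) + g (j + 2) := by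
  rw [Fin.sum_univ_three]
  fin_cases j
  · rfl
  · change g 0 + g 1 + g 2 = g 1 + g 2 + g 0
    ring
  · change g 0 + g 1 + g 2 = g 2 + g 0 + g 1
    ring

theorem dg_sum_split [Fintype B] [Fintype B'] {f : B' → B} (fi : Function.Injective f)
    (fr : ∀ b', (∃ a, f a = b') ↔ b' ≠ b) (G : B → ZMod 4) :
    ∑ b', G b' = G b + ∑ a, G (f a) := by
  classical
  let o : Option B' ≃ B := Equiv.ofBijective (fun o => o.elim b f) (by
    constructor
    · rintro (_ | x) (_ | y) h
      · rfl
      · exact absurd h.symm ((fr _).1 ⟨y, rfl⟩)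
      · exact absurd h ((fr _).1 ⟨x, rfl⟩)
      · exact congrArg some (fi h)
    · intro x
      by_cases hx : x = b
      · exact ⟨none, hx.symm⟩
      · obtain ⟨a, ha⟩ := (fr x).2 hx
        exact ⟨some a, ha⟩)
  rw [← o.sum_comp, Fintype.sum_option]
  rfl

variable [Fintype B] [Fintype V] [DecidableEq V]

theorem Lab.dg_E_split [Fintype B'] (L : Lab Y V) {f : B' → B} (fi : Function.Injective f)
    (fr : ∀ b', (∃ a, f a = b') ↔ b' ≠ b) (m : V → ZMod 4) (h : V → ZMod 12) :
    L.E m h = (2 + m (L.c j b)) * kap (h (L.c j b)) - kap (h (L.c (j + 1) b))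
      - kap (h (L.c (j + 2) b)) + (∑ v : {v : V // v ≠ L.c j b}, (3 + m v.1) * kap (h v.1)
      - ∑ a : B', ∑ k, kap (h (L.c k (f a)))) := by
  unfold Lab.E
  rw [dg_sum_split fi fr, Fintype.sum_eq_add_sum_subtype_ne _ (L.c j b),
    dg_sum3 (fun k => kap (h (L.c k b))) j]
  ring

open Classical in
theorem Lab.S_eq_dg (L : Lab Y V) (m : V → ZMod 4) :
    L.S m = ∑ h : V → ZMod 12, if L.Sol h then eps (L.E m h) else 0 := by
  unfold Lab.S
  apply Finset.sum_congr _ (fun _ _ => rfl)
  ext x
  simp only [Finset.mem_univ]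

end gen

variable {Y : Web B W} [Fintype B] [Fintype V] [DecidableEq V] {j : Fin 3} {b : B}

theorem dg_kap_two : kap 2 = 2 := by decide

theorem dg_four4 : (4 : ZMod 4) = 0 := by decide

/-- an unmarked digon: `b` is the only black vertex of the face `L.c j b` -/
theorem S_digon (L : Lab Y V) (m : V → ZMod 4) (hm : m (L.c j b) = 0)
    (hu : ∀ b', L.c j b' = L.c j b → b' = b) (hN : ∃ b', b' ≠ b) : L.S m = 0 := by
  classical
  have hf := L.dg_edge hu
  have hvs : L.c (j + 2) b ≠ L.c j b := fun h => fne2 j (L.cls _ _ _ _ h)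
  have hus : L.c (j + 1) b ≠ L.c j b := fun h => fne1 j (L.cls _ _ _ _ h)
  let σ : (V → ZMod 12) → (V → ZMod 12) := fun h =>
    Function.update h (L.c j b) (2 * h (L.c (j + 2) b) - 1 - h (L.c j b))
  have σs : ∀ h, σ h (L.c j b) = 2 * h (L.c (j + 2) b) - 1 - h (L.c j b) := fun h => by
    simp [σ]
  have σne : ∀ h v, v ≠ L.c j b → σ h v = h v := fun h v hv => by
    simp [σ, hv]
  have hσ : ∀ h, σ (σ h) = h := by
    intro h
    funext v
    by_cases hv : v = L.c j b
    · rw [hv, σs, σs, σne _ _ hvs]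
      ring
    · rw [σne _ _ hv, σne _ _ hv]
  have hSol : ∀ h, L.Sol h → L.Sol (σ h) := by
    rintro h ⟨hv, hc⟩
    have hup := Lab.dg_up hf hN hc
    have v1 := hv (j + 1) b
    rw [f12, f11] at v1
    have hd1 : h (L.c j b) = h (L.c (j + 2) b) + 1 →
        σ h (L.c j b) = h (L.c (j + 2) b) - 2 := by
      intro h1
      rw [σs, h1]
      ring
    have hd2 : h (L.c j b) = h (L.c (j + 2) b) - 2 →
        σ h (L.c j b) = h (L.c (j + 2) b) + 1 := by
      intro h1
      rw [σs, h1]
      ring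
    have hcls : ∀ k b1, L.c k b1 = L.c j b → k = j ∧ b1 = b := by
      intro k b1 h1
      have hk := L.cls _ _ _ _ h1
      rw [hk] at h1
      exact ⟨hk, hu _ h1⟩
    have key : ∀ i b1, ¬ (b1 = b ∧ i ≠ j) →
        σ h (L.c (i + 2) b1) = h (L.c (i + 2) b1) ∧ σ h (L.c (i + 1) b1) = h (L.c (i + 1) b1) := by
      intro i b1 hib
      constructor
      · apply σne
        intro h1
        obtain ⟨hk, hb⟩ := hcls _ _ h1
        apply hib
        refine ⟨hb, fun hij => ?_⟩
        rw [hij] at hk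
        exact fne2 j hk
      · apply σne
        intro h1
        obtain ⟨hk, hb⟩ := hcls _ _ h1
        apply hib
        refine ⟨hb, fun hij => ?_⟩
        rw [hij] at hk
        exact fne1 j hk
    constructor
    · intro i b1
      by_cases hib : b1 = b ∧ i ≠ j
      · obtain ⟨rfl, hij⟩ := hib
        rcases fcase i j with hi | hi | hi
        · exact absurd hi hij
        · rw [hi, f12, f11, σne _ _ hvs]
          rcases v1 with h1 | h1
          · exact Or.inr (hd1 h1)
          · exact Or.inl (hd2 h1)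
        · rw [hi, f22, f21, σne _ _ hus]
          rcases v1 with h1 | h1
          · left
            rw [hd1 h1, hup]
            ring
          · right
            rw [hd2 h1, hup]
            ring
      · rw [(key i b1 hib).1, (key i b1 hib).2]
        exact hv i b1
    · intro x y
      refine Relation.EqvGen.mono ?_ _ _ (hc x y)
      rintro x y ⟨i, b1, h1, rfl, rfl⟩
      by_cases hib : b1 = b ∧ i ≠ j
      · obtain ⟨rfl, hij⟩ := hib
        rcases v1 with h2 | h2
        · -- new: edge j + 2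
          refine ⟨j + 2, b1, ?_, rfl, ?_⟩
          · rw [f22, f21, σne _ _ hus, hd1 h2, hup]
            ring
          · rcases fcase i j with hi | hi | hi
            · exact absurd hi hij
            · rw [hi, hf]
            · rw [hi]
        · refine ⟨j + 1, b1, ?_, rfl, ?_⟩
          · rw [f12, f11, σne _ _ hvs, hd2 h2]
          · rcases fcase i j with hi | hi | hi
            · exact absurd hi hij
            · rw [hi]
            · rw [hi, hf]
      · exact ⟨i, b1, by rw [(key i b1 hib).1, (key i b1 hib).2]; exact h1, rfl, rfl⟩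
  have hE : ∀ h, L.Sol h → eps (L.E m (σ h)) = - eps (L.E m h) := by
    rintro h ⟨hv, hc⟩
    have v1 := hv (j + 1) b
    rw [f12, f11] at v1
    rw [L.dg_E_split (j := j) (b := b) (f := ((↑) : {a : B // a ≠ b} → B)) Subtype.val_injective
      (by simp) m (σ h), L.dg_E_split (j := j) (b := b) (f := ((↑) : {a : B // a ≠ b} → B))
      Subtype.val_injective (by simp) m h]
    have e1 : ∑ v : {v : V // v ≠ L.c j b}, (3 + m v.1) * kap (σ h v.1) =
        ∑ v : {v : V // v ≠ L.c j b}, (3 + m v.1) * kap (h v.1) :=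
      Finset.sum_congr rfl fun v _ => by rw [σne _ _ v.2]
    have e2 : ∑ a : {a : B // a ≠ b}, ∑ k, kap (σ h (L.c k a.1)) =
        ∑ a : {a : B // a ≠ b}, ∑ k, kap (h (L.c k a.1)) :=
      Finset.sum_congr rfl fun a _ => Finset.sum_congr rfl fun k _ => by
        rw [σne]
        intro h1
        have hk := L.cls _ _ _ _ h1
        rw [hk] at h1
        exact a.2 (hu _ h1)
    rw [e1, e2, hm, σs, σne _ _ hus, σne _ _ hvs]
    rw [← eps_add_two]
    congr 1
    rcases v1 with h1 | h1
    · rw [h1, map_sub, map_sub, map_mul, dg_kap_two, map_add, map_one]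
      linear_combination (-2 : ZMod 4) * dg_four4
    · rw [h1, map_sub, map_sub, map_mul, map_sub, dg_kap_two, map_one]
      linear_combination (1 : ZMod 4) * dg_four4
  have hmain : L.S m = - L.S m := by
    rw [Lab.S_eq_dg]
    rw [← Finset.sum_neg_distrib]
    refine Fintype.sum_equiv (⟨σ, σ, hσ, hσ⟩ : (V → ZMod 12) ≃ (V → ZMod 12)) _ _ fun h => ?_
    change _ = - (if L.Sol (σ h) then eps (L.E m (σ h)) else 0)
    by_cases hs : L.Sol h
    · rw [if_pos hs, if_pos (hSol h hs), hE h hs, neg_neg]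
    · rw [if_neg hs, if_neg (fun h1 => hs (by have := hSol _ h1; rwa [hσ] at this)), neg_zero]
  omega

/-- `Y` disconnected: the three edges of `b` are parallel -/
theorem S_isolated (L : Lab Y V) (m : V → ZMod 4) (h1 : Y.e (j + 1) b = Y.e j b)
    (h2 : Y.e (j + 2) b = Y.e j b) (hN : ∃ b', b' ≠ b) : L.S m = 0 := by
  classical
  rw [Lab.S_eq_dg]
  refine Finset.sum_eq_zero fun h _ => if_neg ?_
  rintro ⟨-, hc⟩
  obtain ⟨b', hb'⟩ := hN
  refine Lab.dg_not_conn_of_closed (fun x => x = Sum.inl b ∨ x = Sum.inr (Y.e j b)) ?_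
    (x := Sum.inl b) (y := Sum.inl b') (Or.inl rfl) (by simp [hb']) hc
  rintro x y ⟨i, b1, -, rfl, rfl⟩
  simp only [Sum.inl.injEq, reduceCtorEq, or_false, false_or, Sum.inr.injEq]
  have hi : Y.e j b = Y.e i b := by
    rcases fcase i j with hi | hi | hi
    · rw [hi]
    · rw [hi, h1]
    · rw [hi, h2]
  rw [hi]
  exact ⟨fun hb => by rw [hb], fun h3 => (Y.e i).injective h3⟩

omit [Fintype B] [Fintype V] [DecidableEq V] in
/-- only `b` lies on the digon -/
theorem DgRel.only {X : Web B' W'} {f : B' → B} {g : W' → W} (R : DgRel Y X f g j b)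
    (L : Lab Y V) {k : Fin 3} {b1 : B} (h : L.c k b1 = L.c j b) : k = j ∧ b1 = b := by
  have hk := L.cls _ _ _ _ h
  refine ⟨hk, ?_⟩
  rw [hk] at h
  have h1 := L.exact j b1 b h
  have key : ∀ x y, Relation.EqvGen (fun x y => Y.e (j + 1) y = Y.e (j + 2) x) x y →
      (x = b ↔ y = b) := by
    intro x y hxy
    induction hxy with
    | rel x y h2 =>
      constructor
      · rintro rfl
        rw [← R.face] at h2
        exact (Y.e (j + 1)).injective h2
      · rintro rfl
        rw [R.face] at h2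
        exact ((Y.e (j + 2)).injective h2).symm
    | refl x => exact Iff.rfl
    | symm x y _ ih => exact ih.symm
    | trans x y z _ _ ih1 ih2 => exact ih1.trans ih2
  exact (key _ _ h1).2 rfl

omit [Fintype B] [Fintype V] [DecidableEq V] in
theorem DgRel.exists_beta {X : Web B' W'} {f : B' → B} {g : W' → W} (R : DgRel Y X f g j b) :
    ∃ β : B', Y.e j (f β) = Y.e (j + 2) b := by
  have h1 : Y.e j b ≠ Y.e (j + 2) b := (R.gr _).1 R.out
  have h2 : (Y.e j).symm (Y.e (j + 2) b) ≠ b := by
    intro h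
    rw [Equiv.symm_apply_eq] at h
    exact h1 h.symm
  obtain ⟨β, hβ⟩ := (R.fr _).2 h2
  exact ⟨β, by rw [hβ, Equiv.apply_symm_apply]⟩

omit [Fintype B] [Fintype V] [DecidableEq V] in
theorem DgRel.c1 {X : Web B' W'} {f : B' → B} {g : W' → W} (R : DgRel Y X f g j b)
    (L : Lab Y V) {b1 : B} (hβ : Y.e j b1 = Y.e (j + 2) b) :
    L.c (j + 1) b1 = L.c (j + 1) b :=
  (L.step (j + 1) b1 b (by rw [f11, f12, hβ])).symm

omit [Fintype B] [Fintype V] [DecidableEq V] in
theorem DgRel.c2 {X : Web B' W'} {f : B' → B} {g : W' → W} (R : DgRel Y X f g j b)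
    (L : Lab Y V) {b1 : B} (hβ : Y.e j b1 = Y.e (j + 2) b) :
    L.c (j + 2) b1 = L.c (j + 2) b :=
  L.step (j + 2) b b1 (by rw [f21, f22, hβ, R.face])

theorem DgRel.exists_lab {X : Web B' W'} {f : B' → B} {g : W' → W} (R : DgRel Y X f g j b)
    (L : Lab Y V) :
    ∃ L' : Lab X {v : V // v ≠ L.c j b}, ∀ k a, ((L'.c k a : {v : V // v ≠ L.c j b}) : V) =
      L.c k (f a) := by
  classical
  obtain ⟨β, hβ⟩ := R.exists_beta
  have hfb : ∀ a, f a ≠ b := fun a => (R.fr _).1 ⟨a, rfl⟩
  have hgw : ∀ z, g z ≠ Y.e (j + 2) b := fun z => (R.gr _).1 ⟨z, rfl⟩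
  have hne : ∀ k a, L.c k (f a) ≠ L.c j b := fun k a h => hfb a (R.only L h).2
  have hb0 : Y.e j b ≠ Y.e (j + 2) b := (R.gr _).1 R.out
  -- collapse map
  have hπ : ∃ π : B → B', (∀ a, π (f a) = a) ∧ π b = β := by
    have h0 : ∀ b', ∃ a, (∀ a', b' = f a' → a = a') ∧ (b' = b → a = β) := by
      intro b'
      by_cases hb : b' = b
      · exact ⟨β, fun a' h => absurd (h.symm.trans hb) (hfb a'), fun _ => rfl⟩
      · obtain ⟨a, ha⟩ := (R.fr _).2 hb
        exact ⟨a, fun a' h => R.fi (ha.trans h), fun h => absurd h hb⟩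
    choose π h1 h2 using h0
    exact ⟨π, fun a => h1 _ _ rfl, h2 b rfl⟩
  obtain ⟨π, hπf, hπb⟩ := hπ
  have hrel : ∀ k x y, Y.e (k + 1) y = Y.e (k + 2) x →
      Relation.EqvGen (fun x y => X.e (k + 1) y = X.e (k + 2) x) (π x) (π y) := by
    intro k x y hxy
    rcases fcase k j with rfl | hk | hk
    · -- k = j
      by_cases hx : x = b
      · rw [hx] at hxy ⊢
        rw [← R.face] at hxy
        rw [(Y.e (k + 1)).injective hxy]
        exact Relation.EqvGen.refl _
      · obtain ⟨a, rfl⟩ := (R.fr _).2 hx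
        by_cases hy : y = b
        · rw [hy] at hxy ⊢
          rw [R.face] at hxy
          rw [(Y.e (k + 2)).injective hxy]
          exact Relation.EqvGen.refl _
        · obtain ⟨a', rfl⟩ := (R.fr _).2 hy
          rw [hπf, hπf]
          refine Relation.EqvGen.rel _ _ (R.gi ?_)
          rw [← R.other _ (fne1 k), ← R.other _ (fne2 k)]
          exact hxy
    · -- k = j + 1
      rw [hk, f11, f12] at hxy ⊢
      by_cases hx : x = b
      · rw [hx] at hxy ⊢
        by_cases hy : y = b
        · rw [hy]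
          exact Relation.EqvGen.refl _
        · obtain ⟨a', rfl⟩ := (R.fr _).2 hy
          rw [hπf, hπb]
          refine Relation.EqvGen.rel _ _ (R.gi ?_)
          rw [← R.other _ (fne2 j), R.out1 β hβ]
          exact hxy
      · obtain ⟨a, rfl⟩ := (R.fr _).2 hx
        by_cases hy : y = b
        · rw [hy] at hxy ⊢
          rw [hπf, hπb]
          rw [← hβ] at hxy
          rw [R.fi ((Y.e j).injective hxy)]
          exact Relation.EqvGen.refl _
        · obtain ⟨a', rfl⟩ := (R.fr _).2 hy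
          rw [hπf, hπf]
          refine Relation.EqvGen.rel _ _ (R.gi ?_)
          rw [R.other _ (fne2 j)] at hxy
          rw [hxy, R.same a]
          rw [← hxy]
          exact hgw _
    · -- k = j + 2
      rw [hk, f21, f22] at hxy ⊢
      by_cases hx : x = b
      · rw [hx] at hxy ⊢
        by_cases hy : y = b
        · rw [hy]
          exact Relation.EqvGen.refl _
        · obtain ⟨a', rfl⟩ := (R.fr _).2 hy
          rw [hπf, hπb]
          rw [R.face, ← hβ] at hxy
          rw [R.fi ((Y.e j).injective hxy)]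
          exact Relation.EqvGen.refl _
      · obtain ⟨a, rfl⟩ := (R.fr _).2 hx
        by_cases hy : y = b
        · rw [hy] at hxy ⊢
          rw [hπf, hπb]
          refine Relation.EqvGen.rel _ _ (R.gi ?_)
          rw [← R.other _ (fne1 j), R.out1 β hβ]
          exact hxy
        · obtain ⟨a', rfl⟩ := (R.fr _).2 hy
          rw [hπf, hπf]
          refine Relation.EqvGen.rel _ _ (R.gi ?_)
          rw [R.other _ (fne1 j)] at hxy
          rw [← hxy, R.same a']
          rw [hxy]
          exact hgw _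
  refine ⟨⟨fun k a => ⟨L.c k (f a), hne k a⟩, ?_, ?_, ?_, ?_⟩, fun k a => rfl⟩
  · -- step
    intro k a a' h
    apply Subtype.ext
    change L.c k (f a') = L.c k (f a)
    rcases fcase k j with rfl | hk | hk
    · apply L.step
      rw [R.other _ (fne1 k), R.other _ (fne2 k), h]
    · rw [hk, f11, f12] at h
      rw [hk]
      by_cases hw : Y.e j (f a) = Y.e (j + 2) b
      · have h1 := R.out1 a hw
        rw [← h, ← R.other _ (fne2 j)] at h1
        rw [R.c1 L hw]
        apply L.step
        rw [f11, f12, h1]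
      · apply L.step
        rw [f11, f12, R.other _ (fne2 j), R.same a hw, h]
    · rw [hk, f21, f22] at h
      rw [hk]
      by_cases hw : Y.e j (f a') = Y.e (j + 2) b
      · have h1 := R.out1 a' hw
        rw [h, ← R.other _ (fne1 j)] at h1
        rw [R.c2 L hw]
        symm
        apply Eq.symm
        apply L.step
        rw [f21, f22, h1]
      · apply L.step
        rw [f21, f22, R.other _ (fne1 j), R.same a' hw, h]
  · -- exact
    intro k a a' h
    have h1 := L.exact k (f a) (f a') (Subtype.ext_iff.1 h)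
    have key : ∀ x y, Relation.EqvGen (fun x y => Y.e (k + 1) y = Y.e (k + 2) x) x y →
        Relation.EqvGen (fun x y => X.e (k + 1) y = X.e (k + 2) x) (π x) (π y) := by
      intro x y hxy
      induction hxy with
      | rel x y h => exact hrel k x y h
      | refl x => exact Relation.EqvGen.refl _
      | symm x y _ ih => exact Relation.EqvGen.symm _ _ ih
      | trans x y z _ _ ih1 ih2 => exact Relation.EqvGen.trans _ _ _ ih1 ih2
    have h2 := key _ _ h1
    rwa [hπf, hπf] at h2
  · -- cls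
    intro k k' a a' h
    exact L.cls _ _ _ _ (Subtype.ext_iff.1 h)
  · -- surj
    rintro ⟨v, hv⟩
    obtain ⟨k, b', hb'⟩ := L.surj v
    by_cases hb : b' = b
    · rcases fcase k j with hk | hk | hk
      · exfalso
        apply hv
        rw [← hb', hb, hk]
      · refine ⟨k, β, Subtype.ext ?_⟩
        change L.c k (f β) = v
        rw [← hb', hb, hk]
        exact R.c1 L hβ
      · refine ⟨k, β, Subtype.ext ?_⟩
        change L.c k (f β) = v
        rw [← hb', hb, hk]
        exact R.c2 L hβ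
    · obtain ⟨a, ha⟩ := (R.fr _).2 hb
      refine ⟨k, a, Subtype.ext ?_⟩
      change L.c k (f a) = v
      rw [ha, hb']

/-- a height function of `Y` with `h v = h u + 1` is connected iff its restriction is -/
theorem DgRel.conn_iff {X : Web B' W'} {f : B' → B} {g : W' → W}
    (R : DgRel Y X f g j b)
    (L : Lab Y V) (L' : Lab X {v : V // v ≠ L.c j b})
    (hL' : ∀ k a, ((L'.c k a : {v : V // v ≠ L.c j b}) : V) = L.c k (f a))
    (h : V → ZMod 12) (hup : h (L.c (j + 2) b) = h (L.c (j + 1) b) + 1)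
    (hs : h (L.c j b) = h (L.c (j + 2) b) + 1 ∨ h (L.c j b) = h (L.c (j + 2) b) - 2) :
    L.Conn h ↔ L'.Conn (fun v => h v.1) := by
  classical
  obtain ⟨β, hβ⟩ := R.exists_beta
  have hfb : ∀ a, f a ≠ b := fun a => (R.fr _).1 ⟨a, rfl⟩
  have hgw : ∀ z, g z ≠ Y.e (j + 2) b := fun z => (R.gr _).1 ⟨z, rfl⟩
  have hb0 : Y.e j b ≠ Y.e (j + 2) b := (R.gr _).1 R.out
  -- edges of the 2-factor at the digon
  have hupβ : h (L.c (j + 2) (f β)) = h (L.c (j + 1) (f β)) + 1 := by
    rw [R.c1 L hβ, R.c2 L hβ, hup]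
  have eβ : L.HE h (Sum.inl (f β)) (Sum.inr (Y.e (j + 2) b)) := ⟨j, f β, hupβ, rfl, by rw [hβ]⟩
  have eb : L.HE h (Sum.inl b) (Sum.inr (Y.e j b)) := ⟨j, b, hup, rfl, rfl⟩
  have ebw : L.HE h (Sum.inl b) (Sum.inr (Y.e (j + 2) b)) := by
    rcases hs with hs | hs
    · exact ⟨j + 1, b, by rw [f12, f11, hs], rfl, by rw [R.face]⟩
    · refine ⟨j + 2, b, ?_, rfl, rfl⟩
      rw [f22, f21, hs, hup]
      ring
  constructor
  · intro hc
    -- collapse map
    have hπ : ∃ π : B ⊕ W → B' ⊕ W', (∀ a, π (Sum.inl (f a)) = Sum.inl a) ∧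
        (∀ z, π (Sum.inr (g z)) = Sum.inr z) ∧ π (Sum.inl b) = Sum.inl β ∧
        π (Sum.inr (Y.e (j + 2) b)) = Sum.inl β := by
      have h0 : ∀ b', ∃ a, (∀ a', b' = f a' → a = a') ∧ (b' = b → a = β) := by
        intro b'
        by_cases hb : b' = b
        · exact ⟨β, fun a' h => absurd (h.symm.trans hb) (hfb a'), fun _ => rfl⟩
        · obtain ⟨a, ha⟩ := (R.fr _).2 hb
          exact ⟨a, fun a' h => R.fi (ha.trans h), fun h => absurd h hb⟩
      have h00 : ∀ w : W, ∃ x : B' ⊕ W', (∀ z, w = g z → x = Sum.inr z) ∧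
          (w = Y.e (j + 2) b → x = Sum.inl β) := by
        intro w
        by_cases hb : w = Y.e (j + 2) b
        · exact ⟨Sum.inl β, fun z h => absurd (h.symm.trans hb) (hgw z), fun _ => rfl⟩
        · obtain ⟨z, hz⟩ := (R.gr _).2 hb
          exact ⟨Sum.inr z, fun z' h => by rw [R.gi (hz.trans h)], fun h => absurd h hb⟩
      choose π h1 h2 using h0
      choose ϖ h3 h4 using h00
      refine ⟨Sum.elim (fun x => Sum.inl (π x)) ϖ, fun a => ?_, fun z => ?_, ?_, ?_⟩
      · rw [Sum.elim_inl, h1 _ _ rfl]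
      · rw [Sum.elim_inr, h3 _ _ rfl]
      · rw [Sum.elim_inl, h2 _ rfl]
      · rw [Sum.elim_inr, h4 _ rfl]
    obtain ⟨π, hπf, hπg, hπb, hπw⟩ := hπ
    have hX : L'.HE (fun v => h v.1) (Sum.inl β) (Sum.inr (X.e j β)) := by
      refine ⟨j, β, ?_, rfl, rfl⟩
      change h (L'.c (j + 2) β).1 = h (L'.c (j + 1) β).1 + 1
      rw [hL', hL', hupβ]
    have step : ∀ x y, L.HE h x y →
        Relation.EqvGen (L'.HE (fun v => h v.1)) (π x) (π y) := by
      rintro x y ⟨i, b1, h1, rfl, rfl⟩
      by_cases hb1 : b1 = b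
      · rw [hb1, hπb]
        rcases fcase i j with hi | hi | hi
        · rw [hi, ← R.out1 β hβ, hπg]
          exact Relation.EqvGen.rel _ _ hX
        · rw [hi, R.face, hπw]
          exact Relation.EqvGen.refl _
        · rw [hi, hπw]
          exact Relation.EqvGen.refl _
      · obtain ⟨a, rfl⟩ := (R.fr _).2 hb1
        rw [hπf]
        have hXa : L'.HE (fun v => h v.1) (Sum.inl a) (Sum.inr (X.e i a)) := by
          refine ⟨i, a, ?_, rfl, rfl⟩
          change h (L'.c (i + 2) a).1 = h (L'.c (i + 1) a).1 + 1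
          rw [hL', hL', h1]
        by_cases hi : i = j
        · by_cases hw : Y.e j (f a) = Y.e (j + 2) b
          · rw [hi, hw, hπw]
            rw [← hβ] at hw
            rw [R.fi ((Y.e j).injective hw)]
            exact Relation.EqvGen.refl _
          · rw [hi] at hXa
            rw [hi, R.same a hw, hπg]
            exact Relation.EqvGen.rel _ _ hXa
        · rw [R.other i hi, hπg]
          exact Relation.EqvGen.rel _ _ hXa
    have key : ∀ x y, Relation.EqvGen (L.HE h) x y →
        Relation.EqvGen (L'.HE (fun v => h v.1)) (π x) (π y) := by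
      intro x y hxy
      induction hxy with
      | rel x y h => exact step x y h
      | refl x => exact Relation.EqvGen.refl _
      | symm x y _ ih => exact Relation.EqvGen.symm _ _ ih
      | trans x y z _ _ ih1 ih2 => exact Relation.EqvGen.trans _ _ _ ih1 ih2
    have hsurj : ∀ x, ∃ x', π x' = x := by
      rintro (a | z)
      · exact ⟨_, hπf a⟩
      · exact ⟨_, hπg z⟩
    intro x y
    obtain ⟨x', rfl⟩ := hsurj x
    obtain ⟨y', rfl⟩ := hsurj y
    exact key _ _ (hc _ _)
  · intro hc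
    let ι : B' ⊕ W' → B ⊕ W := Sum.map f g
    have step : ∀ x y, L'.HE (fun v => h v.1) x y → Relation.EqvGen (L.HE h) (ι x) (ι y) := by
      rintro x y ⟨i, a, h1, rfl, rfl⟩
      have h1' : h (L.c (i + 2) (f a)) = h (L.c (i + 1) (f a)) + 1 := by
        rw [← hL', ← hL']
        exact h1
      have hY : L.HE h (Sum.inl (f a)) (Sum.inr (Y.e i (f a))) := ⟨i, f a, h1', rfl, rfl⟩
      change Relation.EqvGen (L.HE h) (Sum.inl (f a)) (Sum.inr (g (X.e i a)))
      by_cases hi : i = j
      · by_cases hw : Y.e j (f a) = Y.e (j + 2) b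
        · rw [hi, R.out1 a hw]
          rw [hi, hw] at hY
          exact Relation.EqvGen.trans _ _ _ (Relation.EqvGen.rel _ _ hY)
            (Relation.EqvGen.trans _ _ _ (Relation.EqvGen.symm _ _ (Relation.EqvGen.rel _ _ ebw))
              (Relation.EqvGen.rel _ _ eb))
        · rw [hi] at hY
          rw [hi, ← R.same a hw]
          exact Relation.EqvGen.rel _ _ hY
      · rw [← R.other i hi]
        exact Relation.EqvGen.rel _ _ hY
    have key : ∀ x y, Relation.EqvGen (L'.HE (fun v => h v.1)) x y →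
        Relation.EqvGen (L.HE h) (ι x) (ι y) := by
      intro x y hxy
      induction hxy with
      | rel x y h => exact step x y h
      | refl x => exact Relation.EqvGen.refl _
      | symm x y _ ih => exact Relation.EqvGen.symm _ _ ih
      | trans x y z _ _ ih1 ih2 => exact Relation.EqvGen.trans _ _ _ ih1 ih2
    -- every vertex is connected to some `ι x`
    have hall : ∀ x, ∃ x', Relation.EqvGen (L.HE h) x (ι x') := by
      rintro (b1 | w)
      · by_cases hb1 : b1 = b
        · rw [hb1]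
          refine ⟨Sum.inl β, Relation.EqvGen.trans _ _ _ (Relation.EqvGen.rel _ _ ebw)
            (Relation.EqvGen.symm _ _ (Relation.EqvGen.rel _ _ eβ))⟩
        · obtain ⟨a, rfl⟩ := (R.fr _).2 hb1
          exact ⟨Sum.inl a, Relation.EqvGen.refl _⟩
      · by_cases hw : w = Y.e (j + 2) b
        · rw [hw]
          exact ⟨Sum.inl β, Relation.EqvGen.symm _ _ (Relation.EqvGen.rel _ _ eβ)⟩
        · obtain ⟨z, rfl⟩ := (R.gr _).2 hw
          exact ⟨Sum.inr z, Relation.EqvGen.refl _⟩
    intro x y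
    obtain ⟨x', hx'⟩ := hall x
    obtain ⟨y', hy'⟩ := hall y
    exact Relation.EqvGen.trans _ _ _ hx' (Relation.EqvGen.trans _ _ _ (key _ _ (hc x' y'))
      (Relation.EqvGen.symm _ _ hy'))

theorem DgRel.sol_iff {X : Web B' W'} {f : B' → B} {g : W' → W}
    (R : DgRel Y X f g j b)
    (L : Lab Y V) (L' : Lab X {v : V // v ≠ L.c j b})
    (hL' : ∀ k a, ((L'.c k a : {v : V // v ≠ L.c j b}) : V) = L.c k (f a))
    (h : V → ZMod 12) :
    L.Sol h ↔ L'.Sol (fun v => h v.1) ∧ h (L.c (j + 2) b) = h (L.c (j + 1) b) + 1 ∧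
      (h (L.c j b) = h (L.c (j + 2) b) + 1 ∨ h (L.c j b) = h (L.c (j + 2) b) - 2) := by
  have hN : ∃ b', b' ≠ b := by
    obtain ⟨β, hβ⟩ := R.exists_beta
    exact ⟨f β, (R.fr _).1 ⟨β, rfl⟩⟩
  constructor
  · rintro ⟨hv, hc⟩
    have hup := Lab.dg_up R.face hN hc
    have v1 := hv (j + 1) b
    rw [f12, f11] at v1
    refine ⟨⟨fun i a => ?_, (R.conn_iff L L' hL' h hup v1).1 hc⟩, hup, v1⟩
    change h (L'.c (i + 2) a).1 = h (L'.c (i + 1) a).1 + 1 ∨
      h (L'.c (i + 2) a).1 = h (L'.c (i + 1) a).1 - 2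
    rw [hL', hL']
    exact hv i (f a)
  · rintro ⟨⟨hv, hc⟩, hup, v1⟩
    refine ⟨fun i b1 => ?_, (R.conn_iff L L' hL' h hup v1).2 hc⟩
    by_cases hb1 : b1 = b
    · rw [hb1]
      rcases fcase i j with hi | hi | hi
      · rw [hi]
        exact Or.inl hup
      · rw [hi, f12, f11]
        exact v1
      · rw [hi, f22, f21]
        rcases v1 with h1 | h1
        · right
          rw [h1, hup]
          ring
        · left
          rw [h1, hup]
          ring
    · obtain ⟨a, rfl⟩ := (R.fr _).2 hb1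
      have := hv i a
      change h (L'.c (i + 2) a).1 = h (L'.c (i + 1) a).1 + 1 ∨
        h (L'.c (i + 2) a).1 = h (L'.c (i + 1) a).1 - 2 at this
      rwa [hL', hL'] at this

theorem dg_eps_c1 : ∀ x e : ZMod 4, eps (e + x) + eps (e + (x - 2)) = 0 := by decide

theorem S_digon_marked [Fintype B'] {X : Web B' W'} {f : B' → B} {g : W' → W}
    (R : DgRel Y X f g j b)
    (L : Lab Y V) (L' : Lab X {v : V // v ≠ L.c j b})
    (hL' : ∀ k a, ((L'.c k a : {v : V // v ≠ L.c j b}) : V) = L.c k (f a))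
    (m : V → ZMod 4) (hm : m (L.c j b) = 1) :
    L.S m = L'.S (fun v => m v.1 + if v.1 = L.c (j + 2) b then 1 else 0)
      + L'.S (fun v => m v.1 + if v.1 = L.c (j + 1) b then 1 else 0) := by
  classical
  obtain ⟨β, hβ⟩ := R.exists_beta
  have hvs : L.c (j + 2) b ≠ L.c j b := fun h => fne2 j (L.cls _ _ _ _ h)
  have hus : L.c (j + 1) b ≠ L.c j b := fun h => fne1 j (L.cls _ _ _ _ h)
  rw [Lab.S_eq_dg, Lab.S_eq_dg, Lab.S_eq_dg, ← Finset.sum_add_distrib]
  rw [← (Equiv.funSplitAt (L.c j b) (ZMod 12)).symm.sum_comp, Fintype.sum_prod_type_right]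
  refine Finset.sum_congr rfl fun h' _ => ?_
  -- the exponent of `X`
  set E0 : ZMod 4 := ∑ v : {v : V // v ≠ L.c j b}, (3 + m v.1) * kap (h' v)
      - ∑ a : B', ∑ k, kap (h' (L'.c k a)) with hE0
  set v0 : {v : V // v ≠ L.c j b} := ⟨L.c (j + 2) b, hvs⟩ with hv0
  set u0 : {v : V // v ≠ L.c j b} := ⟨L.c (j + 1) b, hus⟩ with hu0
  have hEX : ∀ z : {v : V // v ≠ L.c j b}, L'.E (fun v => m v.1 + if v.1 = z.1 then 1 else 0) h' =
      E0 + kap (h' z) := by
    intro z
    have e1 : ∑ v : {v : V // v ≠ L.c j b}, (3 + (m v.1 + if v.1 = z.1 then 1 else 0)) * kap (h' v) =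
        ∑ v : {v : V // v ≠ L.c j b}, (3 + m v.1) * kap (h' v) + kap (h' z) := by
      have e2 : kap (h' z) = ∑ v : {v : V // v ≠ L.c j b}, if v = z then kap (h' v) else 0 := by
        rw [Finset.sum_ite_eq' Finset.univ z, if_pos (Finset.mem_univ _)]
      rw [e2, ← Finset.sum_add_distrib]
      refine Finset.sum_congr rfl fun v _ => ?_
      by_cases hz : v = z
      · rw [if_pos hz, if_pos (by rw [hz])]
        ring
      · rw [if_neg hz, if_neg (fun h => hz (Subtype.ext h))]
        ring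
    unfold Lab.E
    rw [e1, hE0]
    ring
  have hex : ∀ (t : ZMod 12) (v : {v : V // v ≠ L.c j b}),
      (Equiv.funSplitAt (L.c j b) (ZMod 12)).symm (t, h') v.1 = h' v := by
    intro t v
    simp [Equiv.funSplitAt, Equiv.piSplitAt, v.2]
  have hexs : ∀ (t : ZMod 12), (Equiv.funSplitAt (L.c j b) (ZMod 12)).symm (t, h') (L.c j b) = t := by
    intro t
    simp [Equiv.funSplitAt, Equiv.piSplitAt]
  have hEY : ∀ t : ZMod 12, L.E m ((Equiv.funSplitAt (L.c j b) (ZMod 12)).symm (t, h')) =
      E0 - kap t - kap (h' u0) - kap (h' v0) := by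
    intro t
    have hHv := hex t v0
    have hHu := hex t u0
    change (Equiv.funSplitAt (L.c j b) (ZMod 12)).symm (t, h') (L.c (j + 2) b) = h' v0 at hHv
    change (Equiv.funSplitAt (L.c j b) (ZMod 12)).symm (t, h') (L.c (j + 1) b) = h' u0 at hHu
    have e1 : ∑ v : {v : V // v ≠ L.c j b}, (3 + m v.1) *
        kap ((Equiv.funSplitAt (L.c j b) (ZMod 12)).symm (t, h') v.1) =
        ∑ v : {v : V // v ≠ L.c j b}, (3 + m v.1) * kap (h' v) :=
      Finset.sum_congr rfl fun v _ => by rw [hex]
    have e2 : ∑ a : B', ∑ k, kap ((Equiv.funSplitAt (L.c j b) (ZMod 12)).symm (t, h') (L.c k (f a))) =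
        ∑ a : B', ∑ k, kap (h' (L'.c k a)) :=
      Finset.sum_congr rfl fun a _ => Finset.sum_congr rfl fun k _ => by
        rw [← hL', hex]
    rw [L.dg_E_split (j := j) (b := b) R.fi R.fr]
    rw [e1, e2, hexs, hm, hHv, hHu, hE0]
    linear_combination (kap t) * dg_four4
  have hSol : ∀ t : ZMod 12, L.Sol ((Equiv.funSplitAt (L.c j b) (ZMod 12)).symm (t, h')) ↔
      L'.Sol h' ∧ h' v0 = h' u0 + 1 ∧ (t = h' v0 + 1 ∨ t = h' v0 - 2) := by
    intro t
    have hHv := hex t v0
    have hHu := hex t u0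
    change (Equiv.funSplitAt (L.c j b) (ZMod 12)).symm (t, h') (L.c (j + 2) b) = h' v0 at hHv
    change (Equiv.funSplitAt (L.c j b) (ZMod 12)).symm (t, h') (L.c (j + 1) b) = h' u0 at hHu
    have hres : (fun v : {v : V // v ≠ L.c j b} =>
        (Equiv.funSplitAt (L.c j b) (ZMod 12)).symm (t, h') v.1) = h' := funext fun v => hex t v
    rw [R.sol_iff L L' hL', hres, hHv, hHu, hexs]
  by_cases hs : L'.Sol h'
  · rw [if_pos hs, if_pos hs]
    have hEv := hEX v0
    have hEu := hEX u0
    have hvu : h' v0 = h' u0 + 1 ∨ h' v0 = h' u0 - 2 := by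
      have h1 := hs.1 j β
      have c1 : L'.c (j + 1) β = u0 := Subtype.ext (by rw [hL', R.c1 L hβ])
      have c2 : L'.c (j + 2) β = v0 := Subtype.ext (by rw [hL', R.c2 L hβ])
      rwa [c1, c2] at h1
    change _ = eps (L'.E (fun v => m v.1 + if v.1 = v0.1 then 1 else 0) h') +
      eps (L'.E (fun v => m v.1 + if v.1 = u0.1 then 1 else 0) h')
    rw [hEv, hEu]
    rcases hvu with h1 | h1
    · have hne : h' v0 + 1 ≠ h' v0 - 2 := by
        generalize h' v0 = x
        revert x
        decide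
      rw [Fintype.sum_eq_add (h' v0 + 1) (h' v0 - 2) hne]
      · rw [if_pos ((hSol _).2 ⟨hs, h1, Or.inl rfl⟩), if_pos ((hSol _).2 ⟨hs, h1, Or.inr rfl⟩),
          hEY, hEY, h1]
        simp only [map_add, map_sub, map_one, dg_kap_two]
        congr 2
        · linear_combination (-(kap (h' u0)) - 1) * dg_four4
        · linear_combination (-(kap (h' u0))) * dg_four4
      · rintro t ⟨ht1, ht2⟩
        rw [if_neg]
        rw [hSol]
        rintro ⟨-, -, ht | ht⟩
        · exact ht1 ht
        · exact ht2 ht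
    · rw [Finset.sum_eq_zero]
      · rw [h1, map_sub, dg_kap_two, add_comm, dg_eps_c1]
      · intro t _
        rw [if_neg]
        rw [hSol, h1]
        rintro ⟨-, h2, -⟩
        revert h2
        generalize h' u0 = x
        revert x
        decide
  · rw [if_neg hs, if_neg hs, add_zero]
    exact Finset.sum_eq_zero fun t _ => if_neg fun h => hs ((hSol t).1 h).1

theorem DgRel.card_B [Fintype B'] {X : Web B' W'} {f : B' → B} {g : W' → W}
    (R : DgRel Y X f g j b) : Fintype.card B = Fintype.card B' + 1 := by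
  classical
  let o : Option B' ≃ B := Equiv.ofBijective (fun o => o.elim b f) (by
    constructor
    · rintro (_ | x) (_ | y) h
      · rfl
      · exact absurd h.symm ((R.fr _).1 ⟨y, rfl⟩)
      · exact absurd h ((R.fr _).1 ⟨x, rfl⟩)
      · exact congrArg some (R.fi h)
    · intro x
      by_cases hx : x = b
      · exact ⟨none, hx.symm⟩
      · obtain ⟨a, ha⟩ := (R.fr x).2 hx
        exact ⟨some a, ha⟩)
  rw [← Fintype.card_option]
  exact (Fintype.card_congr o).symm

theorem DgRel.card_V (L : Lab Y V) :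
    Fintype.card V = Fintype.card {v : V // v ≠ L.c j b} + 1 := by
  rw [← Fintype.card_option]
  exact Fintype.card_congr (Equiv.optionSubtypeNe (L.c j b)).symm

end Vale.Agent.P039.Sk
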