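import Vale.Agent.P039.Sk.Basic2
import Mathlib.Tactic.LinearCombination

/-! Exchanging black and white. -/

namespace Vale.Agent.P039.Sk

variable {B W V B' W' : Type}

theorem Web.dual_dual (X : Web B W) : X.dual.dual = X := by
  cases X with
  | mk e =>
    unfold Web.dual
    congr 1
    funext i
    simp only [Equiv.symm_symm, neg_neg]

variable {X : Web B W}

/-- transport of generated equivalences -/
theorem dual_eqvGen {α β : Type} {R : α → α → Prop} {S : β → β → Prop} (f : α → β)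
    (hf : ∀ x y, R x y → S (f x) (f y) ∨ S (f y) (f x)) {x y : α}
    (h : Relation.EqvGen R x y) : Relation.EqvGen S (f x) (f y) := by
  induction h with
  | rel x y h =>
    rcases hf x y h with h1 | h1
    · exact .rel _ _ h1
    · exact .symm _ _ (.rel _ _ h1)
  | refl x => exact .refl _
  | symm x y _ ih => exact .symm _ _ ih
  | trans x y z _ _ ih1 ih2 => exact .trans _ _ _ ih1 ih2

theorem dual_n1 (j : Fin 3) : -(j + 1) = -j + 2 := by revert j; decide
theorem dual_n2 (j : Fin 3) : -(j + 2) = -j + 1 := by revert j; decide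
theorem dual_m1 (j : Fin 3) : -(-j + 1) = j + 2 := by revert j; decide
theorem dual_m2 (j : Fin 3) : -(-j + 2) = j + 1 := by revert j; decide

theorem dual_e (i : Fin 3) (w : W) : X.dual.e i w = (X.e (-i)).symm w := rfl

theorem dual_e1 (j : Fin 3) (w : W) : X.dual.e (j + 1) w = (X.e (-j + 2)).symm w := by
  rw [dual_e, dual_n1]

theorem dual_e2 (j : Fin 3) (w : W) : X.dual.e (j + 2) w = (X.e (-j + 1)).symm w := by
  rw [dual_e, dual_n2]

/-- the white vertex `w` has the same corners as its black neighbours -/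
def Lab.dual (L : Lab X V) : Lab X.dual V where
  c j w := L.c (-j) ((X.e (-j + 1)).symm w)
  step := by
    intro j w w' h
    rw [dual_e1, dual_e2] at h
    rw [← h]
    refine L.step (-j) _ _ ?_
    rw [Equiv.apply_symm_apply, Equiv.apply_symm_apply]
  exact := by
    intro j w w' h
    have h1 := dual_eqvGen (S := fun x y => X.dual.e (j + 1) y = X.dual.e (j + 2) x)
      (X.e (-j + 1)) (fun x y hxy => Or.inl (by
        rw [dual_e1, dual_e2, Equiv.symm_apply_apply, hxy, Equiv.symm_apply_apply]))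
      (L.exact _ _ _ h)
    rwa [Equiv.apply_symm_apply, Equiv.apply_symm_apply] at h1
  cls := by
    intro j j' w w' h
    exact neg_injective (L.cls _ _ _ _ h)
  surj := by
    intro v
    obtain ⟨j, b, hb⟩ := L.surj v
    refine ⟨-j, X.e (j + 1) b, ?_⟩
    rw [neg_neg, Equiv.symm_apply_apply, hb]

theorem Lab.dual_c (L : Lab X V) (j : Fin 3) (w : W) :
    L.dual.c j w = L.c (-j) ((X.e (-j + 1)).symm w) := rfl

/-- an edge whose colour is not `j` has the same corner of class `j` at both ends -/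
theorem Lab.dual_edge (L : Lab X V) {i j : Fin 3} (hij : i ≠ j) (b : B) :
    L.dual.c (-j) (X.e i b) = L.c j b := by
  rw [L.dual_c, neg_neg]
  rcases fcase i j with h | h | h
  · exact absurd h hij
  · rw [h, Equiv.symm_apply_apply]
  · rw [h]
    refine L.step j _ _ ?_
    rw [Equiv.apply_symm_apply]

theorem Lab.dual_edge1 (L : Lab X V) (k : Fin 3) (b : B) :
    L.dual.c (-k + 1) (X.e k b) = L.c (k + 2) b := by
  rw [← dual_n2]
  exact L.dual_edge (fne2' k) b

theorem Lab.dual_edge2 (L : Lab X V) (k : Fin 3) (b : B) :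
    L.dual.c (-k + 2) (X.e k b) = L.c (k + 1) b := by
  rw [← dual_n1]
  exact L.dual_edge (fne1' k) b

theorem dual_forall {P : Fin 3 → W → Prop} :
    (∀ i w, P i w) ↔ ∀ k b, P (-k) (X.e k b) := by
  refine ⟨fun h k b => h _ _, fun h i w => ?_⟩
  have h1 := h (-i) ((X.e (-i)).symm w)
  rwa [neg_neg, Equiv.apply_symm_apply] at h1

theorem dual_valid_at (L : Lab X V) (h : V → ZMod 12) (k : Fin 3) (b : B) :
    (- h (L.dual.c (-k + 2) (X.e k b)) = - h (L.dual.c (-k + 1) (X.e k b)) + 1 ∨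
      - h (L.dual.c (-k + 2) (X.e k b)) = - h (L.dual.c (-k + 1) (X.e k b)) - 2) ↔
    (h (L.c (k + 2) b) = h (L.c (k + 1) b) + 1 ∨ h (L.c (k + 2) b) = h (L.c (k + 1) b) - 2) := by
  rw [L.dual_edge1, L.dual_edge2]
  constructor
  · rintro (h1 | h1)
    · left; linear_combination h1
    · right; linear_combination h1
  · rintro (h1 | h1)
    · left; linear_combination h1
    · right; linear_combination h1

theorem dual_valid (L : Lab X V) (h : V → ZMod 12) : L.dual.Valid (fun v => - h v) ↔ L.Valid h := by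
  unfold Lab.Valid
  rw [dual_forall (X := X)]
  exact forall_congr' fun k => forall_congr' fun b => dual_valid_at L h k b

theorem dual_HE (L : Lab X V) (h : V → ZMod 12) (x y : W ⊕ B) :
    L.dual.HE (fun v => - h v) x y ↔ L.HE h y.swap x.swap := by
  unfold Lab.HE
  constructor
  · rintro ⟨i, w, h1, rfl, rfl⟩
    refine ⟨-i, (X.e (-i)).symm w, ?_, rfl, ?_⟩
    · have h2 := L.dual_edge1 (-i) ((X.e (-i)).symm w)
      have h3 := L.dual_edge2 (-i) ((X.e (-i)).symm w)
      rw [neg_neg, Equiv.apply_symm_apply] at h2 h3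
      simp only at h1
      rw [h2, h3] at h1
      linear_combination h1
    · rw [Equiv.apply_symm_apply]
      rfl
  · rintro ⟨k, b, h1, h2, h3⟩
    refine ⟨-k, X.e k b, ?_, ?_, ?_⟩
    · simp only
      rw [L.dual_edge1, L.dual_edge2]
      linear_combination h1
    · rw [← Sum.swap_swap x, h3]
      rfl
    · rw [← Sum.swap_swap y, h2, dual_e, neg_neg, Equiv.symm_apply_apply]
      rfl

theorem dual_conn (L : Lab X V) (h : V → ZMod 12) (hv : L.Valid h) :
    L.dual.Conn (fun v => - h v) ↔ L.Conn h := by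
  clear hv
  unfold Lab.Conn
  constructor
  · intro H x y
    have h1 := dual_eqvGen (S := L.HE h) Sum.swap (fun a b hab => Or.inr
      ((dual_HE L h a b).1 hab)) (H x.swap y.swap)
    rwa [Sum.swap_swap, Sum.swap_swap] at h1
  · intro H x y
    have h1 := dual_eqvGen (S := L.dual.HE fun v => - h v) Sum.swap (fun a b hab => Or.inr
      ((dual_HE L h b.swap a.swap).2 (by rwa [Sum.swap_swap, Sum.swap_swap])))
      (H x.swap y.swap)
    rwa [Sum.swap_swap, Sum.swap_swap] at h1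

theorem dual_sol (L : Lab X V) (h : V → ZMod 12) :
    L.dual.Sol (fun v => - h v) ↔ L.Sol h := by
  unfold Lab.Sol
  rw [dual_valid]
  exact and_congr_right fun hv => dual_conn L h hv

variable [Fintype B] [Fintype W] [Fintype V] [DecidableEq V]

theorem dual_E (L : Lab X V) (m : V → ZMod 4) (h : V → ZMod 12) :
    L.dual.E m (fun v => - h v) = - L.E m h := by
  have h1 : ∑ w, ∑ j, kap (h (L.dual.c j w)) = ∑ b, ∑ j, kap (h (L.c j b)) := by
    rw [Finset.sum_comm, Finset.sum_comm (f := fun b j => kap (h (L.c j b)))]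
    rw [← Equiv.sum_comp (Equiv.neg (Fin 3)) fun j => ∑ b, kap (h (L.c j b))]
    refine Finset.sum_congr rfl fun j _ => ?_
    rw [← Equiv.sum_comp (X.e (-j + 1)).symm fun b => kap (h (L.c (Equiv.neg (Fin 3) j) b))]
    rfl
  unfold Lab.E
  simp only [map_neg, mul_neg, Finset.sum_neg_distrib]
  rw [h1]
  ring

omit [Fintype B] [Fintype W] [Fintype V] [DecidableEq V] in
theorem dual_sum {_ : Fintype (V → ZMod 12)} (F : (V → ZMod 12) → ℤ) :
    ∑ h, F h = ∑ h, F (Equiv.neg (V → ZMod 12) h) :=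
  (Equiv.sum_comp (Equiv.neg (V → ZMod 12)) F).symm

theorem dual_S (L : Lab X V) (m : V → ZMod 4) : L.dual.S m = L.S m := by
  unfold Lab.S
  refine (dual_sum _).trans ?_
  refine Finset.sum_congr rfl fun h _ => ?_
  have e1 : (Equiv.neg (V → ZMod 12)) h = fun v => - h v := rfl
  rw [e1, dual_E, eps_neg]
  by_cases hs : L.Sol h
  · rw [if_pos hs, if_pos ((dual_sol L h).2 hs)]
  · rw [if_neg hs, if_neg fun hs' => hs ((dual_sol L h).1 hs')]

/-- the same 4-face in the dual; `-j` is its class there -/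
theorem Sq4.dual {j : Fin 3} {b₁ b₂ : B} (Q : Sq4 X j b₁ b₂) :
    Sq4 X.dual (-j) (X.e (j + 2) b₁) (X.e (j + 2) b₂) where
  ne := fun h => Q.ne ((X.e (j + 2)).injective h)
  face := by
    rw [dual_e, dual_e, dual_m1, dual_m2, Equiv.symm_apply_apply, ← Q.face,
      Equiv.symm_apply_apply]
  face' := by
    rw [dual_e, dual_e, dual_m1, dual_m2, Equiv.symm_apply_apply, ← Q.face',
      Equiv.symm_apply_apply]
  n11 := by
    rw [dual_e, dual_e, dual_m2, neg_neg, ← Q.face, Equiv.symm_apply_apply, Q.face]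
    intro h
    rw [Equiv.symm_apply_eq] at h
    exact Q.n21 h.symm
  n12 := by
    rw [dual_e, dual_e, dual_m2, neg_neg, ← Q.face', Equiv.symm_apply_apply]
    intro h
    rw [Equiv.symm_apply_eq] at h
    exact Q.n11 h.symm
  n21 := by
    rw [dual_e, dual_e, dual_m2, neg_neg, ← Q.face, Equiv.symm_apply_apply]
    intro h
    rw [Equiv.symm_apply_eq] at h
    exact Q.n22 h.symm
  n22 := by
    rw [dual_e, dual_e, dual_m2, neg_neg, ← Q.face', Equiv.symm_apply_apply, Q.face']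
    intro h
    rw [Equiv.symm_apply_eq] at h
    exact Q.n12 h.symm

/-- corners of the dual 4-face -/
theorem Sq4.dual_c' {j : Fin 3} {b₁ b₂ : B} (Q : Sq4 X j b₁ b₂) (L : Lab X V) :
    L.dual.c (-j) (X.e (j + 2) b₁) = L.c j b₁ ∧
    L.dual.c (-j + 1) (X.e (j + 2) b₁) = L.c (j + 2) b₂ ∧
    L.dual.c (-j + 1) (X.e (j + 2) b₂) = L.c (j + 2) b₁ ∧
    L.dual.c (-j + 2) (X.e (j + 2) b₁) = L.c (j + 1) b₁ ∧
    L.dual.c (-j + 2) (X.e (j + 2) b₂) = L.c (j + 1) b₂ := by
  refine ⟨L.dual_edge (fne2 j) b₁, ?_, ?_, ?_, ?_⟩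
  · rw [← Q.face, ← dual_n2]
    exact L.dual_edge (fne12 j) b₂
  · rw [← Q.face', ← dual_n2]
    exact L.dual_edge (fne12 j) b₁
  · rw [← dual_n1]
    exact L.dual_edge (fne21 j) b₁
  · rw [← dual_n1]
    exact L.dual_edge (fne21 j) b₂

theorem dual_type1 {j : Fin 3} {b₁ b₂ : B} (Q : Sq4 X j b₁ b₂) (L : Lab X V)
    (h : V → ZMod 12) :
    L.dual.type1 (-j) (X.e (j + 2) b₁) (X.e (j + 2) b₂) (fun v => - h v) ↔
      L.type2 j b₁ b₂ h := by
  obtain ⟨c0, c1, c2, c3, c4⟩ := Q.dual_c' L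
  unfold Lab.type1 Lab.type2
  simp only
  rw [c0, c1, c2, c3, c4]
  constructor
  · rintro ⟨h1, h2⟩
    exact ⟨by linear_combination h1, by linear_combination h1 - h2⟩
  · rintro ⟨h1, h2⟩
    exact ⟨by linear_combination h1, by linear_combination h1 - h2⟩

theorem dual_T1 {j : Fin 3} {b₁ b₂ : B} (Q : Sq4 X j b₁ b₂) (L : Lab X V) (m : V → ZMod 4) :
    L.dual.T1 (-j) (X.e (j + 2) b₁) (X.e (j + 2) b₂) m = L.T2 j b₁ b₂ m := by
  unfold Lab.T1 Lab.T2
  refine (Equiv.sum_comp (Equiv.neg (V → ZMod 12)) _).symm.trans ?_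
  refine Finset.sum_congr rfl fun h _ => ?_
  have e1 : (Equiv.neg (V → ZMod 12)) h = fun v => - h v := rfl
  rw [e1, dual_E, eps_neg]
  have hiff := and_congr (dual_sol L h) (dual_type1 Q L h)
  by_cases hs : L.Sol h ∧ L.type2 j b₁ b₂ h
  · rw [if_pos hs, if_pos (hiff.2 hs)]
  · rw [if_neg hs, if_neg fun hs' => hs (hiff.1 hs')]

theorem dual_ZS {j : Fin 3} {b₁ b₂ : B} (Q : Sq4 X j b₁ b₂) (L : Lab X V) (h : V → ZMod 12) :
    L.dual.ZS (-j) (X.e (j + 2) b₁) (X.e (j + 2) b₂) (fun v => - h v) ↔ L.ZS j b₁ b₂ h := by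
  obtain ⟨c0, c1, c2, c3, c4⟩ := Q.dual_c' L
  have d1 : X.dual.e (-j + 2) (X.e (j + 2) b₁) = b₂ := by
    rw [dual_e, dual_m2, ← Q.face, Equiv.symm_apply_apply]
  have d2 : X.dual.e (-j + 2) (X.e (j + 2) b₂) = b₁ := by
    rw [dual_e, dual_m2, ← Q.face', Equiv.symm_apply_apply]
  unfold Lab.ZS
  simp only
  rw [c0, c1, c2, c3, c4, d1, d2]
  -- the first four conditions
  have hA : (- h (L.c j b₁) = 0 ∧ - h (L.c (j + 2) b₁) = - h (L.c (j + 2) b₂) ∧
      - h (L.c (j + 1) b₁) = - h (L.c (j + 2) b₂) - 2 ∧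
      - h (L.c (j + 1) b₂) = - h (L.c (j + 2) b₂) - 2) ↔
      (h (L.c j b₁) = 0 ∧ h (L.c (j + 1) b₂) = h (L.c (j + 1) b₁) ∧
      h (L.c (j + 2) b₁) = h (L.c (j + 1) b₁) - 2 ∧
      h (L.c (j + 2) b₂) = h (L.c (j + 1) b₁) - 2) := by
    constructor
    · rintro ⟨h0, h1, h2, h3⟩
      exact ⟨by linear_combination - h0, by linear_combination h2 - h3,
        by linear_combination h2 - h1, by linear_combination h2⟩
    · rintro ⟨h0, h1, h2, h3⟩
      exact ⟨by linear_combination - h0, by linear_combination h3 - h2,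
        by linear_combination h3, by linear_combination h3 - h1⟩
  -- validity
  have hB : (h (L.c (j + 1) b₂) = h (L.c (j + 1) b₁) ∧
      h (L.c (j + 2) b₁) = h (L.c (j + 1) b₁) - 2 ∧
      h (L.c (j + 2) b₂) = h (L.c (j + 1) b₁) - 2) →
      ((∀ i w, w ≠ X.e (j + 2) b₁ → w ≠ X.e (j + 2) b₂ →
        - h (L.dual.c (i + 2) w) = - h (L.dual.c (i + 1) w) + 1 ∨
        - h (L.dual.c (i + 2) w) = - h (L.dual.c (i + 1) w) - 2) ↔
      (∀ i b, b ≠ b₁ → b ≠ b₂ →
        h (L.c (i + 2) b) = h (L.c (i + 1) b) + 1 ∨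
        h (L.c (i + 2) b) = h (L.c (i + 1) b) - 2)) := by
    rintro ⟨h1, h2, h3⟩
    rw [dual_forall (X := X)]
    constructor
    · intro H k b hb1 hb2
      by_cases hw1 : X.e k b = X.e (j + 2) b₁
      · -- the edge ends at `w₁`
        have hk : k = j := by
          rcases fcase k j with hk | hk | hk
          · exact hk
          · exfalso
            rw [hk, ← Q.face] at hw1
            exact hb2 ((X.e (j + 1)).injective hw1)
          · exfalso
            rw [hk] at hw1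
            exact hb1 ((X.e (j + 2)).injective hw1)
        subst hk
        right
        rw [← L.dual_edge1, ← L.dual_edge2, hw1, c1, c3]
        exact h3
      · by_cases hw2 : X.e k b = X.e (j + 2) b₂
        · have hk : k = j := by
            rcases fcase k j with hk | hk | hk
            · exact hk
            · exfalso
              rw [hk, ← Q.face'] at hw2
              exact hb1 ((X.e (j + 1)).injective hw2)
            · exfalso
              rw [hk] at hw2
              exact hb2 ((X.e (j + 2)).injective hw2)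
          subst hk
          right
          rw [← L.dual_edge1, ← L.dual_edge2, hw2, c2, c4, h1]
          exact h2
        · exact (dual_valid_at L h k b).1 (H k b hw1 hw2)
    · intro H k b hw1 hw2
      rw [dual_valid_at]
      by_cases hb1 : b = b₁
      · have hk : k = j := by
          rcases fcase k j with hk | hk | hk
          · exact hk
          · exfalso
            rw [hk, hb1] at hw2
            exact hw2 Q.face'
          · exfalso
            rw [hk, hb1] at hw1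
            exact hw1 rfl
        rw [hk, hb1]
        right
        exact h2
      · by_cases hb2 : b = b₂
        · have hk : k = j := by
            rcases fcase k j with hk | hk | hk
            · exact hk
            · exfalso
              rw [hk, hb2] at hw1
              exact hw1 Q.face
            · exfalso
              rw [hk, hb2] at hw2
              exact hw2 rfl
          rw [hk, hb2]
          right
          rw [h1]
          exact h3
        · exact H k b hb1 hb2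
  -- connectivity
  have hC : (∀ x y : W ⊕ B, (x ≠ Sum.inl (X.e (j + 2) b₁) ∧ x ≠ Sum.inl (X.e (j + 2) b₂) ∧
        x ≠ Sum.inr b₂ ∧ x ≠ Sum.inr b₁) →
      (y ≠ Sum.inl (X.e (j + 2) b₁) ∧ y ≠ Sum.inl (X.e (j + 2) b₂) ∧
        y ≠ Sum.inr b₂ ∧ y ≠ Sum.inr b₁) →
      Relation.EqvGen (fun x y => ∃ i w, w ≠ X.e (j + 2) b₁ ∧ w ≠ X.e (j + 2) b₂ ∧
        X.dual.e i w ≠ b₂ ∧ X.dual.e i w ≠ b₁ ∧
        - h (L.dual.c (i + 2) w) = - h (L.dual.c (i + 1) w) + 1 ∧
        x = Sum.inl w ∧ y = Sum.inr (X.dual.e i w)) x y) ↔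
      (∀ x y : B ⊕ W, (x ≠ Sum.inl b₁ ∧ x ≠ Sum.inl b₂ ∧ x ≠ Sum.inr (X.e (j + 2) b₁) ∧
        x ≠ Sum.inr (X.e (j + 2) b₂)) →
      (y ≠ Sum.inl b₁ ∧ y ≠ Sum.inl b₂ ∧ y ≠ Sum.inr (X.e (j + 2) b₁) ∧
        y ≠ Sum.inr (X.e (j + 2) b₂)) →
      Relation.EqvGen (fun x y => ∃ i b, b ≠ b₁ ∧ b ≠ b₂ ∧ X.e i b ≠ X.e (j + 2) b₁ ∧
        X.e i b ≠ X.e (j + 2) b₂ ∧ h (L.c (i + 2) b) = h (L.c (i + 1) b) + 1 ∧
        x = Sum.inl b ∧ y = Sum.inr (X.e i b)) x y) := by
    have hs1 : ∀ x : B ⊕ W, (x ≠ Sum.inl b₁ ∧ x ≠ Sum.inl b₂ ∧ x ≠ Sum.inr (X.e (j + 2) b₁) ∧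
        x ≠ Sum.inr (X.e (j + 2) b₂)) ↔ (x.swap ≠ Sum.inl (X.e (j + 2) b₁) ∧
        x.swap ≠ Sum.inl (X.e (j + 2) b₂) ∧ x.swap ≠ Sum.inr b₂ ∧ x.swap ≠ Sum.inr b₁) := by
      rintro (x | x)
      · simp only [Sum.swap_inl, ne_eq, Sum.inl.injEq, Sum.inr.injEq, reduceCtorEq,
          not_false_eq_true, true_and, and_true]
        exact and_comm
      · simp only [Sum.swap_inr, ne_eq, Sum.inl.injEq, Sum.inr.injEq, reduceCtorEq,
          not_false_eq_true, true_and, and_true]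
    constructor
    · intro H x y hx hy
      have h1 := H x.swap y.swap ((hs1 x).1 hx) ((hs1 y).1 hy)
      have h2 := dual_eqvGen (S := fun x y => ∃ i b, b ≠ b₁ ∧ b ≠ b₂ ∧
        X.e i b ≠ X.e (j + 2) b₁ ∧ X.e i b ≠ X.e (j + 2) b₂ ∧
        h (L.c (i + 2) b) = h (L.c (i + 1) b) + 1 ∧
        x = Sum.inl b ∧ y = Sum.inr (X.e i b)) Sum.swap ?_ h1
      · rwa [Sum.swap_swap, Sum.swap_swap] at h2
      · rintro x y ⟨i, w, g1, g2, g3, g4, g5, rfl, rfl⟩
        right
        refine ⟨-i, (X.e (-i)).symm w, g4, g3, ?_, ?_, ?_, rfl, ?_⟩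
        · rw [Equiv.apply_symm_apply]; exact g1
        · rw [Equiv.apply_symm_apply]; exact g2
        · have e1 := L.dual_edge1 (-i) ((X.e (-i)).symm w)
          have e2 := L.dual_edge2 (-i) ((X.e (-i)).symm w)
          rw [neg_neg, Equiv.apply_symm_apply] at e1 e2
          rw [e1, e2] at g5
          linear_combination g5
        · rw [Equiv.apply_symm_apply]; rfl
    · intro H x y hx hy
      have hx' := (hs1 x.swap).2 (by rwa [Sum.swap_swap])
      have hy' := (hs1 y.swap).2 (by rwa [Sum.swap_swap])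
      have h1 := H x.swap y.swap hx' hy'
      have h2 := dual_eqvGen (S := fun x y => ∃ i w, w ≠ X.e (j + 2) b₁ ∧ w ≠ X.e (j + 2) b₂ ∧
        X.dual.e i w ≠ b₂ ∧ X.dual.e i w ≠ b₁ ∧
        - h (L.dual.c (i + 2) w) = - h (L.dual.c (i + 1) w) + 1 ∧
        x = Sum.inl w ∧ y = Sum.inr (X.dual.e i w)) Sum.swap ?_ h1
      · rwa [Sum.swap_swap, Sum.swap_swap] at h2
      · rintro x y ⟨k, b, g1, g2, g3, g4, g5, rfl, rfl⟩
        right
        have e3 : X.dual.e (-k) (X.e k b) = b := by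
          rw [dual_e, neg_neg, Equiv.symm_apply_apply]
        refine ⟨-k, X.e k b, g3, g4, ?_, ?_, ?_, rfl, ?_⟩
        · rw [e3]; exact g2
        · rw [e3]; exact g1
        · rw [L.dual_edge1, L.dual_edge2]
          linear_combination g5
        · rw [e3]; rfl
  constructor
  · rintro ⟨a0, a1, a2, a3, a4, a5⟩
    obtain ⟨b0, b1, b2, b3⟩ := hA.1 ⟨a0, a1, a2, a3⟩
    exact ⟨b0, b1, b2, b3, (hB ⟨b1, b2, b3⟩).1 a4, hC.1 a5⟩
  · rintro ⟨b0, b1, b2, b3, b4, b5⟩
    obtain ⟨a0, a1, a2, a3⟩ := hA.2 ⟨b0, b1, b2, b3⟩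
    exact ⟨a0, a1, a2, a3, (hB ⟨b1, b2, b3⟩).2 b4, hC.2 b5⟩

theorem dual_M1 {j : Fin 3} {b₁ b₂ : B} (Q : Sq4 X j b₁ b₂) (L : Lab X V) (m : V → ZMod 4)
    (hm : m (L.c j b₁) = 0) :
    L.dual.M1 (-j) (X.e (j + 2) b₁) (X.e (j + 2) b₂) m = - L.M1 j b₁ b₂ m := by
  unfold Lab.M1
  rw [← Finset.sum_neg_distrib]
  refine (Equiv.sum_comp (Equiv.neg (V → ZMod 12)) _).symm.trans ?_
  refine Finset.sum_congr rfl fun h _ => ?_
  have e1 : (Equiv.neg (V → ZMod 12)) h = fun v => - h v := rfl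
  rw [e1, dual_E]
  by_cases hz : L.ZS j b₁ b₂ h
  · rw [if_pos hz, if_pos ((dual_ZS Q L h).2 hz), (Q.dual_c' L).2.1]
    simp only
    rw [hz.2.2.2.1]
    have e2 : - L.E m h + kap (-(h (L.c (j + 1) b₁) - 2)) =
        -(L.E m h + kap (h (L.c (j + 1) b₁))) + 2 := by
      rw [map_neg, map_sub]
      have : kap 2 = 2 := by decide
      rw [this]
      ring
    rw [e2, eps_add_two, eps_neg]
  · rw [if_neg hz, if_neg fun hz' => hz ((dual_ZS Q L h).1 hz'), neg_zero]

/-- corners of the dual 4-face -/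
theorem Sq4.dual_c {j : Fin 3} {b₁ b₂ : B} (Q : Sq4 X j b₁ b₂) (L : Lab X V) :
    L.dual.c (-j) (X.e (j + 2) b₁) = L.c j b₁ ∧
    L.dual.c (-j + 1) (X.e (j + 2) b₁) = L.c (j + 2) b₂ ∧
    L.dual.c (-j + 1) (X.e (j + 2) b₂) = L.c (j + 2) b₁ ∧
    L.dual.c (-j + 2) (X.e (j + 2) b₁) = L.c (j + 1) b₁ ∧
    L.dual.c (-j + 2) (X.e (j + 2) b₂) = L.c (j + 1) b₂ := Q.dual_c' L

end Vale.Agent.P039.Sk
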