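import Vale.Agent.P039.Sk.Basic2

/-! Smaller webs exist. -/

namespace Vale.Agent.P039.Sk

variable {B W V B' W' : Type}

variable [DecidableEq B] [DecidableEq W]

theorem Sq4.exists_rel {Y : Web B W} {j : Fin 3} {b₁ b₂ : B} (Q : Sq4 Y j b₁ b₂) :
    ∃ X : Web {b : B // b ≠ b₁ ∧ b ≠ b₂} {w : W // w ≠ Y.e (j + 2) b₁ ∧ w ≠ Y.e (j + 2) b₂},
      SqRel Y X Subtype.val Subtype.val j b₁ b₂ := by
  classical
  set w1 := Y.e (j + 2) b₁ with hw1
  set w2 := Y.e (j + 2) b₂ with hw2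
  have hww : w1 ≠ w2 := fun h => Q.ne ((Y.e (j + 2)).injective h)
  have hjj : Y.e j b₁ ≠ Y.e j b₂ := fun h => Q.ne ((Y.e j).injective h)
  have n11 : Y.e j b₁ ≠ w1 := Q.n11
  have n12 : Y.e j b₁ ≠ w2 := Q.n12
  have n21 : Y.e j b₂ ≠ w1 := Q.n21
  have n22 : Y.e j b₂ ≠ w2 := Q.n22
  let σ : B ≃ W := ((Y.e j).trans (Equiv.swap w1 (Y.e j b₂))).trans (Equiv.swap w2 (Y.e j b₁))
  have hσ : ∀ b, σ b = Equiv.swap w2 (Y.e j b₁) (Equiv.swap w1 (Y.e j b₂) (Y.e j b)) :=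
    fun b => rfl
  have hσ1 : σ b₁ = w2 := by
    rw [hσ, Equiv.swap_apply_of_ne_of_ne n11 hjj, Equiv.swap_apply_right]
  have hσ2 : σ b₂ = w1 := by
    rw [hσ, Equiv.swap_apply_right, Equiv.swap_apply_of_ne_of_ne hww n11.symm]
  let e' : Fin 3 → (B ≃ W) := Function.update Y.e j σ
  have hej : e' j = σ := Function.update_self _ _ _
  have hei : ∀ i, i ≠ j → e' i = Y.e i := fun i hi => Function.update_of_ne hi _ _
  have H : ∀ i a, (a ≠ b₁ ∧ a ≠ b₂) ↔ (e' i a ≠ w1 ∧ e' i a ≠ w2) := by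
    intro i a
    rcases fcase i j with rfl | rfl | rfl
    · rw [hej]
      constructor
      · rintro ⟨h1, h2⟩
        exact ⟨fun h => h2 (σ.injective (h.trans hσ2.symm)),
          fun h => h1 (σ.injective (h.trans hσ1.symm))⟩
      · rintro ⟨h1, h2⟩
        exact ⟨fun h => h2 (h ▸ hσ1), fun h => h1 (h ▸ hσ2)⟩
    · rw [hei _ (fne1 j)]
      constructor
      · rintro ⟨h1, h2⟩
        exact ⟨fun h => h2 ((Y.e (j + 1)).injective (h.trans Q.face.symm)),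
          fun h => h1 ((Y.e (j + 1)).injective (h.trans Q.face'.symm))⟩
      · rintro ⟨h1, h2⟩
        exact ⟨fun h => h2 (h ▸ Q.face'), fun h => h1 (h ▸ Q.face)⟩
    · rw [hei _ (fne2 j)]
      constructor
      · rintro ⟨h1, h2⟩
        exact ⟨fun h => h1 ((Y.e (j + 2)).injective h), fun h => h2 ((Y.e (j + 2)).injective h)⟩
      · rintro ⟨h1, h2⟩
        exact ⟨fun h => h1 (h ▸ rfl), fun h => h2 (h ▸ rfl)⟩
  let X : Web {b : B // b ≠ b₁ ∧ b ≠ b₂} {w : W // w ≠ w1 ∧ w ≠ w2} :=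
    ⟨fun i => (e' i).subtypeEquiv (H i)⟩
  have hX : ∀ i b, ((X.e i b : {w : W // w ≠ w1 ∧ w ≠ w2}) : W) = e' i b.1 := fun i b => rfl
  refine ⟨X, ?_⟩
  exact
  { fi := Subtype.val_injective
    gi := Subtype.val_injective
    ne := Q.ne
    fr := fun b => ⟨fun ⟨b', hb⟩ => hb ▸ b'.2, fun h => ⟨⟨b, h⟩, rfl⟩⟩
    gr := fun w => ⟨fun ⟨w', hw⟩ => hw ▸ w'.2, fun h => ⟨⟨w, h⟩, rfl⟩⟩
    face := Q.face
    face' := Q.face'
    o1 := ⟨⟨Y.e j b₁, n11, n12⟩, rfl⟩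
    o2 := ⟨⟨Y.e j b₂, n21, n22⟩, rfl⟩
    other := fun i hi b => by rw [hX, hei i hi]
    same := fun b h1 h2 => by
      have h3 : Y.e j b.1 ≠ Y.e j b₂ := fun h => b.2.2 ((Y.e j).injective h)
      have h4 : Y.e j b.1 ≠ Y.e j b₁ := fun h => b.2.1 ((Y.e j).injective h)
      rw [hX, hej, hσ, Equiv.swap_apply_of_ne_of_ne h1 h3, Equiv.swap_apply_of_ne_of_ne h2 h4]
    out1 := fun b h => by
      rw [hX, hej, hσ, h, Equiv.swap_apply_left, Equiv.swap_apply_of_ne_of_ne n22 hjj.symm]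
    out2 := fun b h => by
      rw [hX, hej, hσ, h, Equiv.swap_apply_of_ne_of_ne hww.symm n22.symm, Equiv.swap_apply_left] }

theorem exists_dg {Y : Web B W} {j : Fin 3} {b : B} (hf : Y.e (j + 1) b = Y.e (j + 2) b)
    (hne : Y.e j b ≠ Y.e (j + 2) b) :
    ∃ X : Web {a : B // a ≠ b} {w : W // w ≠ Y.e (j + 2) b},
      DgRel Y X Subtype.val Subtype.val j b := by
  classical
  set w := Y.e (j + 2) b with hw
  let σ : B ≃ W := (Y.e j).trans (Equiv.swap w (Y.e j b))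
  have hσ : ∀ a, σ a = Equiv.swap w (Y.e j b) (Y.e j a) := fun a => rfl
  have hσ1 : σ b = w := by rw [hσ, Equiv.swap_apply_right]
  let e' : Fin 3 → (B ≃ W) := Function.update Y.e j σ
  have hej : e' j = σ := Function.update_self _ _ _
  have hei : ∀ i, i ≠ j → e' i = Y.e i := fun i hi => Function.update_of_ne hi _ _
  have hb : ∀ i, e' i b = w := by
    intro i
    rcases fcase i j with rfl | rfl | rfl
    · rw [hej]; exact hσ1
    · rw [hei _ (fne1 j)]; exact hf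
    · rw [hei _ (fne2 j)]
  have H : ∀ i a, a ≠ b ↔ e' i a ≠ w := by
    intro i a
    constructor
    · exact fun h h' => h ((e' i).injective (h'.trans (hb i).symm))
    · exact fun h h' => h (h' ▸ hb i)
  let X : Web {a : B // a ≠ b} {x : W // x ≠ w} := ⟨fun i => (e' i).subtypeEquiv (H i)⟩
  have hX : ∀ i a, ((X.e i a : {x : W // x ≠ w}) : W) = e' i a.1 := fun i a => rfl
  refine ⟨X, ?_⟩
  exact
  { fi := Subtype.val_injective
    gi := Subtype.val_injective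
    fr := fun b => ⟨fun ⟨b', hb⟩ => hb ▸ b'.2, fun h => ⟨⟨b, h⟩, rfl⟩⟩
    gr := fun w => ⟨fun ⟨w', hw⟩ => hw ▸ w'.2, fun h => ⟨⟨w, h⟩, rfl⟩⟩
    face := hf
    out := ⟨⟨Y.e j b, hne⟩, rfl⟩
    other := fun i hi a => by rw [hX, hei i hi]
    same := fun a h1 => by
      have h3 : Y.e j a.1 ≠ Y.e j b := fun h => a.2 ((Y.e j).injective h)
      rw [hX, hej, hσ, Equiv.swap_apply_of_ne_of_ne h1 h3]
    out1 := fun a h => by rw [hX, hej, hσ, h, Equiv.swap_apply_left] }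

end Vale.Agent.P039.Sk
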