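import Vale.Agent.P039.Sk.Basic2
import Mathlib.Combinatorics.SimpleGraph.Matching

/-! A solution gives a Hamiltonian cycle. -/

namespace Vale.Agent.P039.Sk

variable {B W V B' W' : Type}

theorem hsol_arith {a : Fin 3 → ZMod 12}
    (ha : ∀ i, a (i + 2) = a (i + 1) + 1 ∨ a (i + 2) = a (i + 1) - 2) :
    ∃ k, a (k + 2) ≠ a (k + 1) + 1 ∧ a (k + 1 + 2) = a (k + 1 + 1) + 1 ∧
      a (k + 2 + 2) = a (k + 2 + 1) + 1 := by
  have h0 := ha 0
  have h1 := ha 1
  have h2 := ha 2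
  have e02 : (0 : Fin 3) + 2 = 2 := by decide
  have e01 : (0 : Fin 3) + 1 = 1 := by decide
  have e12 : (1 : Fin 3) + 2 = 0 := by decide
  have e11 : (1 : Fin 3) + 1 = 2 := by decide
  have e22 : (2 : Fin 3) + 2 = 1 := by decide
  have e21 : (2 : Fin 3) + 1 = 0 := by decide
  rw [e02, e01] at h0
  rw [e12, e11] at h1
  rw [e22, e21] at h2
  have n3 : ∀ x : ZMod 12, x ≠ x + 3 := by decide
  have n3' : ∀ x : ZMod 12, x ≠ x - 3 := by decide
  have n6 : ∀ x : ZMod 12, x ≠ x - 6 := by decide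
  have hx : ∀ x y : ZMod 12, x = y - 2 → x ≠ y + 1 := by decide
  have key : ∀ x y z : ZMod 12, (z = y + 1 ∨ z = y - 2) → (x = z + 1 ∨ x = z - 2) →
      (y = x + 1 ∨ y = x - 2) →
      (z ≠ y + 1 ∧ x = z + 1 ∧ y = x + 1) ∨ (x ≠ z + 1 ∧ y = x + 1 ∧ z = y + 1) ∨
        (y ≠ x + 1 ∧ z = y + 1 ∧ x = z + 1) := by
    rintro x y z (h0 | h0) (h1 | h1) (h2 | h2)
    · exfalso; apply n3 y; rw [h0] at h1; rw [h1] at h2; nth_rw 1 [h2]; ring
    · exact Or.inr (Or.inr ⟨hx _ _ h2, h0, h1⟩)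
    · exact Or.inr (Or.inl ⟨hx _ _ h1, h2, h0⟩)
    · exfalso; apply n3' y; rw [h0] at h1; rw [h1] at h2; nth_rw 1 [h2]; ring
    · exact Or.inl ⟨hx _ _ h0, h1, h2⟩
    · exfalso; apply n3' y; rw [h0] at h1; rw [h1] at h2; nth_rw 1 [h2]; ring
    · exfalso; apply n3' y; rw [h0] at h1; rw [h1] at h2; nth_rw 1 [h2]; ring
    · exfalso; apply n6 y; rw [h0] at h1; rw [h1] at h2; nth_rw 1 [h2]; ring
  rcases key _ _ _ h0 h1 h2 with h | h | h
  · refine ⟨0, ?_⟩
    rw [e02, e01, e12, e11, e22, e21]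
    exact h
  · refine ⟨1, ?_⟩
    rw [e12, e11, e22, e21, e02, e01]
    exact h
  · refine ⟨2, ?_⟩
    rw [e22, e21, e02, e01, e12, e11]
    exact h

/-- The edge of colour `i` at `b` lies in the 2-factor. -/
def HI {X : Web B W} (L : Lab X V) (h : V → ZMod 12) (i : Fin 3) (b : B) : Prop :=
  h (L.c (i + 2) b) = h (L.c (i + 1) b) + 1

theorem hi_black {X : Web B W} {L : Lab X V} {h : V → ZMod 12} (hv : L.Valid h) (b : B) :
    ∃ k, ¬ HI L h k b ∧ HI L h (k + 1) b ∧ HI L h (k + 2) b :=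
  hsol_arith (a := fun i => h (L.c i b)) fun i => hv i b

theorem hi_iff {X : Web B W} (L : Lab X V) (h : V → ZMod 12) (w : W) (i : Fin 3) :
    HI L h i ((X.e i).symm w) ↔
      h (L.c (i + 2) ((X.e (i + 2 + 1)).symm w)) = h (L.c (i + 1) ((X.e (i + 1 + 1)).symm w)) + 1
      := by
  have h1 : L.c (i + 1) ((X.e (i + 1 + 1)).symm w) = L.c (i + 1) ((X.e i).symm w) := by
    apply L.step
    rw [f12, Equiv.apply_symm_apply, Equiv.apply_symm_apply]
  rw [HI, h1, f21]

theorem hi_white {X : Web B W} {L : Lab X V} {h : V → ZMod 12} (hv : L.Valid h) (w : W) :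
    ∃ k, ¬ HI L h k ((X.e k).symm w) ∧ HI L h (k + 1) ((X.e (k + 1)).symm w) ∧
      HI L h (k + 2) ((X.e (k + 2)).symm w) := by
  have ha : ∀ i : Fin 3, h (L.c (i + 2) ((X.e (i + 2 + 1)).symm w)) =
      h (L.c (i + 1) ((X.e (i + 1 + 1)).symm w)) + 1 ∨
      h (L.c (i + 2) ((X.e (i + 2 + 1)).symm w)) =
      h (L.c (i + 1) ((X.e (i + 1 + 1)).symm w)) - 2 := by
    intro i
    have h1 : L.c (i + 1) ((X.e (i + 1 + 1)).symm w) = L.c (i + 1) ((X.e i).symm w) := by
      apply L.step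
      rw [f12, Equiv.apply_symm_apply, Equiv.apply_symm_apply]
    have := hv i ((X.e i).symm w)
    rw [f21, h1]
    exact this
  obtain ⟨k, hk0, hk1, hk2⟩ := hsol_arith (a := fun i => h (L.c i ((X.e (i + 1)).symm w))) ha
  exact ⟨k, fun hh => hk0 ((hi_iff L h w k).1 hh), (hi_iff L h w (k + 1)).2 hk1,
    (hi_iff L h w (k + 2)).2 hk2⟩

theorem he_iff {X : Web B W} {L : Lab X V} {h : V → ZMod 12} {x y : B ⊕ W} :
    L.HE h x y ↔ ∃ i b, HI L h i b ∧ x = Sum.inl b ∧ y = Sum.inr (X.e i b) := Iff.rfl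

theorem eqvGen_iff {α : Type} {R : α → α → Prop} {P : α → Prop}
    (hR : ∀ x y, R x y → (P x ↔ P y)) {x y : α} (h : Relation.EqvGen R x y) : P x ↔ P y := by
  induction h with
  | rel x y h => exact hR x y h
  | refl x => exact Iff.rfl
  | symm x y _ ih => exact ih.symm
  | trans x y z _ _ ih1 ih2 => exact ih1.trans ih2

/-- Two edges of the 2-factor are never parallel. -/
theorem hi_ne {X : Web B W} [Fintype B] {L : Lab X V} (hN : 2 ≤ Fintype.card B)
    {h : V → ZMod 12} (hs : L.Sol h) {b : B} {k : Fin 3} (h0 : ¬ HI L h k b)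
    (h1 : HI L h (k + 1) b) (h2 : HI L h (k + 2) b) : X.e (k + 1) b ≠ X.e (k + 2) b := by
  intro hp
  obtain ⟨b', hb'⟩ : ∃ b', b' ≠ b := by
    have : Nontrivial B := Fintype.one_lt_card_iff_nontrivial.1 (by omega)
    exact exists_ne b
  have hw : ∀ i b'', HI L h i b'' → X.e i b'' = X.e (k + 2) b → b'' = b := by
    intro i b'' hi he
    obtain ⟨k', g0, g1, g2⟩ := hi_white hs.1 (X.e (k + 2) b)
    have e1 : (X.e (k + 1)).symm (X.e (k + 2) b) = b := by
      rw [Equiv.symm_apply_eq, hp]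
    have e2 : (X.e (k + 2)).symm (X.e (k + 2) b) = b := by rw [Equiv.symm_apply_apply]
    have q1 : HI L h (k + 1) ((X.e (k + 1)).symm (X.e (k + 2) b)) := by rw [e1]; exact h1
    have q2 : HI L h (k + 2) ((X.e (k + 2)).symm (X.e (k + 2) b)) := by rw [e2]; exact h2
    rcases fcase i k with rfl | rfl | rfl
    · exfalso
      have e3 : (X.e i).symm (X.e (i + 2) b) = b'' := by rw [← he, Equiv.symm_apply_apply]
      rcases fcase k' i with rfl | rfl | rfl
      · exact g0 (e3 ▸ hi)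
      · exact g0 q1
      · exact g0 q2
    · rw [← e1, ← he, Equiv.symm_apply_apply]
    · exact (X.e (k + 2)).injective he
  have hP : ∀ x y, L.HE h x y →
      ((x = Sum.inl b ∨ x = Sum.inr (X.e (k + 2) b)) ↔
        (y = Sum.inl b ∨ y = Sum.inr (X.e (k + 2) b))) := by
    rintro x y ⟨i, b'', hi, rfl, rfl⟩
    constructor
    · rintro (h3 | h3)
      · have h3 : b'' = b := Sum.inl_injective h3
        subst h3
        right
        rcases fcase i k with rfl | rfl | rfl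
        · exact absurd hi h0
        · rw [hp]
        · rfl
      · cases h3
    · rintro (h3 | h3)
      · cases h3
      · left
        rw [hw i b'' hi (Sum.inr_injective h3)]
  have := (eqvGen_iff (P := fun x => x = Sum.inl b ∨ x = Sum.inr (X.e (k + 2) b)) hP
    (hs.2 (Sum.inl b) (Sum.inl b'))).1 (Or.inl rfl)
  rcases this with h3 | h3
  · exact hb' (Sum.inl_injective h3)
  · cases h3

/-- The same at white vertices. -/
theorem hi_ne' {X : Web B W} [Fintype B] {L : Lab X V} (hN : 2 ≤ Fintype.card B)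
    {h : V → ZMod 12} (hs : L.Sol h) {w : W} {k : Fin 3}
    (h1 : HI L h (k + 1) ((X.e (k + 1)).symm w)) (h2 : HI L h (k + 2) ((X.e (k + 2)).symm w)) :
    (X.e (k + 1)).symm w ≠ (X.e (k + 2)).symm w := by
  intro hp
  obtain ⟨k', g0, g1, g2⟩ := hi_black hs.1 ((X.e (k + 2)).symm w)
  rw [hp] at h1
  have hk : k' = k := by
    rcases fcase k' k with rfl | rfl | rfl
    · rfl
    · exact absurd h1 g0
    · exact absurd h2 g0
  subst hk
  refine hi_ne hN hs g0 g1 g2 ?_
  rw [Equiv.apply_symm_apply, ← hp, Equiv.apply_symm_apply]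

/-- The graph of the 2-factor. -/
def HG {X : Web B W} (L : Lab X V) (h : V → ZMod 12) : SimpleGraph (B ⊕ W) :=
  SimpleGraph.fromRel (L.HE h)

theorem hg_adj_black {X : Web B W} {L : Lab X V} {h : V → ZMod 12} {b : B} {y : B ⊕ W} :
    (HG L h).Adj (Sum.inl b) y ↔ ∃ i, HI L h i b ∧ y = Sum.inr (X.e i b) := by
  rw [HG, SimpleGraph.fromRel_adj]
  constructor
  · rintro ⟨_, ⟨i, b', hi, hx, hy⟩ | ⟨i, b', hi, hx, hy⟩⟩
    · have : b' = b := (Sum.inl_injective hx).symm
      subst this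
      exact ⟨i, hi, hy⟩
    · cases hy
  · rintro ⟨i, hi, rfl⟩
    exact ⟨by simp, Or.inl ⟨i, b, hi, rfl, rfl⟩⟩

theorem hg_adj_white {X : Web B W} {L : Lab X V} {h : V → ZMod 12} {w : W} {y : B ⊕ W} :
    (HG L h).Adj (Sum.inr w) y ↔
      ∃ i, HI L h i ((X.e i).symm w) ∧ y = Sum.inl ((X.e i).symm w) := by
  rw [HG, SimpleGraph.fromRel_adj]
  constructor
  · rintro ⟨_, ⟨i, b', hi, hx, hy⟩ | ⟨i, b', hi, hx, hy⟩⟩
    · cases hx
    · have : w = X.e i b' := Sum.inr_injective hy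
      subst this
      refine ⟨i, ?_, ?_⟩
      · rw [Equiv.symm_apply_apply]; exact hi
      · rw [Equiv.symm_apply_apply]; exact hx
  · rintro ⟨i, hi, rfl⟩
    exact ⟨by simp, Or.inr ⟨i, _, hi, rfl, by rw [Equiv.apply_symm_apply]⟩⟩

theorem hg_isCycles {X : Web B W} [Fintype B] {L : Lab X V} (hN : 2 ≤ Fintype.card B)
    {h : V → ZMod 12} (hs : L.Sol h) : (HG L h).IsCycles := by
  intro v _
  rw [Set.ncard_eq_two]
  rcases v with b | w
  · obtain ⟨k, h0, h1, h2⟩ := hi_black hs.1 b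
    refine ⟨Sum.inr (X.e (k + 1) b), Sum.inr (X.e (k + 2) b), ?_, ?_⟩
    · exact fun hh => hi_ne hN hs h0 h1 h2 (Sum.inr_injective hh)
    · ext y
      rw [SimpleGraph.mem_neighborSet, hg_adj_black, Set.mem_insert_iff, Set.mem_singleton_iff]
      constructor
      · rintro ⟨i, hi, rfl⟩
        rcases fcase i k with rfl | rfl | rfl
        · exact absurd hi h0
        · exact Or.inl rfl
        · exact Or.inr rfl
      · rintro (rfl | rfl)
        · exact ⟨_, h1, rfl⟩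
        · exact ⟨_, h2, rfl⟩
  · obtain ⟨k, h0, h1, h2⟩ := hi_white hs.1 w
    refine ⟨Sum.inl ((X.e (k + 1)).symm w), Sum.inl ((X.e (k + 2)).symm w), ?_, ?_⟩
    · exact fun hh => hi_ne' hN hs h1 h2 (Sum.inl_injective hh)
    · ext y
      rw [SimpleGraph.mem_neighborSet, hg_adj_white, Set.mem_insert_iff, Set.mem_singleton_iff]
      constructor
      · rintro ⟨i, hi, rfl⟩
        rcases fcase i k with rfl | rfl | rfl
        · exact absurd hi h0
        · exact Or.inl rfl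
        · exact Or.inr rfl
      · rintro (rfl | rfl)
        · exact ⟨_, h1, rfl⟩
        · exact ⟨_, h2, rfl⟩

theorem hg_reachable {X : Web B W} {L : Lab X V} {h : V → ZMod 12} (hs : L.Conn h)
    (x y : B ⊕ W) : (HG L h).Reachable x y := by
  have : ∀ x y, Relation.EqvGen (L.HE h) x y → (HG L h).Reachable x y := by
    intro x y hxy
    induction hxy with
    | rel x y hxy =>
      refine SimpleGraph.Adj.reachable ?_
      obtain ⟨i, b, hi, rfl, rfl⟩ := hxy
      exact hg_adj_black.2 ⟨i, hi, rfl⟩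
    | refl x => exact SimpleGraph.Reachable.refl x
    | symm x y _ ih => exact ih.symm
    | trans x y z _ _ ih1 ih2 => exact ih1.trans ih2
  exact this x y (hs x y)

theorem hg_le {X : Web B W} {L : Lab X V} {h : V → ZMod 12} : HG L h ≤ X.graph := by
  intro x y hxy
  rw [HG, SimpleGraph.fromRel_adj] at hxy
  rw [Web.graph, SimpleGraph.fromRel_adj]
  refine ⟨hxy.1, ?_⟩
  rcases hxy.2 with ⟨i, b, _, rfl, rfl⟩ | ⟨i, b, _, rfl, rfl⟩
  · exact Or.inl ⟨i, b, rfl, rfl⟩
  · exact Or.inr ⟨i, b, rfl, rfl⟩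

theorem hsol_count {α : Type} [DecidableEq α] {l : List α} {a : α} (h : l.Nodup) (ha : a ∈ l) :
    l.count a = 1 := List.count_eq_one_of_mem h ha

theorem ham_of_sol {X : Web B W} [Fintype B] [Fintype W] [DecidableEq B] [DecidableEq W]
    (L : Lab X V) (hN : 2 ≤ Fintype.card B) {h : V → ZMod 12} (hs : L.Sol h) :
    X.graph.IsHamiltonian := by
  intro _
  obtain ⟨b⟩ : Nonempty B := Fintype.card_pos_iff.1 (by omega)
  obtain ⟨k, h0, h1, h2⟩ := hi_black hs.1 b
  have hn : ((HG L h).neighborSet (Sum.inl b)).Nonempty :=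
    ⟨Sum.inr (X.e (k + 1) b), hg_adj_black.2 ⟨_, h1, rfl⟩⟩
  obtain ⟨p, hp, hv⟩ :=
    (hg_isCycles hN hs).exists_cycle_toSubgraph_verts_eq_connectedComponentSupp
      (c := (HG L h).connectedComponentMk (Sum.inl b)) (v := Sum.inl b) rfl hn
  have hall : ∀ a, a ∈ p.support := by
    intro a
    rw [← SimpleGraph.Walk.mem_verts_toSubgraph, hv]
    exact SimpleGraph.ConnectedComponent.eq.2 (hg_reachable hs.2 _ _)
  refine ⟨Sum.inl b, p.mapLe hg_le, ?_⟩
  rw [SimpleGraph.Walk.isHamiltonianCycle_iff_isCycle_and_support_count_tail_eq_one]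
  refine ⟨hp.mapLe _, fun a => ?_⟩
  rw [SimpleGraph.Walk.support_mapLe_eq_support]
  refine hsol_count hp.support_nodup ?_
  have ha := hall a
  rw [SimpleGraph.Walk.mem_support_iff] at ha
  rcases ha with rfl | ha
  · exact SimpleGraph.Walk.end_mem_tail_support hp.not_nil
  · exact ha

end Vale.Agent.P039.Sk
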