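import Vale.Agent.P039.Sk.Pos
import Vale.Agent.P039.Sk.HamSol

/-! The class and the result. -/

namespace Vale.Agent.P039.Sk

variable {B W V B' W' : Type}

theorem Final_exists_lab [Finite B] (X : Web B W) :
    ∃ (V : Type) (_ : Fintype V) (_ : DecidableEq V), Nonempty (Lab X V) := by
  classical
  let r : Fin 3 → B → B → Prop := fun j x y => X.e (j + 1) y = X.e (j + 2) x
  have : ∀ j, Finite (Quot (r j)) := fun j => Quot.finite _
  refine ⟨Σ j : Fin 3, Quot (r j), Fintype.ofFinite _, Classical.decEq _, ⟨?_⟩⟩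
  exact
    { c := fun j b => ⟨j, Quot.mk (r j) b⟩
      step := fun j b b' h => by
        have h1 : Quot.mk (r j) b = Quot.mk (r j) b' := Quot.sound h
        rw [h1]
      exact := fun j b b' h => by
        have h2 := Sigma.mk.inj_iff.1 h
        exact Quot.eqvGen_exact (eq_of_heq h2.2)
      cls := fun j j' b b' h => congrArg Sigma.fst h
      surj := by
        rintro ⟨j, q⟩
        induction q using Quot.ind with
        | mk b => exact ⟨j, b, rfl⟩ }

/-- Every finite web has a labelling of its faces. -/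
theorem exists_lab_of_finite [Finite B] (X : Web B W) [Nonempty B] :
    ∃ (V : Type) (_ : Fintype V) (_ : DecidableEq V), Nonempty (Lab X V) :=
  Final_exists_lab X

/-- invariants of faces -/
theorem Final_inv {X : Web B W} (L : Lab X V) {j : Fin 3} {α : Type} (F : B → α)
    (hF : ∀ x y, X.e (j + 1) y = X.e (j + 2) x → F x = F y) {b b' : B}
    (h : L.c j b = L.c j b') : F b = F b' := by
  have h1 := L.exact j b b' h
  clear h
  induction h1 with
  | rel x y h => exact hF x y h
  | refl x => rfl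
  | symm x y _ ih => exact ih.symm
  | trans x y z _ _ ih1 ih2 => exact ih1.trans ih2

theorem Lab.sameFace {X : Web B W} [Finite B] (L : Lab X V) (j : Fin 3) (b b' : B) :
    X.SameFace j b b' ↔ L.c j b = L.c j b' := by
  have hr : ∀ x, X.e (j + 1) (X.rho j x) = X.e (j + 2) x := fun x => by
    simp [Web.rho]
  have h1 : ∀ x, L.c j (X.rho j x) = L.c j x := fun x => L.step j x _ (hr x)
  constructor
  · rintro ⟨n, hn⟩
    have hz : ∀ (n : ℤ) (x : B), L.c j ((X.rho j ^ n) x) = L.c j x := by
      intro n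
      induction n using Int.induction_on with
      | zero => intro x; rw [zpow_zero]; rfl
      | succ i ih => intro x; rw [zpow_add_one, Equiv.Perm.mul_apply, ih, h1]
      | pred i ih =>
        intro x
        rw [zpow_sub_one, Equiv.Perm.mul_apply, ih]
        have h2 := h1 ((X.rho j)⁻¹ x)
        have h3 : X.rho j ((X.rho j)⁻¹ x) = x := (X.rho j).apply_symm_apply x
        rw [h3] at h2
        exact h2.symm
    rw [← hn, hz]
  · intro h
    have h2 := L.exact j b b' h
    clear h
    induction h2 with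
    | rel x y h =>
      have h3 : y = X.rho j x := (X.e (j + 1)).injective (h.trans (hr x).symm)
      rw [h3]
      exact ⟨1, by rw [zpow_one]⟩
    | refl x => exact Equiv.Perm.SameCycle.refl _ _
    | symm x y _ ih => exact Equiv.Perm.SameCycle.symm ih
    | trans x y z _ _ ih1 ih2 => exact Equiv.Perm.SameCycle.trans ih1 ih2

theorem Final_f1 (j : Fin 3) : j + 2 + 1 + 1 = j + 1 := by revert j; decide
theorem Final_f2 (j : Fin 3) : j + 2 + 2 + 1 = j + 2 := by revert j; decide
theorem Final_f3 (j : Fin 3) : j + 1 + 2 = j + 2 + 1 := by revert j; decide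

/-- the labelling of `X.rot` -/
def Lab.rot {X : Web B W} (L : Lab X.rot V) : Lab X V where
  c j b := L.c (j + 2) b
  step := by
    intro j b b' h
    refine L.step (j + 2) b b' ?_
    change X.e (j + 2 + 1 + 1) b' = X.e (j + 2 + 2 + 1) b
    rw [Final_f1, Final_f2]
    exact h
  exact := by
    intro j b b' h
    have h1 := L.exact (j + 2) b b' h
    change Relation.EqvGen (fun x y => X.e (j + 2 + 1 + 1) y = X.e (j + 2 + 2 + 1) x) b b' at h1
    rw [Final_f1, Final_f2] at h1
    exact h1
  cls := by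
    intro j j' b b' h
    exact add_right_cancel (L.cls _ _ _ _ h)
  surj := by
    intro v
    obtain ⟨j, b, h⟩ := L.surj v
    refine ⟨j + 1, b, ?_⟩
    rw [f12]
    exact h

theorem Final_rot_HE {X : Web B W} (L : Lab X.rot V) (h : V → ZMod 12) :
    L.rot.HE h = L.HE h := by
  funext x y
  apply propext
  constructor
  · rintro ⟨i, b, h1, h2, h3⟩
    refine ⟨i + 2, b, ?_, h2, ?_⟩
    · change h (L.c (i + 2 + 2) b) = h (L.c (i + 1 + 2) b) + 1 at h1
      rw [Final_f3] at h1
      exact h1
    · change y = Sum.inr (X.e (i + 2 + 1) b)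
      rw [f21]
      exact h3
  · rintro ⟨i, b, h1, h2, h3⟩
    refine ⟨i + 1, b, ?_, h2, h3⟩
    change h (L.c (i + 1 + 2 + 2) b) = h (L.c (i + 1 + 1 + 2) b) + 1
    rw [f12, f11, f22]
    exact h1

theorem Final_rot_valid {X : Web B W} (L : Lab X.rot V) (h : V → ZMod 12) :
    L.rot.Valid h ↔ L.Valid h := by
  constructor
  · intro hv i b
    have h1 := hv (i + 1) b
    change h (L.c (i + 1 + 2 + 2) b) = h (L.c (i + 1 + 1 + 2) b) + 1 ∨
      h (L.c (i + 1 + 2 + 2) b) = h (L.c (i + 1 + 1 + 2) b) - 2 at h1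
    rw [f12, f11, f22] at h1
    exact h1
  · intro hv i b
    have h1 := hv (i + 2) b
    rw [← Final_f3] at h1
    exact h1

theorem rot_S {X : Web B W} [Fintype B] [Fintype V] [DecidableEq V] (L : Lab X.rot V)
    (m : V → ZMod 4) : L.rot.S m = L.S m := by
  classical
  unfold Lab.S
  refine Finset.sum_congr rfl fun h _ => ?_
  have h1 : L.rot.Sol h ↔ L.Sol h := by
    unfold Lab.Sol Lab.Conn
    rw [Final_rot_valid, Final_rot_HE]
  have h2 : L.rot.E m h = L.E m h := by
    unfold Lab.E
    congr 1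
    refine Finset.sum_congr rfl fun b _ => ?_
    exact Equiv.sum_comp (Equiv.addRight (2 : Fin 3)) (fun j => kap (h (L.c j b)))
  rw [h2]
  exact if_congr h1 rfl rfl

/-- what is proved by induction for the webs of the class -/
def PosWeb (X : Web B W) : Prop :=
  ∀ (V : Type) [Fintype B] [Fintype W] [Fintype V] [DecidableEq V] (L : Lab X V),
    Fintype.card V = Fintype.card B + 2 ∧ 2 ≤ Fintype.card B ∧
    ∃ x y : V, x ≠ y ∧ 0 < L.S (fun v => (if v = x then 1 else 0) + if v = y then 1 else 0)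

/-- two black vertices and a digon, the digon and the other face of the same class are marked -/
theorem Final_two [Fintype B] [Fintype V] [DecidableEq V] {X : Web B W} (L : Lab X V)
    (hB : Fintype.card B = 2) {j : Fin 3} {b b' : B} (hf : X.e (j + 1) b = X.e (j + 2) b)
    (hne : X.e j b ≠ X.e (j + 2) b) (hbb : L.c j b' ≠ L.c j b) :
    L.S (fun v => (if v = L.c j b then 1 else 0) + if v = L.c j b' then 1 else 0) = 24 := by
  classical
  obtain ⟨X', R⟩ := exists_dg hf hne
  obtain ⟨L', hL'⟩ := R.exists_lab L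
  have hc := R.card_B
  rw [S_digon_marked R L L' hL' _ (by rw [if_pos rfl, if_neg (Ne.symm hbb), add_zero])]
  have hc1 : Fintype.card {a : B // a ≠ b} = 1 := by omega
  have key : ∀ k : Fin 3, k ≠ j → L'.S (fun v => ((if v.1 = L.c j b then 1 else 0) +
      if v.1 = L.c j b' then 1 else 0) + if v.1 = L.c k b then 1 else 0) = 12 := by
    intro k hk
    have hne1 : L.c k b ≠ L.c j b := fun h => hk (L.cls _ _ _ _ h)
    have hne2 : L.c k b ≠ L.c j b' := fun h => hk (L.cls _ _ _ _ h)
    rw [← S_theta L' hc1 (x := ⟨L.c j b', hbb⟩) (y := ⟨L.c k b, hne1⟩)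
      (fun h => hne2 (congrArg Subtype.val h).symm)]
    congr 1
    funext v
    rw [if_neg v.2, zero_add]
    congr 1
    · exact if_congr ⟨fun h => Subtype.ext h, fun h => congrArg Subtype.val h⟩ rfl rfl
    · exact if_congr ⟨fun h => Subtype.ext h, fun h => congrArg Subtype.val h⟩ rfl rfl
  rw [key _ (fne2 j), key _ (fne1 j)]
  norm_num

theorem Final_base4 [Fintype V] [DecidableEq V] (L : Lab base4 V) :
    Fintype.card V = Fintype.card (Fin 2) + 2 ∧ 2 ≤ Fintype.card (Fin 2) ∧
    ∃ x y : V, x ≠ y ∧ 0 < L.S (fun v => (if v = x then 1 else 0) + if v = y then 1 else 0) := by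
  have hcB : Fintype.card (Fin 2) = 2 := Fintype.card_fin 2
  have d21 : L.c 2 1 ≠ L.c 2 0 := by
    intro h
    have h1 := Final_inv L (fun x : Fin 2 => x) (by decide) h
    exact absurd h1 (by decide)
  have s0 : L.c 0 1 = L.c 0 0 := L.step 0 0 1 (by decide)
  have s1 : L.c 1 1 = L.c 1 0 := L.step 1 0 1 (by decide)
  have hcV : Fintype.card V = 4 := by
    have hu : (Finset.univ : Finset V) = {L.c 0 0, L.c 1 0, L.c 2 0, L.c 2 1} := by
      ext v
      simp only [Finset.mem_univ, true_iff, Finset.mem_insert, Finset.mem_singleton]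
      obtain ⟨j, b, rfl⟩ := L.surj v
      fin_cases j <;> fin_cases b <;> simp_all
    rw [← Finset.card_univ, hu]
    rw [Finset.card_insert_of_notMem, Finset.card_insert_of_notMem,
      Finset.card_insert_of_notMem, Finset.card_singleton]
    · rw [Finset.mem_singleton]
      exact fun h => d21 h.symm
    · simp only [Finset.mem_insert, Finset.mem_singleton, not_or]
      exact ⟨fun h => absurd (L.cls _ _ _ _ h) (by decide),
        fun h => absurd (L.cls _ _ _ _ h) (by decide)⟩
    · simp only [Finset.mem_insert, Finset.mem_singleton, not_or]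
      exact ⟨fun h => absurd (L.cls _ _ _ _ h) (by decide),
        fun h => absurd (L.cls _ _ _ _ h) (by decide),
        fun h => absurd (L.cls _ _ _ _ h) (by decide)⟩
  refine ⟨by rw [hcV, hcB], hcB.ge, L.c 2 0, L.c 2 1, d21.symm, ?_⟩
  rw [Final_two L hcB (j := 2) (b := 0) (b' := 1) (by decide) (by decide) d21]
  norm_num

theorem posWeb_base4 : PosWeb base4 := by
  intro V iB iW _ _ L
  obtain rfl : iB = Fin.fintype 2 := Subsingleton.elim _ _
  exact Final_base4 L

theorem Final_base6 [Fintype V] [DecidableEq V] (L : Lab base6 V) :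
    Fintype.card V = Fintype.card (Fin 3) + 2 ∧ 2 ≤ Fintype.card (Fin 3) ∧
    ∃ x y : V, x ≠ y ∧ 0 < L.S (fun v => (if v = x then 1 else 0) + if v = y then 1 else 0) := by
  classical
  have hcB : Fintype.card (Fin 3) = 3 := Fintype.card_fin 3
  have d2 : L.c 2 0 ≠ L.c 2 2 := by
    intro h
    have h1 := Final_inv L (fun x : Fin 3 => decide (x = 2)) (by decide) h
    exact absurd h1 (by decide)
  have d1 : L.c 1 1 ≠ L.c 1 0 := by
    intro h
    have h1 := Final_inv L (fun x : Fin 3 => decide (x = 0)) (by decide) h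
    exact absurd h1 (by decide)
  have s01 : L.c 0 1 = L.c 0 0 := L.step 0 0 1 (by decide)
  have s02 : L.c 0 2 = L.c 0 1 := L.step 0 1 2 (by decide)
  have s1 : L.c 1 2 = L.c 1 1 := L.step 1 1 2 (by decide)
  have s2 : L.c 2 1 = L.c 2 0 := L.step 2 0 1 (by decide)
  have hcV : Fintype.card V = 5 := by
    have hu : (Finset.univ : Finset V) = {L.c 0 0, L.c 1 0, L.c 1 1, L.c 2 0, L.c 2 2} := by
      ext v
      simp only [Finset.mem_univ, true_iff, Finset.mem_insert, Finset.mem_singleton]
      obtain ⟨j, b, rfl⟩ := L.surj v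
      fin_cases j <;> fin_cases b <;> simp_all
    rw [← Finset.card_univ, hu]
    rw [Finset.card_insert_of_notMem, Finset.card_insert_of_notMem,
      Finset.card_insert_of_notMem, Finset.card_insert_of_notMem, Finset.card_singleton]
    · rw [Finset.mem_singleton]
      exact d2
    · simp only [Finset.mem_insert, Finset.mem_singleton, not_or]
      exact ⟨fun h => absurd (L.cls _ _ _ _ h) (by decide),
        fun h => absurd (L.cls _ _ _ _ h) (by decide)⟩
    · simp only [Finset.mem_insert, Finset.mem_singleton, not_or]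
      exact ⟨fun h => d1 h.symm, fun h => absurd (L.cls _ _ _ _ h) (by decide),
        fun h => absurd (L.cls _ _ _ _ h) (by decide)⟩
    · simp only [Finset.mem_insert, Finset.mem_singleton, not_or]
      exact ⟨fun h => absurd (L.cls _ _ _ _ h) (by decide),
        fun h => absurd (L.cls _ _ _ _ h) (by decide),
        fun h => absurd (L.cls _ _ _ _ h) (by decide),
        fun h => absurd (L.cls _ _ _ _ h) (by decide)⟩
  have d12 : L.c 1 0 ≠ L.c 2 2 := fun h => absurd (L.cls _ _ _ _ h) (by decide)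
  have d112 : L.c 1 1 ≠ L.c 2 2 := fun h => absurd (L.cls _ _ _ _ h) (by decide)
  have d02 : L.c 0 2 ≠ L.c 2 2 := fun h => absurd (L.cls _ _ _ _ h) (by decide)
  have d10 : L.c 1 0 ≠ L.c 0 2 := fun h => absurd (L.cls _ _ _ _ h) (by decide)
  have hf : base6.e (2 + 1) 2 = base6.e (2 + 2) 2 := by decide
  have hne : base6.e 2 2 ≠ base6.e (2 + 2) 2 := by decide
  obtain ⟨X', R⟩ := exists_dg hf hne
  obtain ⟨L', hL'⟩ := R.exists_lab L
  have hc' := R.card_B
  have hcV' := DgRel.card_V (j := 2) (b := 2) L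
  have hcB' : Fintype.card {a : Fin 3 // a ≠ 2} = 2 := by omega
  refine ⟨by rw [hcV, hcB], by rw [hcB]; norm_num, L.c 2 2, L.c 1 0, d12.symm, ?_⟩
  rw [S_digon_marked R L L' hL' _ (by rw [if_pos rfl, if_neg (Ne.symm d12), add_zero])]
  -- the smaller web
  have e00 : X'.e 0 ⟨0, by decide⟩ = ⟨0, by decide⟩ := by
    apply Subtype.ext
    rw [← R.other 0 (by decide)]
    decide
  have e10 : X'.e 1 ⟨0, by decide⟩ = ⟨1, by decide⟩ := by
    apply Subtype.ext
    rw [← R.other 1 (by decide)]
    decide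
  have e20 : X'.e 2 ⟨0, by decide⟩ = ⟨0, by decide⟩ := by
    apply Subtype.ext
    rw [← R.same _ (by decide)]
    decide
  have c10 : L'.c 1 ⟨0, by decide⟩ = ⟨L.c 1 0, d12⟩ := Subtype.ext (hL' _ _)
  have c11 : L'.c 1 ⟨1, by decide⟩ = ⟨L.c 1 1, d112⟩ := Subtype.ext (hL' _ _)
  have h1 := Final_two L' hcB' (j := 1) (b := ⟨0, by decide⟩) (b' := ⟨1, by decide⟩)
    (by
      change X'.e 2 _ = X'.e 0 _
      rw [e20, e00])
    (by
      change X'.e 1 _ ≠ X'.e 0 _
      rw [e10, e00]
      decide)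
    (by
      rw [c10, c11]
      exact fun h => d1 (congrArg Subtype.val h))
  have h2 := S_nonneg L' (by omega) ⟨L.c 1 0, d12⟩ ⟨L.c 0 2, d02⟩
    (fun h => d10 (congrArg Subtype.val h))
  have e1 : L'.S (fun v => ((if v.1 = L.c 2 2 then 1 else 0) +
      if v.1 = L.c 1 0 then 1 else 0) + if v.1 = L.c (2 + 2) 2 then 1 else 0) = 24 := by
    rw [← h1]
    congr 1
    funext v
    rw [if_neg v.2, zero_add, c10, c11]
    congr 1
    · exact if_congr ⟨fun h => Subtype.ext h, fun h => congrArg Subtype.val h⟩ rfl rfl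
    · refine if_congr ⟨fun h => Subtype.ext (h.trans s1), fun h => ?_⟩ rfl rfl
      exact (congrArg Subtype.val h).trans s1.symm
  have e2 : 0 ≤ L'.S (fun v => ((if v.1 = L.c 2 2 then 1 else 0) +
      if v.1 = L.c 1 0 then 1 else 0) + if v.1 = L.c (2 + 1) 2 then 1 else 0) := by
    refine le_of_le_of_eq h2 ?_
    congr 1
    funext v
    rw [if_neg v.2, zero_add]
    congr 1
    · exact if_congr ⟨fun h => congrArg Subtype.val h, fun h => Subtype.ext h⟩ rfl rfl
    · exact if_congr ⟨fun h => congrArg Subtype.val h, fun h => Subtype.ext h⟩ rfl rfl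
  rw [e1]
  omega

theorem posWeb_base6 : PosWeb base6 := by
  intro V iB iW _ _ L
  obtain rfl : iB = Fin.fintype 3 := Subsingleton.elim _ _
  exact Final_base6 L

theorem posWeb_rot {X : Web B W} (h : PosWeb X) : PosWeb X.rot := by
  intro V _ _ _ _ L
  obtain ⟨h1, h2, x, y, hxy, h3⟩ := h V L.rot
  rw [rot_S] at h3
  exact ⟨h1, h2, x, y, hxy, h3⟩

theorem posWeb_dual {X : Web B W} (h : PosWeb X) : PosWeb X.dual := by
  intro V _ _ _ _ L
  have h' : PosWeb X.dual.dual := by
    rw [Web.dual_dual]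
    exact h
  obtain ⟨h1, h2, x, y, hxy, h3⟩ := h' V L.dual
  rw [dual_S] at h3
  have hc := Fintype.card_congr (X.e 0)
  exact ⟨by rw [h1, hc], by rw [← hc]; exact h2, x, y, hxy, h3⟩

/-- marks on the smaller web -/
theorem Final_marks [DecidableEq V] {s p p' : V} (hps : p ≠ s) (hp : p ≠ p') {x y : V}
    (hxy : x ≠ y) (hx : x ≠ s) (hy : y ≠ s) (m : V → ZMod 4)
    (hm : ∀ v, m v = (if v = x then 1 else 0) + if v = y then 1 else 0) :
    (∃ z w : {v : V // v ≠ s ∧ v ≠ p'}, z ≠ w ∧
      (fun v : {v : V // v ≠ s ∧ v ≠ p'} => if v.1 = p then m p + m p' else m v.1) =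
        fun v => (if v = z then 1 else 0) + if v = w then 1 else 0) ∨
    ∃ z : {v : V // v ≠ s ∧ v ≠ p'},
      (fun v : {v : V // v ≠ s ∧ v ≠ p'} => if v.1 = p then m p + m p' else m v.1) =
        fun v => if v = z then 2 else 0 := by
  by_cases hxp : x = p'
  · have hyp : y ≠ p' := fun h => hxy (hxp.trans h.symm)
    by_cases hyp2 : y = p
    · right
      refine ⟨⟨p, hps, hp⟩, ?_⟩
      funext v
      by_cases hv : v.1 = p
      · rw [if_pos hv, if_pos (Subtype.ext hv), hm, hm, hxp, hyp2, if_neg hp, if_pos rfl,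
          if_pos rfl, if_neg (Ne.symm hp)]
        rfl
      · rw [if_neg hv, if_neg (fun h => hv (congrArg Subtype.val h)), hm, hxp, hyp2,
          if_neg v.2.2, if_neg hv, add_zero]
    · left
      refine ⟨⟨p, hps, hp⟩, ⟨y, hy, hyp⟩, fun h => hyp2 (congrArg Subtype.val h).symm, ?_⟩
      funext v
      by_cases hv : v.1 = p
      · rw [if_pos hv, if_pos (Subtype.ext hv), if_neg
          (fun h => hyp2 ((congrArg Subtype.val h).symm.trans hv)), hm, hm, hxp, if_neg hp,
          if_neg (Ne.symm hyp2), if_pos rfl, if_neg (Ne.symm hyp), add_zero, add_zero, zero_add]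
      · rw [if_neg hv, if_neg (fun h => hv (congrArg Subtype.val h)), hm, hxp, if_neg v.2.2]
        congr 1
        exact if_congr ⟨fun h => Subtype.ext h, fun h => congrArg Subtype.val h⟩ rfl rfl
  · by_cases hyp : y = p'
    · by_cases hxp2 : x = p
      · right
        refine ⟨⟨p, hps, hp⟩, ?_⟩
        funext v
        by_cases hv : v.1 = p
        · rw [if_pos hv, if_pos (Subtype.ext hv), hm, hm, hyp, hxp2, if_neg hp, if_pos rfl,
            if_pos rfl, if_neg (Ne.symm hp)]
          rfl
        · rw [if_neg hv, if_neg (fun h => hv (congrArg Subtype.val h)), hm, hyp, hxp2,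
            if_neg v.2.2, if_neg hv, add_zero]
      · left
        refine ⟨⟨x, hx, hxp⟩, ⟨p, hps, hp⟩, fun h => hxp2 (congrArg Subtype.val h), ?_⟩
        funext v
        by_cases hv : v.1 = p
        · rw [if_pos hv, if_neg (fun h => hxp2 ((congrArg Subtype.val h).symm.trans hv)),
            if_pos (Subtype.ext hv), hm, hm, hyp, if_neg hp, if_neg (Ne.symm hxp2), if_pos rfl,
            if_neg (Ne.symm hxp), add_zero, zero_add]
        · rw [if_neg hv, if_neg (fun h => hv (congrArg Subtype.val h)) (c := v = ⟨p, hps, hp⟩),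
            hm, hyp, if_neg v.2.2]
          congr 1
          exact if_congr ⟨fun h => Subtype.ext h, fun h => congrArg Subtype.val h⟩ rfl rfl
    · left
      refine ⟨⟨x, hx, hxp⟩, ⟨y, hy, hyp⟩, fun h => hxy (congrArg Subtype.val h), ?_⟩
      funext v
      have e : ((if v = (⟨x, hx, hxp⟩ : {v : V // v ≠ s ∧ v ≠ p'}) then 1 else 0) +
          if v = (⟨y, hy, hyp⟩ : {v : V // v ≠ s ∧ v ≠ p'}) then 1 else 0 : ZMod 4) = m v.1 := by
        rw [hm]
        congr 1
        · exact if_congr ⟨fun h => congrArg Subtype.val h, fun h => Subtype.ext h⟩ rfl rfl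
        · exact if_congr ⟨fun h => congrArg Subtype.val h, fun h => Subtype.ext h⟩ rfl rfl
      rw [e]
      by_cases hv : v.1 = p
      · rw [if_pos hv, hv, hm p', if_neg (Ne.symm hxp), if_neg (Ne.symm hyp), add_zero, add_zero]
      · rw [if_neg hv]

theorem Final_nonneg {X : Web B' W'} {j : Fin 3}
    {b₁ b₂ : B} {Y : Web B W} [Fintype V] [DecidableEq V] [Fintype B'] [Fintype W']
    (L : Lab Y V) (hp : L.c (j + 1) b₁ ≠ L.c (j + 1) b₂)
    (L' : Lab X (L.V1 j b₁ b₂)) (hc' : Fintype.card (L.V1 j b₁ b₂) = Fintype.card B' + 2)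
    (hN' : 2 ≤ Fintype.card B') {x y : V} (hxy : x ≠ y) (hx : x ≠ L.c j b₁)
    (hy : y ≠ L.c j b₁) : 0 ≤ L'.S (L.m1 j b₁ b₂
      (fun v => (if v = x then 1 else 0) + if v = y then 1 else 0)) := by
  have hps : L.c (j + 1) b₁ ≠ L.c j b₁ := fun h => fne1 j (L.cls _ _ _ _ h)
  rcases Final_marks hps hp hxy hx hy _ (fun _ => rfl) with ⟨z, w, hzw, h⟩ | ⟨z, h⟩
  · have h1 := S_nonneg L' hc' z w hzw
    rw [← h] at h1
    exact h1
  · have h1 := S_double L' hc' hN' z
    rw [← h] at h1
    exact h1.ge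

theorem posWeb_square {Y : Web B W} {X : Web B' W'} {f : B' → B} {g : W' → W} {j : Fin 3}
    {b₁ b₂ : B} (R : SqRel Y X f g j b₁ b₂) (hf : ¬ Y.SameFace (j + 1) b₁ b₂) (h : PosWeb X) :
    PosWeb Y := by
  classical
  intro V _ _ _ _ L
  let _ : Fintype B' := Fintype.ofInjective f R.fi
  let _ : Fintype W' := Fintype.ofInjective g R.gi
  have hp : L.c (j + 1) b₁ ≠ L.c (j + 1) b₂ := fun h' => hf ((L.sameFace _ _ _).2 h')
  obtain ⟨L', hL'⟩ := R.exists_lab L hp
  obtain ⟨h1, h2, x', y', hxy, h3⟩ := h _ L'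
  have hcV := R.card_V L hp
  have hcB := R.card_B
  have hcV2 : Fintype.card V = Fintype.card B + 2 := by omega
  have Q := R.sq4
  set m : V → ZMod 4 := fun v => (if v = x'.1 then 1 else 0) + if v = y'.1 then 1 else 0 with hm
  have hm0 : m (L.c j b₁) = 0 := by
    rw [hm]
    simp only
    rw [if_neg (Ne.symm x'.2.1), if_neg (Ne.symm y'.2.1), add_zero]
  have hm1 : L.m1 j b₁ b₂ m = fun v => (if v = x' then 1 else 0) + if v = y' then 1 else 0 := by
    funext v
    unfold Lab.m1
    have e : ((if v = x' then 1 else 0) + if v = y' then 1 else 0 : ZMod 4) = m v.1 := by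
      rw [hm]
      simp only
      congr 1
      · exact if_congr ⟨fun h => congrArg Subtype.val h, fun h => Subtype.ext h⟩ rfl rfl
      · exact if_congr ⟨fun h => congrArg Subtype.val h, fun h => Subtype.ext h⟩ rfl rfl
    have hp0 : m (L.c (j + 1) b₂) = 0 := by
      rw [hm]
      simp only
      rw [if_neg (Ne.symm x'.2.2), if_neg (Ne.symm y'.2.2), add_zero]
    rw [e]
    by_cases hv : v.1 = L.c (j + 1) b₁
    · rw [if_pos hv, hv, hp0, add_zero]
    · rw [if_neg hv]
  have h4 := T1_add_M1 R L hp L' hL' m hm0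
  rw [hm1] at h4
  have h5 := S_eq_T1_add_T2 Q L m
  refine ⟨hcV2, by omega, x'.1, y'.1, fun h' => hxy (Subtype.ext h'), ?_⟩
  change 0 < L.S m
  by_cases hq : L.c (j + 2) b₁ = L.c (j + 2) b₂
  · rw [h5, T2_zero Q L hcV2 hq m]
    rw [M1_zero Q L hcV2 hp hq m hm0] at h4
    omega
  · -- the other way to resolve the 4-face
    have Qd := Q.dual
    obtain ⟨X'', R''⟩ := Qd.exists_rel
    obtain ⟨d0, d1, d2, d3, d4⟩ := Q.dual_c L
    have hp'' : L.dual.c (-j + 1) (Y.e (j + 2) b₁) ≠ L.dual.c (-j + 1) (Y.e (j + 2) b₂) := by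
      rw [d1, d2]
      exact Ne.symm hq
    obtain ⟨L'', hL''⟩ := R''.exists_lab L.dual hp''
    have h6 := T1_add_M1 R'' L.dual hp'' L'' hL'' m (by rw [d0]; exact hm0)
    rw [dual_T1 Q L m, dual_M1 Q L m hm0] at h6
    have hcV'' := R''.card_V L.dual hp''
    have hcB'' := R''.card_B
    have hWB := Fintype.card_congr (Y.e 0)
    have h7 := Final_nonneg L.dual hp'' L'' (by omega) (by omega)
      (x := x'.1) (y := y'.1) (fun h' => hxy (Subtype.ext h'))
      (by rw [d0]; exact x'.2.1) (by rw [d0]; exact y'.2.1)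
    rw [h5]
    have h8 : 0 ≤ L''.S (L.dual.m1 (-j) (Y.e (j + 2) b₁) (Y.e (j + 2) b₂) m) := h7
    omega

theorem posWeb_of_gen : ∀ {B W : Type} (X : Web B W), Gen X → PosWeb X := by
  intro B W X h
  induction h with
  | base4 => exact posWeb_base4
  | base6 => exact posWeb_base6
  | rot X _ ih => exact posWeb_rot ih
  | mirror X _ ih => exact posWeb_dual ih
  | square Y X f g j b₁ b₂ R hf _ ih => exact posWeb_square R hf ih

theorem final {B W : Type} [Fintype B] [Fintype W] [DecidableEq B] [DecidableEq W]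
    (X : Web B W) (hX : Gen X) : X.graph.IsHamiltonian := by
  classical
  obtain ⟨V, _, _, ⟨L⟩⟩ := Final_exists_lab X
  obtain ⟨_, hN, x, y, _, hpos⟩ := posWeb_of_gen X hX V L
  by_contra hcon
  have h0 : ∀ h, ¬ L.Sol h := fun h hs => hcon (ham_of_sol L hN hs)
  have h1 : L.S (fun v => (if v = x then 1 else 0) + if v = y then 1 else 0) = 0 := by
    unfold Lab.S
    exact Finset.sum_eq_zero fun h _ => if_neg (h0 h)
  omega

end Vale.Agent.P039.Sk
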