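import Vale.Agent.P039.Sk.Basic2
import Mathlib.Combinatorics.SimpleGraph.Acyclic

/-! The matching edges form a forest. -/

namespace Vale.Agent.P039.Sk

variable {B W V B' W' : Type}

/-- parity of a height -/
def par : ZMod 12 →+* ZMod 2 := ZMod.castHom (by decide) (ZMod 2)

theorem par_add_one {a b : ZMod 12} (h : a = b + 1) : par a ≠ par b := by
  subst h; revert b; decide

theorem par_sub_two {a b : ZMod 12} (h : a = b - 2) : par a = par b := by
  subst h; revert b; decide

theorem par_two {a b c : ZMod 12} (h : par a ≠ par b) : par c = par a ∨ par c = par b := by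
  generalize par a = x at *
  generalize par b = y at *
  generalize par c = z at *
  revert x y z; decide

section rel
variable {X : Web B W}

/-- the matching edges as edges between the faces on their two sides -/
def Lab.MR (L : Lab X V) (h : V → ZMod 12) (x y : V) : Prop :=
  ∃ i b, h (L.c (i + 2) b) = h (L.c (i + 1) b) - 2 ∧ x = L.c (i + 1) b ∧ y = L.c (i + 2) b

/-- corners of a vertex -/
def Lab.cor (L : Lab X V) : B ⊕ W → Fin 3 → V
  | Sum.inl b, j => L.c j b
  | Sum.inr w, j => L.c j ((X.e (j + 1)).symm w)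

theorem Lab.cor_inr (L : Lab X V) (i : Fin 3) (b : B) :
    L.cor (Sum.inr (X.e i b)) (i + 1) = L.c (i + 1) b ∧
    L.cor (Sum.inr (X.e i b)) (i + 2) = L.c (i + 2) b := by
  constructor
  · show L.c (i + 1) ((X.e (i + 1 + 1)).symm (X.e i b)) = L.c (i + 1) b
    apply L.step
    rw [Equiv.apply_symm_apply, f12]
  · show L.c (i + 2) ((X.e (i + 2 + 1)).symm (X.e i b)) = L.c (i + 2) b
    rw [f21, Equiv.symm_apply_apply]

/-- every edge at `x` comes from a black vertex -/
theorem Lab.cor_edge (L : Lab X V) (x : B ⊕ W) (i : Fin 3) :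
    ∃ b, L.cor x (i + 1) = L.c (i + 1) b ∧ L.cor x (i + 2) = L.c (i + 2) b := by
  rcases x with b | w
  · exact ⟨b, rfl, rfl⟩
  · refine ⟨(X.e i).symm w, ?_⟩
    have := L.cor_inr i ((X.e i).symm w)
    rwa [Equiv.apply_symm_apply] at this

theorem Lab.cor_adj (L : Lab X V) {h : V → ZMod 12} (hv : L.Valid h) (x : B ⊕ W) (i : Fin 3)
    (hp : par (h (L.cor x (i + 1))) = par (h (L.cor x (i + 2)))) :
    L.MR h (L.cor x (i + 1)) (L.cor x (i + 2)) := by
  obtain ⟨b, e1, e2⟩ := L.cor_edge x i
  rw [e1, e2] at hp ⊢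
  rcases hv i b with h1 | h1
  · exact absurd hp.symm (par_add_one h1)
  · exact ⟨i, b, h1, rfl, rfl⟩

/-- corners of the same vertex and the same parity -/
theorem Lab.cor_refl (L : Lab X V) {h : V → ZMod 12} (hv : L.Valid h) (x : B ⊕ W) (i j : Fin 3)
    (hp : par (h (L.cor x i)) = par (h (L.cor x j))) :
    Relation.EqvGen (L.MR h) (L.cor x i) (L.cor x j) := by
  rcases fcase j i with e | e | e
  · rw [e]; exact Relation.EqvGen.refl _
  · subst e
    have := L.cor_adj hv x (i + 2)
    rw [f21, f22] at this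
    exact Relation.EqvGen.rel _ _ (this hp)
  · subst e
    have := L.cor_adj hv x (i + 1)
    rw [f11, f12] at this
    exact Relation.EqvGen.symm _ _ (Relation.EqvGen.rel _ _ (this hp.symm))

/-- every vertex has corners of both parities -/
theorem Lab.cor_par (L : Lab X V) {h : V → ZMod 12} (hv : L.Valid h) (x : B ⊕ W) (a : ZMod 2) :
    ∃ i, par (h (L.cor x i)) = a := by
  by_contra hn
  push Not at hn
  have h2 : ∀ s t u : ZMod 2, s ≠ u → t ≠ u → s = t := by decide
  have key : ∀ i j, par (h (L.cor x i)) = par (h (L.cor x j)) :=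
    fun i j => h2 _ _ a (hn i) (hn j)
  have hd : ∀ i, h (L.cor x (i + 2)) = h (L.cor x (i + 1)) - 2 := by
    intro i
    obtain ⟨b, e1, e2⟩ := L.cor_edge x i
    have k := key (i + 2) (i + 1)
    rw [e1, e2] at k ⊢
    rcases hv i b with h1 | h1
    · exact absurd k (par_add_one h1)
    · exact h1
  have d0 := hd 0
  have d1 := hd 1
  have d2 := hd 2
  have e1 : (1 : Fin 3) + 2 = 0 := by decide
  have e2 : (1 : Fin 3) + 1 = 2 := by decide
  have e3 : (2 : Fin 3) + 2 = 1 := by decide
  have e4 : (2 : Fin 3) + 1 = 0 := by decide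
  rw [zero_add, zero_add] at d0
  rw [e1, e2] at d1
  rw [e3, e4] at d2
  rw [d0, d2] at d1
  generalize h (L.cor x 0) = y at d1
  revert y; decide

/-- corners of the same parity of two vertices lie in one component -/
theorem Lab.cor_conn (L : Lab X V) {h : V → ZMod 12} (hv : L.Valid h) {x y : B ⊕ W}
    (hxy : Relation.EqvGen (L.HE h) x y) : ∀ i j, par (h (L.cor x i)) = par (h (L.cor y j)) →
    Relation.EqvGen (L.MR h) (L.cor x i) (L.cor y j) := by
  induction hxy with
  | rel x y hr =>
    obtain ⟨k, b, hk, rfl, rfl⟩ := hr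
    intro i j hp
    obtain ⟨c1, c2⟩ := L.cor_inr k b
    -- the shared corners
    have sh : ∀ t, t ≠ k → L.cor (Sum.inr (X.e k b)) t = L.cor (Sum.inl b) t := by
      intro t ht
      rcases fcase t k with e | e | e
      · exact absurd e ht
      · rw [e]; exact c1
      · rw [e]; exact c2
    obtain ⟨t, ht, hpt⟩ : ∃ t, t ≠ k ∧ par (h (L.cor (Sum.inl b) t)) =
        par (h (L.cor (Sum.inl b) i)) := by
      have hne := par_add_one hk
      rcases par_two (c := h (L.cor (Sum.inl b) i)) hne with e | e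
      · exact ⟨k + 2, fne2 k, e.symm⟩
      · exact ⟨k + 1, fne1 k, e.symm⟩
    refine Relation.EqvGen.trans _ _ _ (L.cor_refl hv _ i t hpt.symm) ?_
    rw [← sh t ht]
    apply L.cor_refl hv
    rw [sh t ht, hpt, hp]
  | refl x => exact L.cor_refl hv x
  | symm x y _ ih => intro i j hp; exact Relation.EqvGen.symm _ _ (ih j i hp.symm)
  | trans x y z _ _ ih1 ih2 =>
    intro i j hp
    obtain ⟨k, hk⟩ := L.cor_par hv y (par (h (L.cor x i)))
    exact Relation.EqvGen.trans _ _ _ (ih1 i k hk.symm) (ih2 k j (hk.trans hp))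

theorem Lab.mr_of_par (L : Lab X V) {h : V → ZMod 12} (hs : L.Sol h) (v v' : V)
    (hp : par (h v) = par (h v')) : Relation.EqvGen (L.MR h) v v' := by
  obtain ⟨j, b, rfl⟩ := L.surj v
  obtain ⟨j', b', rfl⟩ := L.surj v'
  exact L.cor_conn hs.1 (hs.2 (Sum.inl b) (Sum.inl b')) j j' hp

/-- the matching colour at a black vertex is unique -/
theorem Lab.mcol_unique (L : Lab X V) {h : V → ZMod 12} (hv : L.Valid h) {b : B} {i i' : Fin 3}
    (h1 : h (L.c (i + 2) b) = h (L.c (i + 1) b) - 2)
    (h2 : h (L.c (i' + 2) b) = h (L.c (i' + 1) b) - 2) : i' = i := by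
  have aux : ∀ x y z : ZMod 12, y = x - 2 → z = y - 2 → (x = z + 1 ∨ x = z - 2) → False := by
    decide
  rcases fcase i' i with e | e | e
  · exact e
  · exfalso
    subst e
    rw [f12, f11] at h2
    have h3 := hv (i + 2) b
    rw [f22, f21] at h3
    exact aux _ _ _ h1 h2 h3
  · exfalso
    subst e
    rw [f22, f21] at h2
    have h3 := hv (i + 1) b
    rw [f12, f11] at h3
    exact aux _ _ _ h2 h1 h3

theorem Lab.exists_mcol (L : Lab X V) {h : V → ZMod 12} (hv : L.Valid h) (b : B) :
    ∃ i, h (L.c (i + 2) b) = h (L.c (i + 1) b) - 2 := by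
  by_contra hn
  push Not at hn
  have hd : ∀ i, h (L.c (i + 2) b) = h (L.c (i + 1) b) + 1 := by
    intro i
    rcases hv i b with h1 | h1
    · exact h1
    · exact absurd h1 (hn i)
  have d0 := hd 0
  have d1 := hd 1
  have d2 := hd 2
  have e1 : (1 : Fin 3) + 2 = 0 := by decide
  have e2 : (1 : Fin 3) + 1 = 2 := by decide
  have e3 : (2 : Fin 3) + 2 = 1 := by decide
  have e4 : (2 : Fin 3) + 1 = 0 := by decide
  rw [zero_add, zero_add] at d0
  rw [e1, e2] at d1
  rw [e3, e4] at d2
  rw [d0, d2] at d1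
  generalize h (L.c 0 b) = y at d1
  revert y; decide

end rel

variable {X : Web B W} [Fintype B] [Fintype V] [DecidableEq V]

theorem no_dup (L : Lab X V) (hc : Fintype.card V = Fintype.card B + 2) {h : V → ZMod 12}
    (hs : L.Sol h) {b b' : B} (hb : b ≠ b') {i i' : Fin 3}
    (h1 : h (L.c (i + 2) b) = h (L.c (i + 1) b) - 2)
    (h2 : h (L.c (i' + 2) b') = h (L.c (i' + 1) b') - 2)
    (e1 : L.c (i + 1) b = L.c (i' + 1) b') (e2 : L.c (i + 2) b = L.c (i' + 2) b') : False := by
  classical
  choose mc hmc using L.exists_mcol hs.1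
  -- two faces of different parity
  obtain ⟨k0, hk0⟩ := L.cor_par hs.1 (Sum.inl b) 0
  obtain ⟨k1, hk1⟩ := L.cor_par hs.1 (Sum.inl b) 1
  let φ : B → Sym2 V := fun β => s(L.c (mc β + 1) β, L.c (mc β + 2) β)
  let F : Finset (Sym2 V) := insert s(L.cor (Sum.inl b) k0, L.cor (Sum.inl b) k1)
    (Finset.univ.image φ)
  let G : SimpleGraph V := SimpleGraph.fromEdgeSet (F : Set (Sym2 V))
  have hφ : φ b = φ b' := by
    have m1 : i = mc b := L.mcol_unique hs.1 (hmc b) h1
    have m2 : i' = mc b' := L.mcol_unique hs.1 (hmc b') h2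
    simp only [φ]
    rw [← m1, ← m2, e1, e2]
  have hMR : ∀ x y, L.MR h x y → G.Reachable x y := by
    rintro x y ⟨k, β, hk, rfl, rfl⟩
    have m1 : k = mc β := L.mcol_unique hs.1 (hmc β) hk
    by_cases hxy : L.c (k + 1) β = L.c (k + 2) β
    · rw [hxy]
    · apply SimpleGraph.Adj.reachable
      rw [SimpleGraph.fromEdgeSet_adj]
      refine ⟨?_, hxy⟩
      simp only [F, Finset.coe_insert, Finset.coe_image, Finset.coe_univ, Set.image_univ]
      right
      refine ⟨β, ?_⟩
      simp only [φ]
      rw [← m1]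
  have hEq : ∀ x y, Relation.EqvGen (L.MR h) x y → G.Reachable x y := by
    intro x y hxy
    induction hxy with
    | rel x y hr => exact hMR x y hr
    | refl x => exact SimpleGraph.Reachable.refl x
    | symm x y _ ih => exact ih.symm
    | trans x y z _ _ ih1 ih2 => exact ih1.trans ih2
  have h01 : G.Reachable (L.cor (Sum.inl b) k0) (L.cor (Sum.inl b) k1) := by
    have hne : L.cor (Sum.inl b) k0 ≠ L.cor (Sum.inl b) k1 := by
      intro he
      rw [he, hk1] at hk0
      exact absurd hk0 (by decide)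
    apply SimpleGraph.Adj.reachable
    rw [SimpleGraph.fromEdgeSet_adj]
    exact ⟨by simp [F], hne⟩
  have hall : ∀ v, G.Reachable v (L.cor (Sum.inl b) k0) := by
    intro v
    have h2 : ∀ s : ZMod 2, s = 0 ∨ s = 1 := by decide
    rcases h2 (par (h v)) with e | e
    · exact hEq _ _ (L.mr_of_par hs _ _ (e.trans hk0.symm))
    · exact (hEq _ _ (L.mr_of_par hs _ _ (e.trans hk1.symm))).trans h01.symm
  have hconn : G.Connected := by
    have : Nonempty V := ⟨L.cor (Sum.inl b) k0⟩
    exact ⟨fun x y => (hall x).trans (hall y).symm⟩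
  have hle := hconn.card_vert_le_card_edgeSet_add_one
  have hsub : G.edgeSet ⊆ (F : Set (Sym2 V)) := by
    intro e he
    rw [SimpleGraph.edgeSet_fromEdgeSet] at he
    exact he.1
  have hcard : Nat.card G.edgeSet ≤ F.card := by
    have h6 := Nat.card_mono (Finset.finite_toSet F) hsub
    have h7 : Nat.card ((F : Set (Sym2 V))) = F.card := by simp
    omega
  have hF : F.card ≤ (Finset.univ.image φ).card + 1 := Finset.card_insert_le _ _
  have himg : (Finset.univ.image φ).card + 1 ≤ Fintype.card B := by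
    have hsub2 : Finset.univ.image φ ⊆ (Finset.univ.erase b).image φ := by
      intro e he
      rw [Finset.mem_image] at he ⊢
      obtain ⟨β, -, rfl⟩ := he
      by_cases hβ : β = b
      · exact ⟨b', by simp [hb.symm], by rw [hβ, hφ]⟩
      · exact ⟨β, by simp [hβ], rfl⟩
    have h3 := Finset.card_le_card hsub2
    have h4 : ((Finset.univ.erase b).image φ).card ≤ (Finset.univ.erase b).card :=
      Finset.card_image_le
    have h5 : (Finset.univ.erase b).card + 1 = Fintype.card B := by
      rw [Finset.card_erase_of_mem (Finset.mem_univ b), Finset.card_univ]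
      have : 0 < Fintype.card B := Fintype.card_pos_iff.mpr ⟨b⟩
      omega
    omega
  rw [Nat.card_eq_fintype_card] at hle
  omega

end Vale.Agent.P039.Sk
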