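import Vale.Agent.P039.Sk.Basic2

/-! One black vertex. -/

namespace Vale.Agent.P039.Sk

variable {B W V B' W' : Type}

/-- the three shapes of a height function at one vertex -/
def thT : Fin 3 → Fin 3 → ZMod 12 := ![![0, 1, 2], ![0, 1, 11], ![0, 10, 11]]

theorem thT_zero : ∀ t, thT t 0 = 0 := by decide

theorem thT_valid : ∀ (a : ZMod 12) (t i : Fin 3),
    a + thT t (i + 2) = a + thT t (i + 1) + 1 ∨ a + thT t (i + 2) = a + thT t (i + 1) - 2 := by
  decide

theorem thT_up : ∀ (a : ZMod 12) (t : Fin 3), ∃ i : Fin 3,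
    a + thT t (i + 2) = a + thT t (i + 1) + 1 := by
  decide

theorem thT_inj : ∀ (t t' : Fin 3), (∀ i, thT t i = thT t' i) → t = t' := by decide

theorem thT_ex : ∀ x y z : ZMod 12, (z = y + 1 ∨ z = y - 2) → (x = z + 1 ∨ x = z - 2) →
    (y = x + 1 ∨ y = x - 2) → ∃ t : Fin 3, x + thT t 0 = x ∧ x + thT t 1 = y ∧
      x + thT t 2 = z := by
  rintro x y z (rfl | rfl) (h | h) (h' | h')
  all_goals revert x y
  all_goals decide

theorem thT_sum : ∀ i i' : Fin 3, i ≠ i' → ∑ p : ZMod 12 × Fin 3,
    eps (∑ k : Fin 3, (3 + ((if k = i then 1 else 0) + if k = i' then 1 else 0)) *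
      kap (p.1 + thT p.2 k) - ∑ k : Fin 3, kap (p.1 + thT p.2 k)) = 12 := by
  decide +kernel

variable {X : Web B W} [Fintype B] [Fintype V] [DecidableEq V]

open Classical in
theorem th_S_eq (L : Lab X V) (m : V → ZMod 4) :
    L.S m = ∑ h : V → ZMod 12, if L.Sol h then eps (L.E m h) else 0 := by
  unfold Lab.S
  apply Finset.sum_congr _ (fun _ _ => rfl)
  ext x
  simp only [Finset.mem_univ]

theorem S_theta (L : Lab X V) (hB : Fintype.card B = 1) {x y : V} (hxy : x ≠ y) :
    L.S (fun v => (if v = x then 1 else 0) + if v = y then 1 else 0) = 12 := by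
  classical
  obtain ⟨b, hb⟩ := Fintype.card_eq_one_iff.1 hB
  have hW : ∀ w w' : W, w = w' := fun w w' => by
    apply (X.e 0).symm.injective
    rw [hb ((X.e 0).symm w), hb ((X.e 0).symm w')]
  -- the three faces
  let e : Fin 3 ≃ V := Equiv.ofBijective (fun k => L.c k b)
    ⟨fun k k' h => L.cls _ _ _ _ h, fun v => by
      obtain ⟨k, b', h⟩ := L.surj v
      exact ⟨k, by rw [← h, hb b']⟩⟩
  have he : ∀ k, L.c k b = e k := fun k => rfl
  have hec : ∀ k b', L.c k b' = e k := fun k b' => by rw [hb b', he]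
  obtain ⟨i, rfl⟩ := e.surjective x
  obtain ⟨i', rfl⟩ := e.surjective y
  have hii : i ≠ i' := fun h => hxy (by rw [h])
  let φ : ZMod 12 × Fin 3 → (V → ZMod 12) := fun p v => p.1 + thT p.2 (e.symm v)
  have hφe : ∀ p k, φ p (e k) = p.1 + thT p.2 k := fun p k => by
    simp only [φ, Equiv.symm_apply_apply]
  have hφ : Function.Injective φ := by
    rintro ⟨a, t⟩ ⟨a', t'⟩ h
    have h0 : ∀ k, a + thT t k = a' + thT t' k := fun k => by
      rw [← hφe (a, t) k, h, hφe]
    have h1 : a = a' := by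
      have := h0 0
      rwa [thT_zero, thT_zero, add_zero, add_zero] at this
    subst h1
    have h2 : t = t' := thT_inj t t' fun k => add_left_cancel (h0 k)
    rw [h2]
  have hsol : ∀ p, L.Sol (φ p) := by
    intro p
    constructor
    · intro i b'
      rw [hec, hec, hφe, hφe]
      exact thT_valid _ _ _
    · obtain ⟨i, hi⟩ := thT_up p.1 p.2
      have key : ∀ w : W, Relation.EqvGen (L.HE (φ p)) (Sum.inl b) (Sum.inr w) := by
        intro w
        refine Relation.EqvGen.rel _ _ ⟨i, b, ?_, rfl, by rw [hW w]⟩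
        rw [hec, hec, hφe, hφe]
        exact hi
      intro x y
      rcases x with x | x <;> rcases y with y | y
      · rw [hb x, hb y]; exact Relation.EqvGen.refl _
      · rw [hb x]; exact key y
      · rw [hb y]; exact Relation.EqvGen.symm _ _ (key x)
      · rw [hW x y]; exact Relation.EqvGen.refl _
  have hE : ∀ p, L.E (fun v => (if v = e i then 1 else 0) + if v = e i' then 1 else 0) (φ p) =
      ∑ k : Fin 3, (3 + ((if k = i then 1 else 0) + if k = i' then 1 else 0)) *
      kap (p.1 + thT p.2 k) - ∑ k : Fin 3, kap (p.1 + thT p.2 k) := by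
    intro p
    unfold Lab.E
    congr 1
    · rw [← e.sum_comp]
      refine Finset.sum_congr rfl fun k _ => ?_
      rw [hφe]
      simp only [e.injective.eq_iff]
    · rw [Fintype.sum_eq_single b (fun b' h => absurd (hb b') h)]
      refine Finset.sum_congr rfl fun k _ => ?_
      rw [hec, hφe]
  rw [← thT_sum i i' hii, th_S_eq]
  symm
  refine Fintype.sum_of_injective (M := ℤ) φ hφ _ _ ?_ ?_
  · intro h hh
    rw [if_neg]
    rintro ⟨hv, -⟩
    apply hh
    have v0 := hv 0 b
    have v1 := hv 1 b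
    have v2 := hv 2 b
    rw [hec, hec] at v0 v1 v2
    obtain ⟨t, t0, t1, t2⟩ := thT_ex (h (e 0)) (h (e 1)) (h (e 2)) v0 v1 v2
    refine ⟨(h (e 0), t), ?_⟩
    funext v
    obtain ⟨k, rfl⟩ := e.surjective v
    rw [hφe]
    fin_cases k
    · exact t0
    · exact t1
    · exact t2
  · intro p
    rw [if_pos (hsol p), hE]

end Vale.Agent.P039.Sk
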