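import Vale.Agent.P039.Sk.Sq
import Vale.Agent.P039.Sk.Digon
import Vale.Agent.P039.Sk.Theta
import Mathlib.Tactic.Linarith
import Mathlib.Tactic.NormNum

/-! Positivity. -/

namespace Vale.Agent.P039.Sk

variable {B W V B' W' : Type}

namespace PosAux

section aux

variable {X : Web B W}

/-- the orbit of `b` when the face of class `k` at `b` is a digon -/
theorem digon_unique (L : Lab X V) {k : Fin 3} {b : B} (hd : X.e (k + 1) b = X.e (k + 2) b)
    {b' : B} (h : L.c k b' = L.c k b) : b' = b := by
  have key : ∀ x y : B, Relation.EqvGen (fun x y => X.e (k + 1) y = X.e (k + 2) x) x y →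
      (x = b ↔ y = b) := by
    intro x y hxy
    induction hxy with
    | rel x y hxy =>
      constructor
      · rintro rfl
        exact (X.e (k + 1)).injective (hxy.trans hd.symm)
      · rintro rfl
        exact (X.e (k + 2)).injective (hxy.symm.trans hd)
    | refl x => exact Iff.rfl
    | symm x y _ ih => exact ih.symm
    | trans x y z _ _ ih1 ih2 => exact ih1.trans ih2
  exact (key b' b (L.exact k b' b h)).2 rfl

/-- the orbit of `b₁` when the face of class `k` is the 4-face at `b₁`, `b₂` -/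
theorem exists_next (k : Fin 3) (b : B) : ∃ b', X.e (k + 1) b' = X.e (k + 2) b :=
  ⟨(X.e (k + 1)).symm (X.e (k + 2) b), by simp⟩

variable [Fintype B] [Fintype V] [DecidableEq V]

/-- number of black vertices of a face -/
def deg (L : Lab X V) (v : V) : ℕ :=
  (Finset.univ.filter (fun q : Fin 3 × B => L.c q.1 q.2 = v)).card

theorem deg_sum (L : Lab X V) : ∑ v, deg L v = 3 * Fintype.card B := by
  have h := Finset.card_eq_sum_card_fiberwise (s := (Finset.univ : Finset (Fin 3 × B)))
    (t := (Finset.univ : Finset V)) (f := fun q => L.c q.1 q.2) (by intro x _; simp)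
  simp only [Finset.card_univ, Fintype.card_prod, Fintype.card_fin] at h
  exact h.symm

theorem deg_pos (L : Lab X V) (v : V) : 1 ≤ deg L v := by
  obtain ⟨j, b, h⟩ := L.surj v
  exact Finset.card_pos.2 ⟨(j, b), by simp [h]⟩

theorem fsum (L : Lab X V) (hc : Fintype.card V = Fintype.card B + 2) :
    ∑ v, ((3 : ℤ) - deg L v) = 6 := by
  have h := deg_sum L
  have h2 : (∑ v, (deg L v : ℤ)) = 3 * Fintype.card B := by exact_mod_cast h
  rw [Finset.sum_sub_distrib, h2]
  simp [hc]
  ring

/-- a face of degree one is a digon -/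
theorem deg_one (L : Lab X V) {v : V} (hv : deg L v = 1) :
    ∃ k b, L.c k b = v ∧ X.e (k + 1) b = X.e (k + 2) b := by
  obtain ⟨⟨k, b⟩, hq⟩ := Finset.card_eq_one.1 hv
  have hb : L.c k b = v := by
    have : (k, b) ∈ (Finset.univ.filter (fun q : Fin 3 × B => L.c q.1 q.2 = v)) := by
      rw [hq]; simp
    simpa using this
  obtain ⟨b', hb'⟩ := exists_next (X := X) k b
  have h2 : L.c k b' = v := (L.step k b b' hb').trans hb
  have h3 : (k, b') ∈ (Finset.univ.filter (fun q : Fin 3 × B => L.c q.1 q.2 = v)) := by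
    simp [h2]
  rw [hq] at h3
  have h4 : b' = b := by simpa using h3
  subst h4
  exact ⟨k, b', hb, hb'⟩

theorem deg_of_digon (L : Lab X V) {k : Fin 3} {b : B} (hd : X.e (k + 1) b = X.e (k + 2) b) :
    deg L (L.c k b) = 1 := by
  refine Finset.card_eq_one.2 ⟨(k, b), ?_⟩
  ext ⟨k', b'⟩
  simp only [Finset.mem_filter, Finset.mem_univ, true_and, Finset.mem_singleton, Prod.mk.injEq]
  constructor
  · intro h
    have hk : k' = k := L.cls _ _ _ _ h
    subst hk
    exact ⟨rfl, digon_unique L hd h⟩
  · rintro ⟨rfl, rfl⟩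
    rfl

/-- a face of degree two is a 4-face -/
theorem deg_two (L : Lab X V) {v : V} (hv : deg L v = 2) :
    ∃ k b₁ b₂, b₁ ≠ b₂ ∧ L.c k b₁ = v ∧ L.c k b₂ = v ∧ X.e (k + 1) b₂ = X.e (k + 2) b₁ ∧
      X.e (k + 1) b₁ = X.e (k + 2) b₂ := by
  classical
  obtain ⟨⟨k, b₁⟩, ⟨k', b₂⟩, hne, hq⟩ := Finset.card_eq_two.1 hv
  have hb : L.c k b₁ = v := by
    have : (k, b₁) ∈ (Finset.univ.filter (fun q : Fin 3 × B => L.c q.1 q.2 = v)) := by
      rw [hq]; simp
    simpa using this
  have hb2 : L.c k' b₂ = v := by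
    have : (k', b₂) ∈ (Finset.univ.filter (fun q : Fin 3 × B => L.c q.1 q.2 = v)) := by
      rw [hq]; simp
    simpa using this
  have hk : k' = k := L.cls _ _ _ _ (hb2.trans hb.symm)
  subst hk
  have hne' : b₁ ≠ b₂ := fun h => hne (by rw [h])
  have key : ∀ x y : B, x ≠ y → L.c k' x = v → L.c k' y = v →
      (∀ z, L.c k' z = v → z = x ∨ z = y) → X.e (k' + 1) y = X.e (k' + 2) x := by
    intro x y hxy hx hy hz
    obtain ⟨x', hx'⟩ := exists_next (X := X) k' x
    have h2 : L.c k' x' = v := (L.step k' x x' hx').trans hx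
    rcases hz x' h2 with h | h
    · subst h
      exact absurd (digon_unique L hx' (hy.trans hx.symm)).symm hxy
    · subst h
      exact hx'
  have hz : ∀ z, L.c k' z = v → z = b₁ ∨ z = b₂ := by
    intro z hz
    have h3 : (k', z) ∈ (Finset.univ.filter (fun q : Fin 3 × B => L.c q.1 q.2 = v)) := by
      simp [hz]
    rw [hq] at h3
    simpa using h3
  exact ⟨k', b₁, b₂, hne', hb, hb2, key b₁ b₂ hne' hb hb2 hz,
    key b₂ b₁ hne'.symm hb2 hb (fun z h => (hz z h).symm)⟩

end aux

/-- a 4-face without digons at its two black vertices -/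
theorem sq4_of {X : Web B W} {j : Fin 3} {b₁ b₂ : B} (ne : b₁ ≠ b₂)
    (face : X.e (j + 1) b₂ = X.e (j + 2) b₁) (face' : X.e (j + 1) b₁ = X.e (j + 2) b₂)
    (h1 : ∀ k, X.e (k + 1) b₁ ≠ X.e (k + 2) b₁) (h2 : ∀ k, X.e (k + 1) b₂ ≠ X.e (k + 2) b₂) :
    Sq4 X j b₁ b₂ where
  ne := ne
  face := face
  face' := face'
  n11 := by
    have := h1 (j + 1)
    rw [f11, f12] at this
    exact this.symm
  n12 := by
    have := h1 (j + 2)
    rw [f21, f22] at this
    rw [← face']
    exact this
  n21 := by
    have := h2 (j + 2)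
    rw [f21, f22] at this
    rw [← face]
    exact this
  n22 := by
    have := h2 (j + 1)
    rw [f11, f12] at this
    exact this.symm

section push

variable {V V' V'' : Type} [Fintype V] [DecidableEq V] [DecidableEq V']

/-- pushforward of marks -/
def push (π : V → V') (m : V → ZMod 4) : V' → ZMod 4 := fun v' => ∑ v, if π v = v' then m v else 0

theorem push_add (π : V → V') (m₁ m₂ : V → ZMod 4) :
    push π (fun v => m₁ v + m₂ v) = fun v' => push π m₁ v' + push π m₂ v' := by
  ext v'
  unfold push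
  rw [← Finset.sum_add_distrib]
  refine Finset.sum_congr rfl fun v _ => ?_
  split_ifs <;> simp

theorem push_single (π : V → V') (x : V) (a : ZMod 4) :
    push π (fun v => if v = x then a else 0) = fun v' => if v' = π x then a else 0 := by
  ext v'
  unfold push
  rw [Finset.sum_eq_single x]
  · by_cases h : π x = v'
    · simp [h]
    · have h' : ¬ v' = π x := fun e => h e.symm
      simp [h, h']
  · intro v _ hv
    simp [hv]
  · intro h
    exact absurd (Finset.mem_univ x) h

end push

section step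

variable {X : Web B W} [Fintype B] [Fintype V] [DecidableEq V]

theorem m1_eq_push (L : Lab X V) {j : Fin 3} {b₁ b₂ : B} (hp : L.c (j + 1) b₁ ≠ L.c (j + 1) b₂)
    (m : V → ZMod 4) (hm : m (L.c j b₁) = 0) :
    ∃ π : V → L.V1 j b₁ b₂, L.m1 j b₁ b₂ m = push π m := by
  have hs1 : L.c (j + 1) b₁ ≠ L.c j b₁ := fun h => fne1 j (L.cls _ _ _ _ h)
  have hs2 : L.c (j + 1) b₂ ≠ L.c j b₁ := fun h => fne1 j (L.cls _ _ _ _ h)
  let P : L.V1 j b₁ b₂ := ⟨L.c (j + 1) b₁, hs1, hp⟩
  let π : V → L.V1 j b₁ b₂ := fun v =>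
    if h : v ≠ L.c j b₁ ∧ v ≠ L.c (j + 1) b₂ then ⟨v, h⟩ else P
  refine ⟨π, ?_⟩
  ext v'
  have hπ : ∀ v, (π v).1 = if v ≠ L.c j b₁ ∧ v ≠ L.c (j + 1) b₂ then v else L.c (j + 1) b₁ := by
    intro v
    by_cases h : v ≠ L.c j b₁ ∧ v ≠ L.c (j + 1) b₂
    · simp only [π, dif_pos h, if_pos h]
    · simp only [π, dif_neg h, if_neg h, P]
  unfold push Lab.m1
  by_cases hv : v'.1 = L.c (j + 1) b₁
  · rw [if_pos hv]
    have hfun : ∀ v, (if π v = v' then m v else 0) =
        (if v = L.c (j + 1) b₁ then m v else 0) + (if v = L.c (j + 1) b₂ then m v else 0) := by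
      intro v
      have h1 : π v = v' ↔ (v = L.c (j + 1) b₁ ∨ v = L.c (j + 1) b₂ ∨ v = L.c j b₁) := by
        rw [Subtype.ext_iff, hπ, hv]
        by_cases ha : v = L.c j b₁
        · simp [ha]
        · by_cases hb : v = L.c (j + 1) b₂
          · simp [hb]
          · simp [ha, hb]
      by_cases ha : v = L.c j b₁
      · subst ha
        rw [if_pos (h1.2 (Or.inr (Or.inr rfl))), if_neg hs1.symm, if_neg hs2.symm, hm]
        simp
      · by_cases hb : v = L.c (j + 1) b₂
        · subst hb
          rw [if_pos (h1.2 (Or.inr (Or.inl rfl))), if_neg hp.symm, if_pos rfl]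
          simp
        · by_cases hc : v = L.c (j + 1) b₁
          · subst hc
            rw [if_pos (h1.2 (Or.inl rfl)), if_pos rfl, if_neg hp]
            simp
          · rw [if_neg, if_neg hc, if_neg hb]
            · simp
            · intro h
              rcases h1.1 h with h | h | h
              · exact hc h
              · exact hb h
              · exact ha h
    rw [Finset.sum_congr rfl fun v _ => hfun v, Finset.sum_add_distrib]
    simp
  · rw [if_neg hv]
    have hfun : ∀ v, (if π v = v' then m v else 0) = if v = v'.1 then m v else 0 := by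
      intro v
      have h1 : π v = v' ↔ v = v'.1 := by
        rw [Subtype.ext_iff, hπ]
        by_cases h : v ≠ L.c j b₁ ∧ v ≠ L.c (j + 1) b₂
        · rw [if_pos h]
        · rw [if_neg h]
          constructor
          · intro h'
            exact absurd h'.symm hv
          · intro h'
            rw [h'] at h
            exact absurd v'.2 h
      by_cases h : v = v'.1
      · rw [if_pos (h1.2 h), if_pos h]
      · rw [if_neg (fun h' => h (h1.1 h')), if_neg h]
    rw [Finset.sum_congr rfl fun v _ => hfun v]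
    simp

end step

/-- one of the two terms of the square rule -/
theorem term_step {B W V : Type} {X : Web B W} [Fintype B] [Fintype W] [Fintype V]
    [DecidableEq V] {j : Fin 3} {b₁ b₂ : B}
    (Q : Sq4 X j b₁ b₂) (L : Lab X V) (hc : Fintype.card V = Fintype.card B + 2)
    (m : V → ZMod 4) (hm : m (L.c j b₁) = 0) (hp : L.c (j + 1) b₁ ≠ L.c (j + 1) b₂) :
    ∃ (B' W' V' : Type) (_ : Fintype B') (_ : Fintype W') (_ : Fintype V') (_ : DecidableEq V')
      (X' : Web B' W') (L' : Lab X' V') (π : V → V'),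
      Fintype.card B = Fintype.card B' + 2 ∧ Fintype.card V' = Fintype.card B' + 2 ∧
      2 ≤ Fintype.card B' ∧ L.T1 j b₁ b₂ m + L.M1 j b₁ b₂ m = L'.S (push π m) := by
  classical
  obtain ⟨X', R⟩ := Q.exists_rel
  obtain ⟨L', hL'⟩ := R.exists_lab L hp
  obtain ⟨π, hπ⟩ := m1_eq_push L hp m hm
  obtain ⟨β₁, β₂, hβ, -, -⟩ := R.betas
  refine ⟨{b : B // b ≠ b₁ ∧ b ≠ b₂}, {w : W // w ≠ X.e (j + 2) b₁ ∧ w ≠ X.e (j + 2) b₂},
    L.V1 j b₁ b₂, inferInstance, inferInstance, inferInstance, inferInstance, X', L', π,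
    R.card_B, ?_, ?_, ?_⟩
  · have h1 := R.card_V L hp
    have h2 := R.card_B
    omega
  · exact Fintype.one_lt_card_iff.2 ⟨β₁, β₂, hβ⟩
  · rw [T1_add_M1 R L hp L' hL' m hm, hπ]

theorem sq_rule {B W V : Type} {X : Web B W} [Fintype B] [Fintype W] [Fintype V]
    [DecidableEq V] {j : Fin 3} {b₁ b₂ : B}
    (Q : Sq4 X j b₁ b₂) (L : Lab X V) (hc : Fintype.card V = Fintype.card B + 2)
    (m : V → ZMod 4) (hm : m (L.c j b₁) = 0) (P : ℤ → Prop) (h0 : P 0)
    (hadd : ∀ a b, P a → P b → P (a + b))
    (H : ∀ (B' W' V' : Type) [Fintype B'] [Fintype W'] [Fintype V'] [DecidableEq V']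
      (X' : Web B' W') (L' : Lab X' V') (π : V → V'),
      Fintype.card B = Fintype.card B' + 2 → Fintype.card V' = Fintype.card B' + 2 →
      2 ≤ Fintype.card B' → P (L'.S (push π m))) : P (L.S m) := by
  have hcW : Fintype.card W = Fintype.card B := (Fintype.card_congr (X.e 0)).symm
  have hcd : Fintype.card V = Fintype.card W + 2 := by omega
  obtain ⟨d0, d1, d2, d3, d4⟩ := Q.dual_c L
  have hmd : m (L.dual.c (-j) (X.e (j + 2) b₁)) = 0 := by rw [d0]; exact hm
  have hS := S_eq_T1_add_T2 Q L m
  by_cases hp : L.c (j + 1) b₁ = L.c (j + 1) b₂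
  · have hT1 := T1_zero Q L hc hp m
    by_cases hq : L.c (j + 2) b₁ = L.c (j + 2) b₂
    · have hT2 := T2_zero Q L hc hq m
      rw [hS, hT1, hT2]
      simpa using h0
    · have hpd : L.dual.c (-j + 1) (X.e (j + 2) b₁) ≠ L.dual.c (-j + 1) (X.e (j + 2) b₂) := by
        rw [d1, d2]
        exact fun h => hq h.symm
      have hqd : L.dual.c (-j + 2) (X.e (j + 2) b₁) = L.dual.c (-j + 2) (X.e (j + 2) b₂) := by
        rw [d3, d4]
        exact hp
      obtain ⟨B', W', V', i1, i2, i3, i4, X', L', π, h1, h2, h3, h4⟩ :=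
        term_step Q.dual L.dual hcd m hmd hpd
      rw [M1_zero Q.dual L.dual hcd hpd hqd m hmd, dual_T1 Q L m] at h4
      rw [hS, hT1, zero_add, ← add_zero (L.T2 j b₁ b₂ m), h4]
      exact H B' W' V' X' L' π (by omega) h2 h3
  · obtain ⟨B', W', V', i1, i2, i3, i4, X', L', π, h1, h2, h3, h4⟩ :=
      term_step Q L hc m hm hp
    by_cases hq : L.c (j + 2) b₁ = L.c (j + 2) b₂
    · rw [M1_zero Q L hc hp hq m hm] at h4
      rw [hS, T2_zero Q L hc hq m, h4]
      exact H B' W' V' X' L' π h1 h2 h3
    · have hpd : L.dual.c (-j + 1) (X.e (j + 2) b₁) ≠ L.dual.c (-j + 1) (X.e (j + 2) b₂) := by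
        rw [d1, d2]
        exact fun h => hq h.symm
      obtain ⟨B'', W'', V'', i1', i2', i3', i4', X'', L'', π', h1', h2', h3', h4'⟩ :=
        term_step Q.dual L.dual hcd m hmd hpd
      rw [dual_T1 Q L m, dual_M1 Q L m hm] at h4'
      have : L.S m = L'.S (push π m) + L''.S (push π' m) := by
        rw [hS, ← h4, ← h4']
        ring
      rw [this]
      exact hadd _ _ (H B' W' V' X' L' π h1 h2 h3) (H B'' W'' V'' X'' L'' π' (by omega) h2' h3')

section choose

variable {X : Web B W} [Fintype B] [Fintype V] [DecidableEq V]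

theorem exists_other (hN : 2 ≤ Fintype.card B) (b : B) : ∃ b', b' ≠ b :=
  Fintype.exists_ne_of_one_lt_card (by omega) b

/-- an unmarked digon kills the sum -/
theorem S_of_unmarked (L : Lab X V) (hN : 2 ≤ Fintype.card B) (m : V → ZMod 4) {v : V}
    (hv : deg L v = 1) (hm : m v = 0) : L.S m = 0 := by
  obtain ⟨k, b, hb, hd⟩ := deg_one L hv
  refine S_digon (j := k) (b := b) L m (by rw [hb]; exact hm) (fun b' h => digon_unique L hd h)
    (exists_other hN b)

/-- a good 4-face -/
theorem exists_sq4 (L : Lab X V) {x : V} (F : Finset V) (hF : 4 ≤ F.card)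
    (hF2 : ∀ v ∈ F, deg L v = 2) (hdig : ∀ k b, X.e (k + 1) b = X.e (k + 2) b → L.c k b = x) :
    ∃ k b₁ b₂, L.c k b₁ ∈ F ∧ Sq4 X k b₁ b₂ := by
  by_cases hD : ∃ k b, X.e (k + 1) b = X.e (k + 2) b
  · obtain ⟨k0, b0, hd0⟩ := hD
    have hE : (Finset.univ.image (fun i : Fin 3 => L.c i b0)).card < F.card := by
      refine lt_of_le_of_lt Finset.card_image_le ?_
      simp only [Finset.card_univ, Fintype.card_fin]
      omega
    obtain ⟨s, hs, hs'⟩ := Finset.exists_mem_notMem_of_card_lt_card hE
    obtain ⟨k, b₁, b₂, hne, h1, h2, f1, f2⟩ := deg_two L (hF2 s hs)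
    have key : ∀ b, L.c k b = s → ∀ i, X.e (i + 1) b ≠ X.e (i + 2) b := by
      intro b hb i hi
      have h3 : L.c i b = L.c k0 b0 := (hdig i b hi).trans (hdig k0 b0 hd0).symm
      have h4 : i = k0 := L.cls _ _ _ _ h3
      subst h4
      have h5 : b = b0 := digon_unique L hd0 h3
      subst h5
      exact hs' (Finset.mem_image.2 ⟨k, Finset.mem_univ _, hb⟩)
    exact ⟨k, b₁, b₂, by rw [h1]; exact hs, sq4_of hne f1 f2 (key b₁ h1) (key b₂ h2)⟩
  · have hne : F.Nonempty := Finset.card_pos.1 (by omega)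
    obtain ⟨s, hs⟩ := hne
    obtain ⟨k, b₁, b₂, hne, h1, h2, f1, f2⟩ := deg_two L (hF2 s hs)
    refine ⟨k, b₁, b₂, by rw [h1]; exact hs, sq4_of hne f1 f2 (fun i hi => hD ⟨i, b₁, hi⟩)
      (fun i hi => hD ⟨i, b₂, hi⟩)⟩

theorem card_F1 (L : Lab X V) (hc : Fintype.card V = Fintype.card B + 2) (x : V)
    (h2 : ∀ v, v ≠ x → 2 ≤ deg L v) :
    4 ≤ (Finset.univ.filter (fun v => v ≠ x ∧ deg L v = 2)).card := by
  have hs := fsum L hc
  have hle : ∑ v, ((3 : ℤ) - deg L v) ≤ ∑ v, ((if v = x then (2 : ℤ) else 0) +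
      if v ≠ x ∧ deg L v = 2 then 1 else 0) := by
    refine Finset.sum_le_sum fun v _ => ?_
    by_cases hv : v = x
    · have h3 := deg_pos L v
      have h4 : ¬ (v ≠ x ∧ deg L v = 2) := fun h => h.1 hv
      rw [if_pos hv, if_neg h4]
      have : (1 : ℤ) ≤ deg L v := by exact_mod_cast h3
      linarith
    · have h3 := h2 v hv
      rw [if_neg hv]
      by_cases h5 : deg L v = 2
      · rw [if_pos ⟨hv, h5⟩, h5]
        norm_num
      · rw [if_neg (fun h => h5 h.2)]
        have : (3 : ℤ) ≤ deg L v := by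
          have : 3 ≤ deg L v := by omega
          exact_mod_cast this
        linarith
  rw [hs, Finset.sum_add_distrib, Finset.sum_ite_eq' Finset.univ x (fun _ => (2 : ℤ)),
    if_pos (Finset.mem_univ x), Finset.sum_boole] at hle
  have : (4 : ℤ) ≤ ((Finset.univ.filter (fun v => v ≠ x ∧ deg L v = 2)).card : ℤ) := by linarith
  exact_mod_cast this

theorem card_F2 (L : Lab X V) (hc : Fintype.card V = Fintype.card B + 2) (x y : V)
    (h2 : ∀ v, 2 ≤ deg L v) :
    4 ≤ (Finset.univ.filter (fun v => (v ≠ x ∧ v ≠ y) ∧ deg L v = 2)).card := by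
  have hs := fsum L hc
  have hle : ∑ v, ((3 : ℤ) - deg L v) ≤ ∑ v, (((if v = x then (1 : ℤ) else 0) +
      (if v = y then (1 : ℤ) else 0)) +
      if (v ≠ x ∧ v ≠ y) ∧ deg L v = 2 then 1 else 0) := by
    refine Finset.sum_le_sum fun v _ => ?_
    have h3 := h2 v
    have h3' : (2 : ℤ) ≤ deg L v := by exact_mod_cast h3
    by_cases hv : v = x
    · have h4 : ¬ ((v ≠ x ∧ v ≠ y) ∧ deg L v = 2) := fun h => h.1.1 hv
      rw [if_pos hv, if_neg h4]
      split_ifs <;> linarith
    · by_cases hw : v = y
      · have h4 : ¬ ((v ≠ x ∧ v ≠ y) ∧ deg L v = 2) := fun h => h.1.2 hw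
        rw [if_neg hv, if_pos hw, if_neg h4]
        linarith
      · rw [if_neg hv, if_neg hw]
        by_cases h5 : deg L v = 2
        · rw [if_pos ⟨⟨hv, hw⟩, h5⟩, h5]
          norm_num
        · rw [if_neg (fun h => h5 h.2)]
          have : (3 : ℤ) ≤ deg L v := by
            have : 3 ≤ deg L v := by omega
            exact_mod_cast this
          linarith
  rw [hs, Finset.sum_add_distrib, Finset.sum_add_distrib,
    Finset.sum_ite_eq' Finset.univ x (fun _ => (1 : ℤ)),
    Finset.sum_ite_eq' Finset.univ y (fun _ => (1 : ℤ)),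
    if_pos (Finset.mem_univ x), if_pos (Finset.mem_univ y), Finset.sum_boole] at hle
  have : (4 : ℤ) ≤ ((Finset.univ.filter
    (fun v => (v ≠ x ∧ v ≠ y) ∧ deg L v = 2)).card : ℤ) := by linarith
  exact_mod_cast this

/-- two black vertices, all digons marked: both marked faces are digons -/
theorem deg_y (L : Lab X V) (hc : Fintype.card V = Fintype.card B + 2) (hB : Fintype.card B = 2)
    {x y : V} (hxy : x ≠ y) (h2 : ∀ v, v ≠ x → v ≠ y → 2 ≤ deg L v) : deg L y = 1 := by
  have hs := fsum L hc
  have hle : ∑ v, ((3 : ℤ) - deg L v) ≤ ∑ v, (1 + ((if v = x then (1 : ℤ) else 0) +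
      (if v = y then (2 - (deg L y : ℤ)) else 0))) := by
    refine Finset.sum_le_sum fun v _ => ?_
    by_cases hv : v = x
    · have h3 := deg_pos L v
      have h3' : (1 : ℤ) ≤ deg L v := by exact_mod_cast h3
      have hvy : v ≠ y := hv ▸ hxy
      rw [if_pos hv, if_neg hvy]
      linarith
    · by_cases hw : v = y
      · rw [if_neg hv, if_pos hw, hw]
        linarith
      · rw [if_neg hv, if_neg hw]
        have h3 := h2 v hv hw
        have h3' : (2 : ℤ) ≤ deg L v := by exact_mod_cast h3
        linarith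
  rw [hs, Finset.sum_add_distrib, Finset.sum_add_distrib,
    Finset.sum_ite_eq' Finset.univ x (fun _ => (1 : ℤ)),
    Finset.sum_ite_eq' Finset.univ y (fun _ => (2 - (deg L y : ℤ))),
    if_pos (Finset.mem_univ x), if_pos (Finset.mem_univ y)] at hle
  simp only [Finset.sum_const, Finset.card_univ, hc, hB, nsmul_eq_mul] at hle
  have h4 : (deg L y : ℤ) ≤ 1 := by
    norm_num at hle
    linarith
  have h5 := deg_pos L y
  have h6 : deg L y ≤ 1 := by exact_mod_cast h4
  omega

end choose

theorem double_aux (n : ℕ) : ∀ {B W V : Type} {X : Web B W} [Fintype B] [Fintype W] [Fintype V]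
    [DecidableEq V] (L : Lab X V), Fintype.card B = n → Fintype.card V = Fintype.card B + 2 →
    2 ≤ Fintype.card B → ∀ x : V, L.S (fun v => if v = x then 2 else 0) = 0 := by
  induction n using Nat.strong_induction_on with
  | _ n ih =>
    intro B W V X _ _ _ _ L hn hc hN x
    by_cases hU : ∃ v, v ≠ x ∧ deg L v = 1
    · obtain ⟨v, hv, hd⟩ := hU
      exact S_of_unmarked L hN _ hd (by simp [hv])
    · push Not at hU
      have h2 : ∀ v, v ≠ x → 2 ≤ deg L v := by
        intro v hv
        have h3 := hU v hv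
        have h4 := deg_pos L v
        omega
      obtain ⟨k, b₁, b₂, hF, Q⟩ := exists_sq4 L (x := x) _ (card_F1 L hc x h2)
        (fun v hv => (Finset.mem_filter.1 hv).2.2) (by
          intro k b hd
          by_contra hne
          exact hU _ hne (deg_of_digon L hd))
      have hsx : L.c k b₁ ≠ x := (Finset.mem_filter.1 hF).2.1
      refine sq_rule Q L hc _ (by simp [hsx]) (fun a => a = 0) rfl
        (by rintro a b rfl rfl; rfl) ?_
      intro B' W' V' _ _ _ _ X' L' π h1 h2 h3
      rw [push_single]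
      exact ih (Fintype.card B') (by omega) L' rfl h2 h3 (π x)

theorem nonneg_aux (n : ℕ) : ∀ {B W V : Type} {X : Web B W} [Fintype B] [Fintype W] [Fintype V]
    [DecidableEq V] (L : Lab X V), Fintype.card B = n → Fintype.card V = Fintype.card B + 2 →
    ∀ x y : V, x ≠ y →
    0 ≤ L.S (fun v => (if v = x then 1 else 0) + if v = y then 1 else 0) := by
  induction n using Nat.strong_induction_on with
  | _ n ih =>
    intro B W V X _ _ _ _ L hn hc x y hxy
    have hpos : 1 ≤ Fintype.card B := by
      obtain ⟨-, b, -⟩ := L.surj x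
      exact Fintype.card_pos_iff.2 ⟨b⟩
    rcases Nat.lt_or_ge 1 (Fintype.card B) with hN | hN
    swap
    · rw [S_theta L (by omega) hxy]
      norm_num
    have hN : 2 ≤ Fintype.card B := hN
    by_cases hU : ∃ v, (v ≠ x ∧ v ≠ y) ∧ deg L v = 1
    · obtain ⟨v, ⟨hv, hw⟩, hd⟩ := hU
      exact (S_of_unmarked L hN _ hd (by simp [hv, hw])).ge
    push Not at hU
    have h2 : ∀ v, v ≠ x → v ≠ y → 2 ≤ deg L v := by
      intro v hv hw
      have h3 := hU v ⟨hv, hw⟩
      have h4 := deg_pos L v
      omega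
    -- marks at different or equal faces of a web with at least two black vertices
    have main : ∀ {B' W' V' : Type} [Fintype B'] [Fintype W'] [Fintype V'] [DecidableEq V']
        {X' : Web B' W'} (L' : Lab X' V'), Fintype.card B' < n →
        Fintype.card V' = Fintype.card B' + 2 → ∀ x' y' : V', (x' = y' → 2 ≤ Fintype.card B') →
        0 ≤ L'.S (fun v => (if v = x' then 1 else 0) + if v = y' then 1 else 0) := by
      intro B' W' V' _ _ _ _ X' L' hlt hc' x' y' h
      by_cases he : x' = y'
      · subst he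
        have h3 : (fun v : V' => ((if v = x' then (1 : ZMod 4) else 0) +
            if v = x' then (1 : ZMod 4) else 0)) = fun v => if v = x' then 2 else 0 := by
          ext v
          split_ifs
          · decide
          · simp
        rw [h3, double_aux _ L' rfl hc' (h rfl) x']
      · exact ih _ hlt L' rfl hc' x' y' he
    -- a marked digon
    have dig : ∀ x y : V, x ≠ y → (∀ v, v ≠ x → v ≠ y → 2 ≤ deg L v) → deg L x = 1 →
        0 ≤ L.S (fun v => (if v = x then 1 else 0) + if v = y then 1 else 0) := by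
      intro x y hxy h2 hx
      classical
      obtain ⟨k, b, hb, hd⟩ := deg_one L hx
      by_cases hiso : X.e k b = X.e (k + 2) b
      · exact (S_isolated (j := k) (b := b) L _ (hd.trans hiso.symm) hiso.symm
          (exists_other hN b)).ge
      obtain ⟨X', R⟩ := exists_dg hd hiso
      obtain ⟨L', hL'⟩ := R.exists_lab L
      have hyx : y ≠ L.c k b := by rw [hb]; exact hxy.symm
      rw [S_digon_marked R L L' hL' _ (by simp [hb, hxy])]
      have hcard := R.card_B
      have hcardV := DgRel.card_V (j := k) (b := b) L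
      have hterm : ∀ u : V, u ≠ L.c k b → (u = y → ∃ i, i ≠ k ∧ L.c i b = y ∧
          (X.e (i + 1) b = X.e (i + 2) b → X.e k b = X.e (k + 2) b)) →
          0 ≤ L'.S (fun v => ((if v.1 = x then 1 else 0) + if v.1 = y then 1 else 0) +
            if v.1 = u then 1 else 0) := by
        intro u hu huy
        have h3 : (fun v : {v : V // v ≠ L.c k b} => (((if v.1 = x then (1 : ZMod 4) else 0) +
            if v.1 = y then (1 : ZMod 4) else 0) + if v.1 = u then (1 : ZMod 4) else 0)) =
            fun v => (if v = ⟨y, hyx⟩ then (1 : ZMod 4) else 0) +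
              if v = ⟨u, hu⟩ then (1 : ZMod 4) else 0 := by
          ext v
          have h4 : v.1 ≠ x := by
            rw [← hb]
            exact v.2
          rw [if_neg h4, zero_add]
          simp only [Subtype.ext_iff]
        rw [h3]
        refine main L' (by omega) (by omega) _ _ ?_
        intro he
        have hyu : y = u := congrArg Subtype.val he
        obtain ⟨i, hi, hi1, hi2⟩ := huy hyu.symm
        by_contra hlt
        have hB2 : Fintype.card B = 2 := by omega
        have hdy := deg_y L hc hB2 hxy h2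
        obtain ⟨k', b', hb', hd'⟩ := deg_one L hdy
        have h5 : L.c i b = L.c k' b' := hi1.trans hb'.symm
        have h6 : i = k' := L.cls _ _ _ _ h5
        subst h6
        have h7 : b = b' := digon_unique L hd' h5
        subst h7
        exact hiso (hi2 hd')
      refine add_nonneg (hterm (L.c (k + 2) b) ?_ ?_) (hterm (L.c (k + 1) b) ?_ ?_)
      · exact fun h => fne2 k (L.cls _ _ _ _ h)
      · intro h
        refine ⟨k + 2, fne2 k, h, ?_⟩
        rw [f21, f22]
        intro h'
        exact h'.trans hd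
      · exact fun h => fne1 k (L.cls _ _ _ _ h)
      · intro h
        refine ⟨k + 1, fne1 k, h, ?_⟩
        rw [f11, f12]
        intro h'
        exact h'.symm
    by_cases hx : deg L x = 1
    · exact dig x y hxy h2 hx
    by_cases hy : deg L y = 1
    · have h3 := dig y x hxy.symm (fun v hv hw => h2 v hw hv) hy
      have h4 : (fun v : V => (if v = y then (1 : ZMod 4) else 0) +
          if v = x then (1 : ZMod 4) else 0) = fun v => (if v = x then 1 else 0) +
          if v = y then 1 else 0 := by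
        ext v
        rw [add_comm]
      rw [h4] at h3
      exact h3
    -- no digons
    have h2' : ∀ v, 2 ≤ deg L v := by
      intro v
      have h4 := deg_pos L v
      by_cases hv : v = x
      · subst hv
        omega
      · by_cases hw : v = y
        · subst hw
          omega
        · exact h2 v hv hw
    obtain ⟨k, b₁, b₂, hF, Q⟩ := exists_sq4 L (x := x) _ (card_F2 L hc x y h2')
      (fun v hv => (Finset.mem_filter.1 hv).2.2) (by
        intro k b hd
        have h3 := deg_of_digon L hd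
        have h4 := h2' (L.c k b)
        omega)
    have hs := (Finset.mem_filter.1 hF).2.1
    refine sq_rule Q L hc _ (by simp [hs.1, hs.2]) (fun a => 0 ≤ a) le_rfl
      (fun a b => add_nonneg) ?_
    intro B' W' V' _ _ _ _ X' L' π h1 h2 h3
    rw [push_add, push_single, push_single]
    exact main L' (by omega) h2 (π x) (π y) (fun _ => h3)

end PosAux

open PosAux

variable {X : Web B W} [Fintype B] [Fintype W] [Fintype V] [DecidableEq V]

/-- double marks -/
theorem S_double (L : Lab X V) (hc : Fintype.card V = Fintype.card B + 2)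
    (hN : 2 ≤ Fintype.card B) (x : V) : L.S (fun v => if v = x then 2 else 0) = 0 :=
  double_aux _ L rfl hc hN x

theorem S_nonneg (L : Lab X V) (hc : Fintype.card V = Fintype.card B + 2)
    (x y : V) (hxy : x ≠ y) :
    0 ≤ L.S (fun v => (if v = x then 1 else 0) + if v = y then 1 else 0) :=
  nonneg_aux _ L rfl hc x y hxy

end Vale.Agent.P039.Sk
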