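import Vale.Agent.P039.Sk.SqSum
import Vale.Agent.P039.Sk.Dual
import Vale.Agent.P039.Sk.Exist
import Vale.Agent.P039.Sk.NoDup

/-! The square rules. -/

namespace Vale.Agent.P039.Sk

variable {B W V B' W' : Type}

section local4
variable {X : Web B W} {j : Fin 3} {b₁ b₂ : B}

/-- the corners of the 4-face at its vertices -/
theorem Sq4.cs (Q : Sq4 X j b₁ b₂) (L : Lab X V) : L.c j b₂ = L.c j b₁ :=
  L.step j b₁ b₂ Q.face

/-- the edge of colour `j` at `w₁` -/
theorem Sq4.cβ₁ (Q : Sq4 X j b₁ b₂) (L : Lab X V) {β : B} (hβ : X.e j β = X.e (j + 2) b₁) :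
    L.c (j + 1) β = L.c (j + 1) b₁ ∧ L.c (j + 2) β = L.c (j + 2) b₂ := by
  constructor
  · symm
    apply L.step
    rw [f11, f12, hβ]
  · apply L.step
    rw [f21, f22, Q.face, hβ]

/-- the edge of colour `j` at `w₂` -/
theorem Sq4.cβ₂ (Q : Sq4 X j b₁ b₂) (L : Lab X V) {β : B} (hβ : X.e j β = X.e (j + 2) b₂) :
    L.c (j + 1) β = L.c (j + 1) b₂ ∧ L.c (j + 2) β = L.c (j + 2) b₁ := by
  constructor
  · symm
    apply L.step
    rw [f11, f12, hβ]
  · apply L.step
    rw [f21, f22, Q.face', hβ]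

/-- the seven possible patterns on the 4-face -/
theorem Sq4.pattern (Q : Sq4 X j b₁ b₂) (L : Lab X V) {h : V → ZMod 12} (hs : L.Sol h) :
    let x := h (L.c j b₁)
    let p := h (L.c (j + 1) b₁)
    let p' := h (L.c (j + 1) b₂)
    let q := h (L.c (j + 2) b₂)
    let q' := h (L.c (j + 2) b₁)
    (p = x + 1 ∧ p' = x + 1 ∧ q = x - 1 ∧ q' = x + 2) ∨
    (p = x + 1 ∧ p' = x + 1 ∧ q = x + 2 ∧ q' = x - 1) ∨
    (p = x - 2 ∧ p' = x - 2 ∧ q = x - 1 ∧ q' = x - 1) ∨
    (p = x + 1 ∧ p' = x + 1 ∧ q = x + 2 ∧ q' = x + 2) ∨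
    (p = x + 1 ∧ p' = x - 2 ∧ q = x - 1 ∧ q' = x - 1) ∨
    (p = x - 2 ∧ p' = x + 1 ∧ q = x - 1 ∧ q' = x - 1) := by
  intro x p p' q q'
  have cs := Q.cs L
  obtain ⟨u1, u2⟩ := Q.cβ₁ L (β := (X.e j).symm (X.e (j + 2) b₁)) (Equiv.apply_symm_apply _ _)
  obtain ⟨v1, v2⟩ := Q.cβ₂ L (β := (X.e j).symm (X.e (j + 2) b₂)) (Equiv.apply_symm_apply _ _)
  -- colour j + 2 at b₁, b₂
  have a1 := hs.1 (j + 2) b₁
  have a2 := hs.1 (j + 2) b₂
  rw [f22, f21] at a1 a2
  rw [cs] at a2
  -- colour j + 1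
  have a3 := hs.1 (j + 1) b₁
  have a4 := hs.1 (j + 1) b₂
  rw [f11, f12] at a3 a4
  rw [cs] at a4
  -- colour j
  have a5 := hs.1 j b₁
  have a6 := hs.1 j b₂
  have a7 := hs.1 j ((X.e j).symm (X.e (j + 2) b₁))
  have a8 := hs.1 j ((X.e j).symm (X.e (j + 2) b₂))
  rw [u1, u2] at a7
  rw [v1, v2] at a8
  -- the connected case
  have hno : ¬ (p = x + 1 ∧ p' = x + 1 ∧ q = x - 1 ∧ q' = x - 1) := by
    rintro ⟨hp, hp', hq, hq'⟩
    have hinv : ∀ y z : B ⊕ W, Relation.EqvGen (L.HE h) y z →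
        ((y = Sum.inl b₁ ∨ y = Sum.inl b₂ ∨ y = Sum.inr (X.e (j + 2) b₁) ∨
          y = Sum.inr (X.e (j + 2) b₂)) ↔
        (z = Sum.inl b₁ ∨ z = Sum.inl b₂ ∨ z = Sum.inr (X.e (j + 2) b₁) ∨
          z = Sum.inr (X.e (j + 2) b₂))) := by
      intro y z hyz
      induction hyz with
      | rel y z hr =>
        obtain ⟨i, b, hk, rfl, rfl⟩ := hr
        have aux : ∀ s t : ZMod 12, s = t - 1 → s = t + 1 + 1 → False := by decide
        constructor
        · rintro (e | e | e | e)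
          · have e := Sum.inl_injective e
            subst e
            rcases fcase i j with e | e | e
            · subst e
              exfalso
              exact aux _ _ hq' (hk.trans (by rw [← hp]))
            · subst e
              right; right; right
              rw [Q.face']
            · subst e
              right; right; left
              rfl
          · have e := Sum.inl_injective e
            subst e
            rcases fcase i j with e | e | e
            · subst e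
              exfalso
              exact aux _ _ hq (hk.trans (by rw [← hp']))
            · subst e
              right; right; left
              rw [Q.face]
            · subst e
              right; right; right
              rfl
          · exact absurd e (by simp)
          · exact absurd e (by simp)
        · rintro (e | e | e | e)
          · exact absurd e (by simp)
          · exact absurd e (by simp)
          · have e := Sum.inr_injective e
            rcases fcase i j with e' | e' | e'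
            · exfalso
              subst e'
              obtain ⟨c1, c2⟩ := Q.cβ₁ L e
              rw [c1, c2] at hk
              exact aux _ _ hq (hk.trans (by rw [← hp]))
            · subst e'
              right; left
              rw [← Q.face] at e
              rw [(X.e (j + 1)).injective e]
            · subst e'
              left
              rw [(X.e (j + 2)).injective e]
          · have e := Sum.inr_injective e
            rcases fcase i j with e' | e' | e'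
            · exfalso
              subst e'
              obtain ⟨c1, c2⟩ := Q.cβ₂ L e
              rw [c1, c2] at hk
              exact aux _ _ hq' (hk.trans (by rw [← hp']))
            · subst e'
              left
              rw [← Q.face'] at e
              rw [(X.e (j + 1)).injective e]
            · subst e'
              right; left
              rw [(X.e (j + 2)).injective e]
      | refl y => exact Iff.rfl
      | symm y z _ ih => exact ih.symm
      | trans y z u _ _ ih1 ih2 => exact ih1.trans ih2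
    have := (hinv _ _ (hs.2 (Sum.inl b₁) (Sum.inr (X.e j b₁)))).1 (Or.inl rfl)
    rcases this with e | e | e | e
    · exact absurd e (by simp)
    · exact absurd e (by simp)
    · exact Q.n11 (Sum.inr_injective e)
    · exact Q.n12 (Sum.inr_injective e)
  have aux2 : ∀ x p p' q q' : ZMod 12, (p = x + 1 ∨ p = x - 2) → (p' = x + 1 ∨ p' = x - 2) →
      (x = q' + 1 ∨ x = q' - 2) → (x = q + 1 ∨ x = q - 2) →
      (q' = p + 1 ∨ q' = p - 2) → (q = p' + 1 ∨ q = p' - 2) →
      (q = p + 1 ∨ q = p - 2) → (q' = p' + 1 ∨ q' = p' - 2) →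
      ¬ (p = x + 1 ∧ p' = x + 1 ∧ q = x - 1 ∧ q' = x - 1) →
      (p = x + 1 ∧ p' = x + 1 ∧ q = x - 1 ∧ q' = x + 2) ∨
      (p = x + 1 ∧ p' = x + 1 ∧ q = x + 2 ∧ q' = x - 1) ∨
      (p = x - 2 ∧ p' = x - 2 ∧ q = x - 1 ∧ q' = x - 1) ∨
      (p = x + 1 ∧ p' = x + 1 ∧ q = x + 2 ∧ q' = x + 2) ∨
      (p = x + 1 ∧ p' = x - 2 ∧ q = x - 1 ∧ q' = x - 1) ∨
      (p = x - 2 ∧ p' = x + 1 ∧ q = x - 1 ∧ q' = x - 1) := by
    intro x p p' q q' k1 k2 k3 k4 k5 k6 k7 k8 k9
    have k3' : q' = x - 1 ∨ q' = x + 2 := by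
      rcases k3 with k3 | k3
      · left; rw [k3]; ring
      · right; rw [k3]; ring
    have k4' : q = x - 1 ∨ q = x + 2 := by
      rcases k4 with k4 | k4
      · left; rw [k4]; ring
      · right; rw [k4]; ring
    clear k3 k4
    rcases k1 with rfl | rfl <;> rcases k2 with rfl | rfl <;> rcases k3' with rfl | rfl <;>
      rcases k4' with rfl | rfl <;> revert x <;> decide
  exact aux2 x p p' q q' a1 a2 a3 a4 a5 a6 a7 a8 hno

end local4

variable {X : Web B W} [Fintype B] [Fintype W] [Fintype V] [DecidableEq V] {j : Fin 3} {b₁ b₂ : B}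

/-- every solution has exactly one of the two types -/
theorem type12 (Q : Sq4 X j b₁ b₂) (L : Lab X V) {h : V → ZMod 12} (hs : L.Sol h) :
    (L.type1 j b₁ b₂ h ∧ ¬ L.type2 j b₁ b₂ h) ∨ (¬ L.type1 j b₁ b₂ h ∧ L.type2 j b₁ b₂ h) := by
  have hp := Q.pattern L hs
  simp only at hp
  unfold Lab.type1 Lab.type2
  generalize h (L.c j b₁) = x at *
  generalize h (L.c (j + 1) b₁) = p at *
  generalize h (L.c (j + 1) b₂) = p' at *
  generalize h (L.c (j + 2) b₂) = q at *
  generalize h (L.c (j + 2) b₁) = q' at *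
  rcases hp with ⟨rfl, rfl, rfl, rfl⟩ | ⟨rfl, rfl, rfl, rfl⟩ | ⟨rfl, rfl, rfl, rfl⟩ |
    ⟨rfl, rfl, rfl, rfl⟩ | ⟨rfl, rfl, rfl, rfl⟩ | ⟨rfl, rfl, rfl, rfl⟩ <;> revert x <;> decide

theorem S_eq_T1_add_T2 (Q : Sq4 X j b₁ b₂) (L : Lab X V) (m : V → ZMod 4) :
    L.S m = L.T1 j b₁ b₂ m + L.T2 j b₁ b₂ m := by
  classical
  unfold Lab.S Lab.T1 Lab.T2
  rw [← Finset.sum_add_distrib]
  refine Finset.sum_congr (Finset.ext fun _ => by simp) fun h _ => ?_
  by_cases hs : L.Sol h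
  · rcases type12 Q L hs with ⟨t1, t2⟩ | ⟨t1, t2⟩
    · rw [if_pos hs, if_pos ⟨hs, t1⟩, if_neg (fun e => t2 e.2), add_zero]
    · rw [if_pos hs, if_neg (fun e => t1 e.2), if_pos ⟨hs, t2⟩, zero_add]
  · rw [if_neg hs, if_neg (fun e => hs e.1), if_neg (fun e => hs e.1), add_zero]

/-- `q = q'`: all solutions have type 1 and there is no mono contribution (given `p ≠ p'`) -/
theorem T2_zero (Q : Sq4 X j b₁ b₂) (L : Lab X V) (hc : Fintype.card V = Fintype.card B + 2)
    (hq : L.c (j + 2) b₁ = L.c (j + 2) b₂) (m : V → ZMod 4) : L.T2 j b₁ b₂ m = 0 := by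
  classical
  unfold Lab.T2
  refine Finset.sum_eq_zero fun h _ => ?_
  rw [if_neg]
  rintro ⟨hs, ht⟩
  have cs := Q.cs L
  have b1 : X.e j ((X.e j).symm (X.e (j + 2) b₁)) = X.e (j + 2) b₁ := Equiv.apply_symm_apply _ _
  have b2 : X.e j ((X.e j).symm (X.e (j + 2) b₂)) = X.e (j + 2) b₂ := Equiv.apply_symm_apply _ _
  generalize (X.e j).symm (X.e (j + 2) b₁) = β₁ at b1
  generalize (X.e j).symm (X.e (j + 2) b₂) = β₂ at b2
  obtain ⟨u1, u2⟩ := Q.cβ₁ L b1
  obtain ⟨v1, v2⟩ := Q.cβ₂ L b2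
  have hp := Q.pattern L hs
  simp only at hp
  have d1 : (x : ZMod 12) → x + 1 ≠ x - 2 := by decide
  have d2 : (x : ZMod 12) → x + 2 ≠ x - 1 := by decide
  rcases hp with ⟨e1, e2, e3, e4⟩ | ⟨e1, e2, e3, e4⟩ | ⟨e1, e2, e3, e4⟩ |
    ⟨e1, e2, e3, e4⟩ | ⟨e1, e2, e3, e4⟩ | ⟨e1, e2, e3, e4⟩
  · rw [hq, e3] at e4
    exact d2 _ e4.symm
  · rw [hq, e3] at e4
    exact d2 _ e4
  · have := ht.2
    rw [e1, e2, e4] at this
    generalize h (L.c j b₁) = x at this
    revert x; decide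
  · -- colour j + 1 at b₁ and b₂
    refine no_dup L hc hs Q.ne (i := j + 1) (i' := j + 1) ?_ ?_ ?_ ?_
    · rw [f11, f12, e4]; ring
    · rw [f11, f12, cs, e3]; ring
    · rw [f11, hq]
    · rw [f12, cs]
  · -- colour j at b₁ and β₁
    refine no_dup L hc hs (b := b₁) (b' := β₁) ?_ (i := j) (i' := j) ?_ ?_ ?_ ?_
    · rintro rfl; exact Q.n11 b1
    · rw [e1, e4]; ring
    · rw [u1, u2, e1, e3]; ring
    · rw [u1]
    · rw [u2, hq]
  · -- colour j at b₂ and β₂
    refine no_dup L hc hs (b := b₂) (b' := β₂) ?_ (i := j) (i' := j) ?_ ?_ ?_ ?_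
    · rintro rfl; exact Q.n22 b2
    · rw [e2, e3]; ring
    · rw [v1, v2, e2, e4]; ring
    · rw [v1]
    · rw [v2, hq]

theorem M1_zero (Q : Sq4 X j b₁ b₂) (L : Lab X V) (hc : Fintype.card V = Fintype.card B + 2)
    (hp : L.c (j + 1) b₁ ≠ L.c (j + 1) b₂)
    (hq : L.c (j + 2) b₁ = L.c (j + 2) b₂) (m : V → ZMod 4) (hm : m (L.c j b₁) = 0) :
    L.M1 j b₁ b₂ m = 0 := by
  classical
  obtain ⟨Z, R⟩ := Q.exists_rel
  obtain ⟨L', hL'⟩ := R.exists_lab L hp
  obtain ⟨β₁, β₂, hβ, h₁, h₂⟩ := R.betas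
  rw [sum_mono R L hp L' hL' h₁ h₂ m hm]
  refine Finset.sum_eq_zero fun h _ => ?_
  rw [if_neg]
  rintro ⟨hs, ht⟩
  have hcB := R.card_B
  have hcV := R.card_V L hp
  obtain ⟨a1, a2⟩ := R.c_β₁ L h₁
  obtain ⟨c1, c2⟩ := R.c_β₂ L h₂
  have n12 : ∀ a b : B, L.c (j + 2) a ≠ L.c (j + 1) b := fun a b e => fne21 j (L.cls _ _ _ _ e)
  refine no_dup L' (by omega) hs hβ ht.1 ht.2 ?_ ?_
  · apply Subtype.ext
    rw [hL', hL', a1, c1, if_neg hp, if_pos rfl]
  · apply Subtype.ext
    rw [hL', hL', a2, c2, if_neg (n12 _ _), if_neg (n12 _ _), hq]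

theorem T1_zero (Q : Sq4 X j b₁ b₂) (L : Lab X V) (hc : Fintype.card V = Fintype.card B + 2)
    (hp : L.c (j + 1) b₁ = L.c (j + 1) b₂) (m : V → ZMod 4) : L.T1 j b₁ b₂ m = 0 := by
  classical
  unfold Lab.T1
  refine Finset.sum_eq_zero fun h _ => ?_
  rw [if_neg]
  rintro ⟨hs, ht⟩
  have cs := Q.cs L
  have b1 : X.e j ((X.e j).symm (X.e (j + 2) b₁)) = X.e (j + 2) b₁ := Equiv.apply_symm_apply _ _
  have b2 : X.e j ((X.e j).symm (X.e (j + 2) b₂)) = X.e (j + 2) b₂ := Equiv.apply_symm_apply _ _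
  generalize (X.e j).symm (X.e (j + 2) b₁) = β₁ at b1
  generalize (X.e j).symm (X.e (j + 2) b₂) = β₂ at b2
  obtain ⟨u1, u2⟩ := Q.cβ₁ L b1
  obtain ⟨v1, v2⟩ := Q.cβ₂ L b2
  have hpt := Q.pattern L hs
  simp only at hpt
  have d1 : (x : ZMod 12) → x + 1 ≠ x - 2 := by decide
  rcases hpt with ⟨e1, e2, e3, e4⟩ | ⟨e1, e2, e3, e4⟩ | ⟨e1, e2, e3, e4⟩ |
    ⟨e1, e2, e3, e4⟩ | ⟨e1, e2, e3, e4⟩ | ⟨e1, e2, e3, e4⟩
  · -- colour j at b₂ and β₁
    refine no_dup L hc hs (b := b₂) (b' := β₁) ?_ (i := j) (i' := j) ?_ ?_ ?_ ?_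
    · rintro rfl; exact Q.n21 b1
    · rw [e2, e3]; ring
    · rw [u1, u2, e1, e3]; ring
    · rw [u1, hp]
    · rw [u2]
  · -- colour j at b₁ and β₂
    refine no_dup L hc hs (b := b₁) (b' := β₂) ?_ (i := j) (i' := j) ?_ ?_ ?_ ?_
    · rintro rfl; exact Q.n12 b2
    · rw [e1, e4]; ring
    · rw [v1, v2, e2, e4]; ring
    · rw [v1, hp]
    · rw [v2]
  · -- colour j + 2 at b₁ and b₂
    refine no_dup L hc hs Q.ne (i := j + 2) (i' := j + 2) ?_ ?_ ?_ ?_
    · rw [f22, f21, e1]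
    · rw [f22, f21, cs, e2]
    · rw [f21, cs]
    · rw [f22, hp]
  · have := ht.2
    rw [e1, e3, e4] at this
    generalize h (L.c j b₁) = x at this
    revert x; decide
  · rw [hp, e2] at e1
    exact d1 _ e1.symm
  · rw [hp, e2] at e1
    exact d1 _ e1

end Vale.Agent.P039.Sk
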