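import Vale.Agent.P039.Sk.Basic2

/-! The labelling of the smaller web. -/

namespace Vale.Agent.P039.Sk

variable {B W V B' W' : Type}

variable {Y : Web B W} {X : Web B' W'} {f : B' → B} {g : W' → W} {j : Fin 3} {b₁ b₂ : B}

theorem SqRel.ex_f (R : SqRel Y X f g j b₁ b₂) {b : B} (h1 : b ≠ b₁) (h2 : b ≠ b₂) :
    ∃ b', f b' = b := (R.fr b).2 ⟨h1, h2⟩

theorem SqRel.f_ne₁ (R : SqRel Y X f g j b₁ b₂) (b : B') : f b ≠ b₁ := ((R.fr _).1 ⟨b, rfl⟩).1

theorem SqRel.f_ne₂ (R : SqRel Y X f g j b₁ b₂) (b : B') : f b ≠ b₂ := ((R.fr _).1 ⟨b, rfl⟩).2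

theorem SqRel.g_ne₁ (R : SqRel Y X f g j b₁ b₂) (w : W') : g w ≠ Y.e (j + 2) b₁ :=
  ((R.gr _).1 ⟨w, rfl⟩).1

theorem SqRel.g_ne₂ (R : SqRel Y X f g j b₁ b₂) (w : W') : g w ≠ Y.e (j + 2) b₂ :=
  ((R.gr _).1 ⟨w, rfl⟩).2

/-- every black vertex is `b₁`, `b₂` or in the range of `f` -/
theorem SqRel.cases (R : SqRel Y X f g j b₁ b₂) (b : B) : b = b₁ ∨ b = b₂ ∨ ∃ a, b = f a := by
  by_cases h1 : b = b₁
  · exact Or.inl h1
  · by_cases h2 : b = b₂
    · exact Or.inr (Or.inl h2)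
    · obtain ⟨a, ha⟩ := R.ex_f h1 h2
      exact Or.inr (Or.inr ⟨a, ha.symm⟩)

theorem SqRel.n11 (R : SqRel Y X f g j b₁ b₂) : Y.e j b₁ ≠ Y.e (j + 2) b₁ := by
  obtain ⟨w, hw⟩ := R.o1
  rw [← hw]; exact R.g_ne₁ w

theorem SqRel.n12 (R : SqRel Y X f g j b₁ b₂) : Y.e j b₁ ≠ Y.e (j + 2) b₂ := by
  obtain ⟨w, hw⟩ := R.o1
  rw [← hw]; exact R.g_ne₂ w

theorem SqRel.n21 (R : SqRel Y X f g j b₁ b₂) : Y.e j b₂ ≠ Y.e (j + 2) b₁ := by
  obtain ⟨w, hw⟩ := R.o2
  rw [← hw]; exact R.g_ne₁ w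

theorem SqRel.n22 (R : SqRel Y X f g j b₁ b₂) : Y.e j b₂ ≠ Y.e (j + 2) b₂ := by
  obtain ⟨w, hw⟩ := R.o2
  rw [← hw]; exact R.g_ne₂ w

theorem SqRel.sq4 (R : SqRel Y X f g j b₁ b₂) : Sq4 Y j b₁ b₂ :=
  ⟨R.ne, R.face, R.face', R.n11, R.n12, R.n21, R.n22⟩

/-- the two new edges: `f β₁` was joined to `w₁`, `f β₂` to `w₂` -/
theorem SqRel.betas (R : SqRel Y X f g j b₁ b₂) : ∃ β₁ β₂ : B', β₁ ≠ β₂ ∧
    Y.e j (f β₁) = Y.e (j + 2) b₁ ∧ Y.e j (f β₂) = Y.e (j + 2) b₂ := by
  have key : ∀ w, w = Y.e (j + 2) b₁ ∨ w = Y.e (j + 2) b₂ → ∃ β : B', Y.e j (f β) = w := by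
    intro w hw
    obtain ⟨b, hb⟩ := (Y.e j).surjective w
    rcases R.cases b with rfl | rfl | ⟨a, rfl⟩
    · rcases hw with rfl | rfl
      · exact absurd hb R.n11
      · exact absurd hb R.n12
    · rcases hw with rfl | rfl
      · exact absurd hb R.n21
      · exact absurd hb R.n22
    · exact ⟨a, hb⟩
  obtain ⟨β₁, h1⟩ := key _ (Or.inl rfl)
  obtain ⟨β₂, h2⟩ := key _ (Or.inr rfl)
  refine ⟨β₁, β₂, ?_, h1, h2⟩
  rintro rfl
  rw [h1] at h2
  exact R.ne ((Y.e (j + 2)).injective h2)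

theorem SqRel.c_s (R : SqRel Y X f g j b₁ b₂) (L : Lab Y V) : L.c j b₂ = L.c j b₁ :=
  L.step j b₁ b₂ R.face

theorem SqRel.c_only (R : SqRel Y X f g j b₁ b₂) (L : Lab Y V) {k : Fin 3} {b : B}
    (h : L.c k b = L.c j b₁) : k = j ∧ (b = b₁ ∨ b = b₂) := by
  have hk : k = j := L.cls _ _ _ _ h
  subst hk
  refine ⟨rfl, ?_⟩
  have key : ∀ x y, Relation.EqvGen (fun x y => Y.e (k + 1) y = Y.e (k + 2) x) x y →
      ((x = b₁ ∨ x = b₂) ↔ (y = b₁ ∨ y = b₂)) := by
    intro x y hxy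
    induction hxy with
    | rel x y h =>
      constructor
      · rintro (h1 | h1)
        · right
          rw [h1, ← R.face] at h
          exact (Y.e (k + 1)).injective h
        · left
          rw [h1, ← R.face'] at h
          exact (Y.e (k + 1)).injective h
      · rintro (h1 | h1)
        · right
          rw [h1, R.face'] at h
          exact (Y.e (k + 2)).injective h.symm
        · left
          rw [h1, R.face] at h
          exact (Y.e (k + 2)).injective h.symm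
    | refl x => exact Iff.rfl
    | symm x y _ ih => exact ih.symm
    | trans x y z _ _ ih1 ih2 => exact ih1.trans ih2
  exact (key b b₁ (L.exact k b b₁ h)).2 (Or.inl rfl)

theorem SqRel.c_ne_s (R : SqRel Y X f g j b₁ b₂) (L : Lab Y V) (k : Fin 3) (b : B') :
    L.c k (f b) ≠ L.c j b₁ := by
  intro h
  rcases (R.c_only L h).2 with h1 | h1
  · exact R.f_ne₁ b h1
  · exact R.f_ne₂ b h1

theorem SqRel.c_β₁ (R : SqRel Y X f g j b₁ b₂) (L : Lab Y V) {β₁ : B'}
    (h : Y.e j (f β₁) = Y.e (j + 2) b₁) :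
    L.c (j + 1) (f β₁) = L.c (j + 1) b₁ ∧ L.c (j + 2) (f β₁) = L.c (j + 2) b₂ := by
  constructor
  · refine (L.step (j + 1) (f β₁) b₁ ?_).symm
    rw [f11, f12, h]
  · refine L.step (j + 2) b₂ (f β₁) ?_
    rw [f21, f22, h, R.face]

theorem SqRel.c_β₂ (R : SqRel Y X f g j b₁ b₂) (L : Lab Y V) {β₂ : B'}
    (h : Y.e j (f β₂) = Y.e (j + 2) b₂) :
    L.c (j + 1) (f β₂) = L.c (j + 1) b₂ ∧ L.c (j + 2) (f β₂) = L.c (j + 2) b₁ := by
  constructor
  · refine (L.step (j + 1) (f β₂) b₂ ?_).symm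
    rw [f11, f12, h]
  · refine L.step (j + 2) b₁ (f β₂) ?_
    rw [f21, f22, h, R.face']

/-- steps around faces of class `j + 1` (in shifted form) -/
theorem Lab.step1 (L : Lab Y V) (j : Fin 3) {b b' : B} (h : Y.e (j + 2) b' = Y.e j b) :
    L.c (j + 1) b' = L.c (j + 1) b := by
  refine L.step (j + 1) b b' ?_
  rw [f11, f12, h]

theorem Lab.step2 (L : Lab Y V) (j : Fin 3) {b b' : B} (h : Y.e j b' = Y.e (j + 1) b) :
    L.c (j + 2) b' = L.c (j + 2) b := by
  refine L.step (j + 2) b b' ?_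
  rw [f21, f22, h]

section
variable (R : SqRel Y X f g j b₁ b₂)
include R

theorem SqRel.X_of_j {a a' : B'} (h : Y.e (j + 1) (f a') = Y.e (j + 2) (f a)) :
    X.e (j + 1) a' = X.e (j + 2) a := by
  rw [R.other _ (fne1 j), R.other _ (fne2 j)] at h
  exact R.gi h

theorem SqRel.Y_of_j {a a' : B'} (h : X.e (j + 1) a' = X.e (j + 2) a) :
    Y.e (j + 1) (f a') = Y.e (j + 2) (f a) := by
  rw [R.other _ (fne1 j), R.other _ (fne2 j), h]

theorem SqRel.same' {a : B'} {w : W'} (h : Y.e j (f a) = g w) : X.e j a = w := by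
  have h1 := R.same a (by rw [h]; exact R.g_ne₁ w) (by rw [h]; exact R.g_ne₂ w)
  exact R.gi (h1.symm.trans h)

end

theorem SqRel.eqv_β [Finite B] (R : SqRel Y X f g j b₁ b₂) (L : Lab Y V)
    (hp : L.c (j + 1) b₁ ≠ L.c (j + 1) b₂) {β₁ β₂ : B'}
    (h₁ : Y.e j (f β₁) = Y.e (j + 2) b₁) (h₂ : Y.e j (f β₂) = Y.e (j + 2) b₂) :
    Relation.EqvGen (fun x y => X.e (j + 1 + 1) y = X.e (j + 1 + 2) x) β₁ β₂ := by
  have : Finite B' := Finite.of_injective f R.fi
  by_contra hne
  set ρ : Equiv.Perm B' := X.rho (j + 1) with hρ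
  have hstep : ∀ x, X.e (j + 2) (ρ x) = X.e j x := by
    intro x
    simp only [hρ, Web.rho, f11, f12, Equiv.trans_apply, Equiv.apply_symm_apply]
  have hrel : ∀ x, Relation.EqvGen (fun x y => X.e (j + 1 + 1) y = X.e (j + 1 + 2) x) x (ρ x) := by
    intro x
    refine Relation.EqvGen.rel _ _ ?_
    rw [f11, f12, hstep]
  have key : ∀ k : ℕ, L.c (j + 1) (f ((ρ ^ (k + 1)) β₁)) = L.c (j + 1) b₂ ∧
      Relation.EqvGen (fun x y => X.e (j + 1 + 1) y = X.e (j + 1 + 2) x) β₁ ((ρ ^ (k + 1)) β₁) := by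
    intro k
    induction k with
    | zero =>
      refine ⟨?_, by simpa using hrel β₁⟩
      refine L.step1 j ?_
      rw [R.other _ (fne2 j), zero_add, pow_one, hstep, R.out1 _ h₁]
    | succ k ih =>
      obtain ⟨ih1, ih2⟩ := ih
      set x := (ρ ^ (k + 1)) β₁ with hx
      have hx' : (ρ ^ (k + 1 + 1)) β₁ = ρ x := by
        rw [pow_succ', Equiv.Perm.mul_apply]
      rw [hx']
      refine ⟨?_, ih2.trans _ _ _ (hrel x)⟩
      rw [← ih1]
      refine L.step1 j ?_
      rw [R.other _ (fne2 j), hstep]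
      refine (R.same x ?_ ?_).symm
      · intro hc
        have : f x = f β₁ := (Y.e j).injective (hc.trans h₁.symm)
        rw [this, (R.c_β₁ L h₁).1] at ih1
        exact hp ih1
      · intro hc
        have : f x = f β₂ := (Y.e j).injective (hc.trans h₂.symm)
        have := R.fi this
        rw [this] at ih2
        exact hne ih2
  have hpos : 0 < orderOf ρ := orderOf_pos ρ
  obtain ⟨k, hk⟩ : ∃ k, orderOf ρ = k + 1 := ⟨orderOf ρ - 1, by omega⟩
  have h1 := (key k).1
  rw [← hk, pow_orderOf_eq_one, Equiv.Perm.one_apply, (R.c_β₁ L h₁).1] at h1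
  exact hp h1

/-- equivalences along faces descend to the smaller web -/
theorem SqRel.collapse [Finite B] (R : SqRel Y X f g j b₁ b₂) (L : Lab Y V)
    (hp : L.c (j + 1) b₁ ≠ L.c (j + 1) b₂) {β₁ β₂ : B'}
    (h₁ : Y.e j (f β₁) = Y.e (j + 2) b₁) (h₂ : Y.e j (f β₂) = Y.e (j + 2) b₂) (k : Fin 3) :
    ∃ φ : B → B', (∀ a, φ (f a) = a) ∧ (k = j + 1 → φ b₁ = β₁ ∧ φ b₂ = β₂) ∧
      ∀ x y, Relation.EqvGen (fun x y => Y.e (k + 1) y = Y.e (k + 2) x) x y →
        Relation.EqvGen (fun x y => X.e (k + 1) y = X.e (k + 2) x) (φ x) (φ y) := by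
  classical
  -- a map with prescribed values at b₁, b₂
  have hφ : ∀ γ₁ γ₂ : B', ∃ φ : B → B', (∀ a, φ (f a) = a) ∧ φ b₁ = γ₁ ∧ φ b₂ = γ₂ := by
    intro γ₁ γ₂
    refine ⟨fun b => if b = b₁ then γ₁ else if b = b₂ then γ₂ else
      if h : ∃ a, f a = b then h.choose else γ₁, ?_, ?_, ?_⟩
    · intro a
      have hex : ∃ a', f a' = f a := ⟨a, rfl⟩
      simp only [R.f_ne₁ a, R.f_ne₂ a, if_false]
      rw [dif_pos hex]
      exact R.fi hex.choose_spec
    · simp
    · simp [R.ne.symm]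
  have lift : ∀ φ : B → B', (∀ x y, Y.e (k + 1) y = Y.e (k + 2) x →
      Relation.EqvGen (fun x y => X.e (k + 1) y = X.e (k + 2) x) (φ x) (φ y)) →
      ∀ x y, Relation.EqvGen (fun x y => Y.e (k + 1) y = Y.e (k + 2) x) x y →
        Relation.EqvGen (fun x y => X.e (k + 1) y = X.e (k + 2) x) (φ x) (φ y) := by
    intro φ hφ x y hxy
    induction hxy with
    | rel x y h => exact hφ x y h
    | refl x => exact Relation.EqvGen.refl _
    | symm x y _ ih => exact ih.symm
    | trans x y z _ _ ih1 ih2 => exact ih1.trans _ _ _ ih2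
  rcases fcase k j with rfl | rfl | rfl
  · -- class j
    obtain ⟨φ, hf, hb1, hb2⟩ := hφ β₁ β₁
    refine ⟨φ, hf, fun h => absurd h (fne1' _), lift φ ?_⟩
    intro x y hxy
    rcases R.cases x with rfl | rfl | ⟨a, rfl⟩
    · have : y = b₂ := by
        rw [← R.face] at hxy
        exact (Y.e _).injective hxy
      rw [this, hb1, hb2]
      exact Relation.EqvGen.refl _
    · have : y = b₁ := by
        rw [← R.face'] at hxy
        exact (Y.e _).injective hxy
      rw [this, hb1, hb2]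
      exact Relation.EqvGen.refl _
    · rcases R.cases y with rfl | rfl | ⟨a', rfl⟩
      · rw [R.face'] at hxy
        exact absurd ((Y.e _).injective hxy).symm (R.f_ne₂ a)
      · rw [R.face] at hxy
        exact absurd ((Y.e _).injective hxy).symm (R.f_ne₁ a)
      · rw [hf, hf]
        exact Relation.EqvGen.rel _ _ (R.X_of_j hxy)
  · -- class j + 1
    have hβ := R.eqv_β L hp h₁ h₂
    obtain ⟨φ, hf, hb1, hb2⟩ := hφ β₁ β₂
    refine ⟨φ, hf, fun _ => ⟨hb1, hb2⟩, lift φ ?_⟩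
    intro x y hxy
    have hxy' : Y.e (j + 2) y = Y.e j x := by rw [f11, f12] at hxy; exact hxy
    rcases R.cases x with rfl | rfl | ⟨a, rfl⟩
    · rcases R.cases y with rfl | rfl | ⟨a', rfl⟩
      · exact absurd hxy'.symm R.n11
      · exact absurd hxy'.symm R.n12
      · rw [hb1, hf]
        refine hβ.trans _ _ _ (Relation.EqvGen.rel _ _ ?_)
        rw [f11, f12]
        refine R.gi ?_
        rw [← R.other _ (fne2 j), hxy', R.out2 _ h₂]
    · rcases R.cases y with rfl | rfl | ⟨a', rfl⟩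
      · exact absurd hxy'.symm R.n21
      · exact absurd hxy'.symm R.n22
      · rw [hb2, hf]
        refine hβ.symm.trans _ _ _ (Relation.EqvGen.rel _ _ ?_)
        rw [f11, f12]
        refine R.gi ?_
        rw [← R.other _ (fne2 j), hxy', R.out1 _ h₁]
    · rcases R.cases y with rfl | rfl | ⟨a', rfl⟩
      · have : f a = f β₁ := (Y.e j).injective (hxy'.symm.trans h₁.symm)
        rw [R.fi this, hf, hb1]
        exact Relation.EqvGen.refl _
      · have : f a = f β₂ := (Y.e j).injective (hxy'.symm.trans h₂.symm)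
        rw [R.fi this, hf, hb2]
        exact Relation.EqvGen.refl _
      · rw [hf, hf]
        refine Relation.EqvGen.rel _ _ ?_
        rw [f11, f12]
        refine (R.same' ?_).symm
        rw [← R.other _ (fne2 j), hxy']
  · -- class j + 2
    obtain ⟨φ, hf, hb1, hb2⟩ := hφ β₂ β₁
    refine ⟨φ, hf, fun h => absurd h (fne21 _), lift φ ?_⟩
    intro x y hxy
    have hxy' : Y.e j y = Y.e (j + 1) x := by rw [f21, f22] at hxy; exact hxy
    rcases R.cases x with rfl | rfl | ⟨a, rfl⟩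
    · have : y = f β₂ := by
        refine (Y.e j).injective ?_
        rw [hxy', h₂, R.face']
      rw [this, hf, hb1]
      exact Relation.EqvGen.refl _
    · have : y = f β₁ := by
        refine (Y.e j).injective ?_
        rw [hxy', h₁, R.face]
      rw [this, hf, hb2]
      exact Relation.EqvGen.refl _
    · rcases R.cases y with rfl | rfl | ⟨a', rfl⟩
      · rw [hf, hb1]
        refine Relation.EqvGen.rel _ _ ?_
        rw [f21, f22]
        refine R.gi ?_
        rw [R.out2 _ h₂, hxy', R.other _ (fne1 j)]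
      · rw [hf, hb2]
        refine Relation.EqvGen.rel _ _ ?_
        rw [f21, f22]
        refine R.gi ?_
        rw [R.out1 _ h₁, hxy', R.other _ (fne1 j)]
      · rw [hf, hf]
        refine Relation.EqvGen.rel _ _ ?_
        rw [f21, f22]
        refine R.same' ?_
        rw [hxy', R.other _ (fne1 j)]

theorem SqRel.exists_lab [Finite B] [DecidableEq V] (R : SqRel Y X f g j b₁ b₂) (L : Lab Y V)
    (hp : L.c (j + 1) b₁ ≠ L.c (j + 1) b₂) :
    ∃ L' : Lab X (L.V1 j b₁ b₂), ∀ k b, ((L'.c k b : L.V1 j b₁ b₂) : V) =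
      if L.c k (f b) = L.c (j + 1) b₂ then L.c (j + 1) b₁ else L.c k (f b) := by
  obtain ⟨β₁, β₂, hβ, h₁, h₂⟩ := R.betas
  have hps : L.c (j + 1) b₁ ≠ L.c j b₁ := fun h => fne1 j (L.cls _ _ _ _ h)
  -- the values
  have hval : ∀ k b, (if L.c k (f b) = L.c (j + 1) b₂ then L.c (j + 1) b₁ else L.c k (f b)) ≠
      L.c j b₁ ∧
      (if L.c k (f b) = L.c (j + 1) b₂ then L.c (j + 1) b₁ else L.c k (f b)) ≠
        L.c (j + 1) b₂ := by
    intro k b
    split_ifs with h
    · exact ⟨hps, hp⟩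
    · exact ⟨R.c_ne_s L k b, h⟩
  have hcls : ∀ k b, ∃ b', (if L.c k (f b) = L.c (j + 1) b₂ then L.c (j + 1) b₁
      else L.c k (f b)) = L.c k b' := by
    intro k b
    split_ifs with h
    · have := L.cls _ _ _ _ h
      subst this
      exact ⟨b₁, rfl⟩
    · exact ⟨f b, rfl⟩
  refine ⟨⟨fun k b => ⟨if L.c k (f b) = L.c (j + 1) b₂ then L.c (j + 1) b₁ else L.c k (f b),
    hval k b⟩, ?_, ?_, ?_, ?_⟩, fun k b => rfl⟩
  · -- step
    intro k b b' h
    apply Subtype.ext
    show (if L.c k (f b') = L.c (j + 1) b₂ then L.c (j + 1) b₁ else L.c k (f b')) =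
      (if L.c k (f b) = L.c (j + 1) b₂ then L.c (j + 1) b₁ else L.c k (f b))
    rcases fcase k j with rfl | rfl | rfl
    · rw [L.step k (f b) (f b') (R.Y_of_j h)]
    · have h' : X.e (j + 2) b' = X.e j b := by rw [f11, f12] at h; exact h
      by_cases c1 : Y.e j (f b) = Y.e (j + 2) b₁
      · have e1 : L.c (j + 1) (f b') = L.c (j + 1) b₂ := by
          refine L.step1 j ?_
          rw [R.other _ (fne2 j), h', R.out1 _ c1]
        rw [e1, (R.c_β₁ L c1).1, if_pos rfl, if_neg hp]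
      · by_cases c2 : Y.e j (f b) = Y.e (j + 2) b₂
        · have e1 : L.c (j + 1) (f b') = L.c (j + 1) b₁ := by
            refine L.step1 j ?_
            rw [R.other _ (fne2 j), h', R.out2 _ c2]
          rw [e1, (R.c_β₂ L c2).1, if_pos rfl, if_neg hp]
        · have e1 : L.c (j + 1) (f b') = L.c (j + 1) (f b) := by
            refine L.step1 j ?_
            rw [R.other _ (fne2 j), h', R.same _ c1 c2]
          rw [e1]
    · have h' : X.e j b' = X.e (j + 1) b := by rw [f21, f22] at h; exact h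
      have e1 : L.c (j + 2) (f b') = L.c (j + 2) (f b) := by
        by_cases c1 : Y.e j (f b') = Y.e (j + 2) b₁
        · rw [(R.c_β₁ L c1).2]
          refine L.step2 j ?_
          rw [R.other _ (fne1 j), ← h', R.out1 _ c1]
        · by_cases c2 : Y.e j (f b') = Y.e (j + 2) b₂
          · rw [(R.c_β₂ L c2).2]
            refine L.step2 j ?_
            rw [R.other _ (fne1 j), ← h', R.out2 _ c2]
          · refine L.step2 j ?_
            rw [R.other _ (fne1 j), ← h', R.same _ c1 c2]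
      rw [e1]
  · -- exact
    intro k b b' h
    have h := congrArg Subtype.val h
    change (if L.c k (f b) = L.c (j + 1) b₂ then L.c (j + 1) b₁ else L.c k (f b)) =
      (if L.c k (f b') = L.c (j + 1) b₂ then L.c (j + 1) b₁ else L.c k (f b')) at h
    obtain ⟨φ, hf, hb, hφ⟩ := R.collapse L hp h₁ h₂ k
    by_cases c1 : L.c k (f b) = L.c (j + 1) b₂
    · have hk := L.cls _ _ _ _ c1
      subst hk
      obtain ⟨hb1, hb2⟩ := hb rfl
      by_cases c2 : L.c (j + 1) (f b') = L.c (j + 1) b₂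
      · have := hφ _ _ (L.exact _ _ _ (c1.trans c2.symm))
        rwa [hf, hf] at this
      · rw [if_pos c1, if_neg c2] at h
        have e1 := hφ _ _ (L.exact _ _ _ c1)
        have e2 := hφ _ _ (L.exact _ _ _ h)
        rw [hf, hb2] at e1
        rw [hf, hb1] at e2
        exact (e1.trans _ _ _ (R.eqv_β L hp h₁ h₂).symm).trans _ _ _ e2
    · by_cases c2 : L.c k (f b') = L.c (j + 1) b₂
      · have hk := L.cls _ _ _ _ c2
        subst hk
        obtain ⟨hb1, hb2⟩ := hb rfl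
        rw [if_neg c1, if_pos c2] at h
        have e1 := hφ _ _ (L.exact _ _ _ c2)
        have e2 := hφ _ _ (L.exact _ _ _ h)
        rw [hf, hb2] at e1
        rw [hf, hb1] at e2
        exact (e2.trans _ _ _ (R.eqv_β L hp h₁ h₂)).trans _ _ _ e1.symm
      · rw [if_neg c1, if_neg c2] at h
        have := hφ _ _ (L.exact _ _ _ h)
        rwa [hf, hf] at this
  · -- cls
    intro k k' b b' h
    have h := congrArg Subtype.val h
    change (if L.c k (f b) = L.c (j + 1) b₂ then L.c (j + 1) b₁ else L.c k (f b)) =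
      (if L.c k' (f b') = L.c (j + 1) b₂ then L.c (j + 1) b₁ else L.c k' (f b')) at h
    obtain ⟨x, hx⟩ := hcls k b
    obtain ⟨x', hx'⟩ := hcls k' b'
    rw [hx, hx'] at h
    exact L.cls _ _ _ _ h
  · -- surj
    rintro ⟨v, hv1, hv2⟩
    have fin : ∀ k a, L.c k (f a) = v → ∃ j' b, (⟨if L.c j' (f b) = L.c (j + 1) b₂ then
        L.c (j + 1) b₁ else L.c j' (f b), hval j' b⟩ : L.V1 j b₁ b₂) = ⟨v, hv1, hv2⟩ := by
      intro k a ha
      refine ⟨k, a, Subtype.ext ?_⟩
      show (if L.c k (f a) = L.c (j + 1) b₂ then L.c (j + 1) b₁ else L.c k (f a)) = v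
      rw [ha, if_neg hv2]
    obtain ⟨k, b, hb⟩ := L.surj v
    rcases R.cases b with rfl | rfl | ⟨a, rfl⟩
    · rcases fcase k j with rfl | rfl | rfl
      · exact absurd hb.symm hv1
      · exact fin (j + 1) β₁ (by rw [(R.c_β₁ L h₁).1, hb])
      · exact fin (j + 2) β₂ (by rw [(R.c_β₂ L h₂).2, hb])
    · rcases fcase k j with rfl | rfl | rfl
      · exact absurd (hb.symm.trans (R.c_s L)) hv1
      · exact absurd hb.symm hv2
      · exact fin (j + 2) β₁ (by rw [(R.c_β₁ L h₁).2, hb])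
    · exact fin k a hb

theorem SqRel.card_B [Fintype B] [Fintype B'] (R : SqRel Y X f g j b₁ b₂) :
    Fintype.card B = Fintype.card B' + 2 := by
  classical
  have h1 : (Finset.univ.image f) = Finset.univ \ {b₁, b₂} := by
    ext b
    simp only [Finset.mem_image, Finset.mem_univ, true_and, Finset.mem_sdiff, Finset.mem_insert,
      Finset.mem_singleton, not_or]
    exact R.fr b
  have h2 := congrArg Finset.card h1
  rw [Finset.card_image_of_injective _ R.fi, Finset.card_sdiff_of_subset (Finset.subset_univ _),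
    Finset.card_pair R.ne, Finset.card_univ, Finset.card_univ] at h2
  have h3 : 2 ≤ Fintype.card B := by
    rw [← Finset.card_pair R.ne]
    exact Finset.card_le_univ _
  omega

theorem SqRel.card_W [Fintype W] [Fintype W'] (R : SqRel Y X f g j b₁ b₂) :
    Fintype.card W = Fintype.card W' + 2 := by
  classical
  have hne : Y.e (j + 2) b₁ ≠ Y.e (j + 2) b₂ := fun h => R.ne ((Y.e _).injective h)
  have h1 : (Finset.univ.image g) = Finset.univ \ {Y.e (j + 2) b₁, Y.e (j + 2) b₂} := by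
    ext b
    simp only [Finset.mem_image, Finset.mem_univ, true_and, Finset.mem_sdiff, Finset.mem_insert,
      Finset.mem_singleton, not_or]
    exact R.gr b
  have h2 := congrArg Finset.card h1
  rw [Finset.card_image_of_injective _ R.gi, Finset.card_sdiff_of_subset (Finset.subset_univ _),
    Finset.card_pair hne, Finset.card_univ, Finset.card_univ] at h2
  have h3 : 2 ≤ Fintype.card W := by
    rw [← Finset.card_pair hne]
    exact Finset.card_le_univ _
  omega

theorem SqRel.card_V [Fintype V] [DecidableEq V] (R : SqRel Y X f g j b₁ b₂) (L : Lab Y V)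
    (hp : L.c (j + 1) b₁ ≠ L.c (j + 1) b₂) :
    Fintype.card V = Fintype.card (L.V1 j b₁ b₂) + 2 := by
  have hne : L.c j b₁ ≠ L.c (j + 1) b₂ := fun h => fne1' j (L.cls _ _ _ _ h)
  have h1 : (Finset.univ.filter fun v => v ≠ L.c j b₁ ∧ v ≠ L.c (j + 1) b₂) =
      Finset.univ \ {L.c j b₁, L.c (j + 1) b₂} := by
    ext v
    simp
  have h2 := congrArg Finset.card h1
  rw [Finset.card_sdiff_of_subset (Finset.subset_univ _),
    Finset.card_pair hne, Finset.card_univ] at h2
  have h3 : 2 ≤ Fintype.card V := by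
    rw [← Finset.card_pair hne]
    exact Finset.card_le_univ _
  rw [Fintype.card_subtype]
  omega

end Vale.Agent.P039.Sk
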