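import Vale.Agent.P039.Sk.SqLab
import Mathlib.Tactic.LinearCombination
import Mathlib.Tactic.Ring

/-! The two partial sums of the square rule. -/

namespace Vale.Agent.P039.Sk

variable {B W V B' W' : Type}

open Relation

theorem conn_transfer {A A' : Type} {r : A → A → Prop} {r' : A' → A' → Prop} (ι : A' → A)
    (ψ : A → A') (h1 : ∀ x y, r x y → EqvGen r' (ψ x) (ψ y))
    (h2 : ∀ x y, r' x y → EqvGen r (ι x) (ι y)) (h3 : ∀ x, EqvGen r x (ι (ψ x)))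
    (h4 : ∀ x, ψ (ι x) = x) : (∀ x y, EqvGen r x y) ↔ (∀ x y, EqvGen r' x y) := by
  have l1 : ∀ x y, EqvGen r x y → EqvGen r' (ψ x) (ψ y) := by
    intro x y h
    induction h with
    | rel x y h => exact h1 x y h
    | refl x => exact EqvGen.refl _
    | symm x y _ ih => exact ih.symm
    | trans x y z _ _ ih1 ih2 => exact ih1.trans _ _ _ ih2
  have l2 : ∀ x y, EqvGen r' x y → EqvGen r (ι x) (ι y) := by
    intro x y h
    induction h with
    | rel x y h => exact h2 x y h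
    | refl x => exact EqvGen.refl _
    | symm x y _ ih => exact ih.symm
    | trans x y z _ _ ih1 ih2 => exact ih1.trans _ _ _ ih2
  constructor
  · intro h x y
    have := l1 _ _ (h (ι x) (ι y))
    rwa [h4, h4] at this
  · intro h x y
    exact ((h3 x).trans _ _ _ (l2 _ _ (h _ _))).trans _ _ _ (h3 y).symm

variable {Y : Web B W} {X : Web B' W'} {f : B' → B} {g : W' → W} {j : Fin 3} {b₁ b₂ : B}

theorem Lab.he0 (L : Lab Y V) (j : Fin 3) {h : V → ZMod 12} {b : B}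
    (e : h (L.c (j + 2) b) = h (L.c (j + 1) b) + 1) : L.HE h (Sum.inl b) (Sum.inr (Y.e j b)) :=
  ⟨j, b, e, rfl, rfl⟩

theorem Lab.he1 (L : Lab Y V) (j : Fin 3) {h : V → ZMod 12} {b : B}
    (e : h (L.c j b) = h (L.c (j + 2) b) + 1) :
    L.HE h (Sum.inl b) (Sum.inr (Y.e (j + 1) b)) :=
  ⟨j + 1, b, by rw [f12, f11]; exact e, rfl, rfl⟩

theorem Lab.he2 (L : Lab Y V) (j : Fin 3) {h : V → ZMod 12} {b : B}
    (e : h (L.c (j + 1) b) = h (L.c j b) + 1) :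
    L.HE h (Sum.inl b) (Sum.inr (Y.e (j + 2) b)) :=
  ⟨j + 2, b, by rw [f22, f21]; exact e, rfl, rfl⟩

theorem Lab.he_elim (L : Lab Y V) (j : Fin 3) {h : V → ZMod 12} {x y : B ⊕ W} (e : L.HE h x y) :
    ∃ b, x = Sum.inl b ∧
      ((y = Sum.inr (Y.e j b) ∧ h (L.c (j + 2) b) = h (L.c (j + 1) b) + 1) ∨
       (y = Sum.inr (Y.e (j + 1) b) ∧ h (L.c j b) = h (L.c (j + 2) b) + 1) ∨
       (y = Sum.inr (Y.e (j + 2) b) ∧ h (L.c (j + 1) b) = h (L.c j b) + 1)) := by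
  obtain ⟨i, b, e, rfl, rfl⟩ := e
  refine ⟨b, rfl, ?_⟩
  rcases fcase i j with rfl | rfl | rfl
  · exact Or.inl ⟨rfl, e⟩
  · rw [f12, f11] at e
    exact Or.inr (Or.inl ⟨rfl, e⟩)
  · rw [f22, f21] at e
    exact Or.inr (Or.inr ⟨rfl, e⟩)

theorem Lab.valid_iff (L : Lab Y V) (j : Fin 3) {h : V → ZMod 12} : L.Valid h ↔ ∀ b,
      (h (L.c (j + 2) b) = h (L.c (j + 1) b) + 1 ∨ h (L.c (j + 2) b) = h (L.c (j + 1) b) - 2) ∧
      (h (L.c j b) = h (L.c (j + 2) b) + 1 ∨ h (L.c j b) = h (L.c (j + 2) b) - 2) ∧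
      (h (L.c (j + 1) b) = h (L.c j b) + 1 ∨ h (L.c (j + 1) b) = h (L.c j b) - 2) := by
  constructor
  · intro hv b
    refine ⟨hv j b, ?_, ?_⟩
    · have := hv (j + 1) b
      rwa [f12, f11] at this
    · have := hv (j + 2) b
      rwa [f22, f21] at this
  · intro hv i b
    rcases fcase i j with rfl | rfl | rfl
    · exact (hv b).1
    · rw [f12, f11]; exact (hv b).2.1
    · rw [f22, f21]; exact (hv b).2.2

/-- a map back from the larger web, with prescribed values at the 4-face -/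
theorem SqRel.exists_psi (R : SqRel Y X f g j b₁ b₂) (z₁ z₂ z₃ z₄ : B' ⊕ W') :
    ∃ ψ : B ⊕ W → B' ⊕ W', (∀ a, ψ (Sum.inl (f a)) = Sum.inl a) ∧
      (∀ w, ψ (Sum.inr (g w)) = Sum.inr w) ∧ ψ (Sum.inl b₁) = z₁ ∧ ψ (Sum.inl b₂) = z₂ ∧
      ψ (Sum.inr (Y.e (j + 2) b₁)) = z₃ ∧ ψ (Sum.inr (Y.e (j + 2) b₂)) = z₄ := by
  classical
  have hww : Y.e (j + 2) b₂ ≠ Y.e (j + 2) b₁ := fun h => R.ne ((Y.e _).injective h).symm
  refine ⟨Sum.elim
    (fun b => if b = b₁ then z₁ else if b = b₂ then z₂ else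
      if h : ∃ a, f a = b then Sum.inl h.choose else z₁)
    (fun w => if w = Y.e (j + 2) b₁ then z₃ else if w = Y.e (j + 2) b₂ then z₄ else
      if h : ∃ a, g a = w then Sum.inr h.choose else z₁), ?_, ?_, ?_, ?_, ?_, ?_⟩
  · intro a
    have hex : ∃ a', f a' = f a := ⟨a, rfl⟩
    simp only [Sum.elim_inl, R.f_ne₁ a, R.f_ne₂ a, if_false]
    rw [dif_pos hex]
    exact congrArg Sum.inl (R.fi hex.choose_spec)
  · intro a
    have hex : ∃ a', g a' = g a := ⟨a, rfl⟩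
    simp only [Sum.elim_inr, R.g_ne₁ a, R.g_ne₂ a, if_false]
    rw [dif_pos hex]
    exact congrArg Sum.inr (R.gi hex.choose_spec)
  · simp
  · simp [R.ne.symm]
  · simp
  · simp [hww]

/-- every white vertex is `w₁`, `w₂` or in the range of `g` -/
theorem SqRel.casesW (R : SqRel Y X f g j b₁ b₂) (w : W) :
    w = Y.e (j + 2) b₁ ∨ w = Y.e (j + 2) b₂ ∨ ∃ a, w = g a := by
  by_cases h1 : w = Y.e (j + 2) b₁
  · exact Or.inl h1
  · by_cases h2 : w = Y.e (j + 2) b₂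
    · exact Or.inr (Or.inl h2)
    · obtain ⟨a, ha⟩ := (R.gr w).2 ⟨h1, h2⟩
      exact Or.inr (Or.inr ⟨a, ha.symm⟩)

section main

variable {V' : Type} {v : V' → V}

/-- the skeleton of the connectivity argument -/
theorem conn_iff (R : SqRel Y X f g j b₁ b₂) (L : Lab Y V) (L' : Lab X V')
    {β₁ β₂ : B'} (h₁ : Y.e j (f β₁) = Y.e (j + 2) b₁) (h₂ : Y.e j (f β₂) = Y.e (j + 2) b₂)
    {h : V → ZMod 12} {h' : V' → ZMod 12} (hh : ∀ k a, h' (L'.c k a) = h (L.c k (f a)))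
    (z₁ z₂ z₃ z₄ : B' ⊕ W')
    (e1 : h (L.c (j + 2) b₁) = h (L.c (j + 1) b₁) + 1 →
      EqvGen (L'.HE h') z₁ (Sum.inr (X.e j β₂)))
    (e2 : h (L.c j b₁) = h (L.c (j + 2) b₁) + 1 → EqvGen (L'.HE h') z₁ z₄)
    (e3 : h (L.c (j + 1) b₁) = h (L.c j b₁) + 1 → EqvGen (L'.HE h') z₁ z₃)
    (e4 : h (L.c (j + 2) b₂) = h (L.c (j + 1) b₂) + 1 →
      EqvGen (L'.HE h') z₂ (Sum.inr (X.e j β₁)))
    (e5 : h (L.c j b₂) = h (L.c (j + 2) b₂) + 1 → EqvGen (L'.HE h') z₂ z₃)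
    (e6 : h (L.c (j + 1) b₂) = h (L.c j b₂) + 1 → EqvGen (L'.HE h') z₂ z₄)
    (e7 : h (L.c (j + 2) (f β₁)) = h (L.c (j + 1) (f β₁)) + 1 →
      EqvGen (L'.HE h') (Sum.inl β₁) z₃)
    (e8 : h (L.c (j + 2) (f β₂)) = h (L.c (j + 1) (f β₂)) + 1 →
      EqvGen (L'.HE h') (Sum.inl β₂) z₄)
    (l1 : h (L.c (j + 2) (f β₁)) = h (L.c (j + 1) (f β₁)) + 1 →
      EqvGen (L.HE h) (Sum.inl (f β₁)) (Sum.inr (Y.e j b₂)))
    (l2 : h (L.c (j + 2) (f β₂)) = h (L.c (j + 1) (f β₂)) + 1 →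
      EqvGen (L.HE h) (Sum.inl (f β₂)) (Sum.inr (Y.e j b₁)))
    (r1 : EqvGen (L.HE h) (Sum.inl b₁) (Sum.map f g z₁))
    (r2 : EqvGen (L.HE h) (Sum.inl b₂) (Sum.map f g z₂))
    (r3 : EqvGen (L.HE h) (Sum.inr (Y.e (j + 2) b₁)) (Sum.map f g z₃))
    (r4 : EqvGen (L.HE h) (Sum.inr (Y.e (j + 2) b₂)) (Sum.map f g z₄)) :
    L.Conn h ↔ L'.Conn h' := by
  obtain ⟨ψ, pf, pg, p1, p2, p3, p4⟩ := R.exists_psi z₁ z₂ z₃ z₄
  refine conn_transfer (Sum.map f g) ψ ?_ ?_ ?_ ?_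
  · -- edges of Y
    intro x y hxy
    obtain ⟨b, rfl, hb⟩ := L.he_elim j hxy
    rcases R.cases b with rfl | rfl | ⟨a, rfl⟩
    · rcases hb with ⟨rfl, hb⟩ | ⟨rfl, hb⟩ | ⟨rfl, hb⟩
      · rw [p1, ← R.out2 _ h₂, pg]; exact e1 hb
      · rw [p1, R.face', p4]; exact e2 hb
      · rw [p1, p3]; exact e3 hb
    · rcases hb with ⟨rfl, hb⟩ | ⟨rfl, hb⟩ | ⟨rfl, hb⟩
      · rw [p2, ← R.out1 _ h₁, pg]; exact e4 hb
      · rw [p2, R.face, p3]; exact e5 hb
      · rw [p2, p4]; exact e6 hb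
    · rw [pf]
      rcases hb with ⟨rfl, hb⟩ | ⟨rfl, hb⟩ | ⟨rfl, hb⟩
      · by_cases c1 : Y.e j (f a) = Y.e (j + 2) b₁
        · have ha : a = β₁ := R.fi ((Y.e j).injective (c1.trans h₁.symm))
          subst ha
          rw [c1, p3]; exact e7 hb
        · by_cases c2 : Y.e j (f a) = Y.e (j + 2) b₂
          · have ha : a = β₂ := R.fi ((Y.e j).injective (c2.trans h₂.symm))
            subst ha
            rw [c2, p4]; exact e8 hb
          · rw [R.same _ c1 c2, pg]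
            exact EqvGen.rel _ _ (L'.he0 j (by rw [hh, hh]; exact hb))
      · rw [R.other _ (fne1 j), pg]
        exact EqvGen.rel _ _ (L'.he1 j (by rw [hh, hh]; exact hb))
      · rw [R.other _ (fne2 j), pg]
        exact EqvGen.rel _ _ (L'.he2 j (by rw [hh, hh]; exact hb))
  · -- edges of X
    intro x y hxy
    obtain ⟨a, rfl, hb⟩ := L'.he_elim j hxy
    rw [Sum.map_inl]
    rcases hb with ⟨rfl, hb⟩ | ⟨rfl, hb⟩ | ⟨rfl, hb⟩
    · rw [hh, hh] at hb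
      rw [Sum.map_inr]
      by_cases c1 : Y.e j (f a) = Y.e (j + 2) b₁
      · have ha : a = β₁ := R.fi ((Y.e j).injective (c1.trans h₁.symm))
        subst ha
        rw [R.out1 _ c1]; exact l1 hb
      · by_cases c2 : Y.e j (f a) = Y.e (j + 2) b₂
        · have ha : a = β₂ := R.fi ((Y.e j).injective (c2.trans h₂.symm))
          subst ha
          rw [R.out2 _ c2]; exact l2 hb
        · rw [← R.same _ c1 c2]
          exact EqvGen.rel _ _ (L.he0 j hb)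
    · rw [hh, hh] at hb
      rw [Sum.map_inr, ← R.other _ (fne1 j)]
      exact EqvGen.rel _ _ (L.he1 j hb)
    · rw [hh, hh] at hb
      rw [Sum.map_inr, ← R.other _ (fne2 j)]
      exact EqvGen.rel _ _ (L.he2 j hb)
  · -- all vertices of Y
    rintro (b | w)
    · rcases R.cases b with rfl | rfl | ⟨a, rfl⟩
      · rw [p1]; exact r1
      · rw [p2]; exact r2
      · rw [pf]; exact EqvGen.refl _
    · rcases R.casesW w with rfl | rfl | ⟨a, rfl⟩
      · rw [p3]; exact r3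
      · rw [p4]; exact r4
      · rw [pg]; exact EqvGen.refl _
  · rintro (a | w)
    · rw [Sum.map_inl, pf]
    · rw [Sum.map_inr, pg]

theorem z12_a (t : ZMod 12) : t - 2 ≠ t + 1 := by revert t; decide
theorem z12_b (t : ZMod 12) : t ≠ t + 2 + 1 := by revert t; decide
theorem z12_c (t : ZMod 12) : t - 1 ≠ t + 1 + 1 := by revert t; decide

/-- connectivity for the solutions of type 1 -/
theorem conn_type1 (R : SqRel Y X f g j b₁ b₂) (L : Lab Y V) (L' : Lab X V')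
    {β₁ β₂ : B'} (h₁ : Y.e j (f β₁) = Y.e (j + 2) b₁) (h₂ : Y.e j (f β₂) = Y.e (j + 2) b₂)
    {h : V → ZMod 12} {h' : V' → ZMod 12} (hh : ∀ k a, h' (L'.c k a) = h (L.c k (f a)))
    (ht : L.type1 j b₁ b₂ h)
    (ha : h (L.c (j + 2) b₂) = h (L.c (j + 1) b₁) + 1 ∨
      h (L.c (j + 2) b₂) = h (L.c (j + 1) b₁) - 2)
    (hb : h (L.c (j + 2) b₁) = h (L.c (j + 1) b₁) + 1 ∨
      h (L.c (j + 2) b₁) = h (L.c (j + 1) b₁) - 2)
    (hn : ¬ (h (L.c (j + 2) b₂) = h (L.c (j + 1) b₁) - 2 ∧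
      h (L.c (j + 2) b₁) = h (L.c (j + 1) b₁) - 2)) :
    L.Conn h ↔ L'.Conn h' := by
  obtain ⟨hpp, hsum⟩ := ht
  have hs2 : L.c j b₂ = L.c j b₁ := R.c_s L
  obtain ⟨cβ1, cβ1'⟩ := R.c_β₁ L h₁
  obtain ⟨cβ2, cβ2'⟩ := R.c_β₂ L h₂
  set t := h (L.c (j + 1) b₁) with ht
  -- the edges in X
  have x1 : h (L.c (j + 2) b₂) = t + 1 →
      L'.HE h' (Sum.inl β₁) (Sum.inr (X.e j β₁)) := by
    intro e
    refine L'.he0 j ?_
    rw [hh, hh, cβ1, cβ1', e]
  have x2 : h (L.c (j + 2) b₁) = t + 1 →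
      L'.HE h' (Sum.inl β₂) (Sum.inr (X.e j β₂)) := by
    intro e
    refine L'.he0 j ?_
    rw [hh, hh, cβ2, cβ2', e, ← hpp]
  -- the edges in Y
  have y1 : h (L.c (j + 2) b₂) = t + 1 →
      L.HE h (Sum.inl (f β₁)) (Sum.inr (Y.e (j + 2) b₁)) := by
    intro e
    rw [← h₁]
    refine L.he0 j ?_
    rw [cβ1, cβ1', e]
  have y2 : h (L.c (j + 2) b₁) = t + 1 →
      L.HE h (Sum.inl (f β₂)) (Sum.inr (Y.e (j + 2) b₂)) := by
    intro e
    rw [← h₂]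
    refine L.he0 j ?_
    rw [cβ2, cβ2', e, ← hpp]
  rcases ha with ha | ha <;> rcases hb with hb | hb
  · -- both on the other side
    have hs : h (L.c j b₁) = t + 2 := by
      rw [ha, hb] at hsum
      linear_combination hsum
    have k1 : L.HE h (Sum.inl b₁) (Sum.inr (Y.e j b₁)) := L.he0 j (by rw [hb])
    have k2 : L.HE h (Sum.inl b₁) (Sum.inr (Y.e (j + 1) b₁)) :=
      L.he1 j (by rw [hb, hs]; ring)
    rw [R.face'] at k2
    have k4 : L.HE h (Sum.inl b₂) (Sum.inr (Y.e j b₂)) := L.he0 j (by rw [ha, ← hpp])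
    have k5 : L.HE h (Sum.inl b₂) (Sum.inr (Y.e (j + 1) b₂)) :=
      L.he1 j (by rw [ha, hs2, hs]; ring)
    rw [R.face] at k5
    have c3 : ¬ h (L.c (j + 1) b₁) = h (L.c j b₁) + 1 := by
      rw [hs]; exact z12_b t
    have c6 : ¬ h (L.c (j + 1) b₂) = h (L.c j b₂) + 1 := by
      rw [← hpp, hs2, hs]; exact z12_b t
    refine conn_iff R L L' h₁ h₂ hh (Sum.inl β₂) (Sum.inl β₁) (Sum.inl β₁) (Sum.inl β₂)
      (fun _ => EqvGen.rel _ _ (x2 hb)) (fun _ => EqvGen.refl _) (fun h => absurd h c3)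
      (fun _ => EqvGen.rel _ _ (x1 ha)) (fun _ => EqvGen.refl _) (fun h => absurd h c6)
      (fun _ => EqvGen.refl _) (fun _ => EqvGen.refl _) ?_ ?_ ?_ ?_ ?_ ?_
    · intro _
      exact ((EqvGen.rel _ _ (y1 ha)).trans _ _ _ (EqvGen.rel _ _ k5).symm).trans _ _ _
        (EqvGen.rel _ _ k4)
    · intro _
      exact ((EqvGen.rel _ _ (y2 hb)).trans _ _ _ (EqvGen.rel _ _ k2).symm).trans _ _ _
        (EqvGen.rel _ _ k1)
    · exact (EqvGen.rel _ _ k2).trans _ _ _ (EqvGen.rel _ _ (y2 hb)).symm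
    · exact (EqvGen.rel _ _ k5).trans _ _ _ (EqvGen.rel _ _ (y1 ha)).symm
    · exact (EqvGen.rel _ _ (y1 ha)).symm
    · exact (EqvGen.rel _ _ (y2 hb)).symm
  · -- q with s, β₁ - w₁ - b₁ - w₂ - b₂ - ω₂
    have hs : h (L.c j b₁) = t - 1 := by
      rw [ha, hb] at hsum
      linear_combination hsum
    have k2 : L.HE h (Sum.inl b₁) (Sum.inr (Y.e (j + 1) b₁)) :=
      L.he1 j (by rw [hb, hs]; ring)
    rw [R.face'] at k2
    have k3 : L.HE h (Sum.inl b₁) (Sum.inr (Y.e (j + 2) b₁)) :=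
      L.he2 j (by rw [hs, ← ht]; ring)
    have k4 : L.HE h (Sum.inl b₂) (Sum.inr (Y.e j b₂)) := L.he0 j (by rw [ha, ← hpp])
    have k6 : L.HE h (Sum.inl b₂) (Sum.inr (Y.e (j + 2) b₂)) :=
      L.he2 j (by rw [hs2, hs, ← hpp]; ring)
    have c1 : ¬ h (L.c (j + 2) b₁) = h (L.c (j + 1) b₁) + 1 := by
      rw [hb]; exact z12_a t
    have c5 : ¬ h (L.c j b₂) = h (L.c (j + 2) b₂) + 1 := by
      rw [hs2, hs, ha]; exact z12_c t
    have c8 : ¬ h (L.c (j + 2) (f β₂)) = h (L.c (j + 1) (f β₂)) + 1 := by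
      rw [cβ2, cβ2', hb, ← hpp]; exact z12_a t
    have q1 : EqvGen (L.HE h) (Sum.inl b₁) (Sum.inl (f β₁)) :=
      (EqvGen.rel _ _ k3).trans _ _ _ (EqvGen.rel _ _ (y1 ha)).symm
    have q4 : EqvGen (L.HE h) (Sum.inr (Y.e (j + 2) b₂)) (Sum.inl (f β₁)) :=
      (EqvGen.rel _ _ k2).symm.trans _ _ _ q1
    have q2 : EqvGen (L.HE h) (Sum.inl b₂) (Sum.inl (f β₁)) :=
      (EqvGen.rel _ _ k6).trans _ _ _ q4
    refine conn_iff R L L' h₁ h₂ hh (Sum.inl β₁) (Sum.inl β₁) (Sum.inl β₁) (Sum.inl β₁)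
      (fun h => absurd h c1) (fun _ => EqvGen.refl _) (fun _ => EqvGen.refl _)
      (fun _ => EqvGen.rel _ _ (x1 ha)) (fun h => absurd h c5) (fun _ => EqvGen.refl _)
      (fun _ => EqvGen.refl _) (fun h => absurd h c8) ?_ (fun h => absurd h c8) q1 q2
      (EqvGen.rel _ _ (y1 ha)).symm q4
    intro _
    exact q2.symm.trans _ _ _ (EqvGen.rel _ _ k4)
  · -- q' with s, β₂ - w₂ - b₂ - w₁ - b₁ - ω₁
    have hs : h (L.c j b₁) = t - 1 := by
      rw [ha, hb] at hsum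
      linear_combination hsum
    have k1 : L.HE h (Sum.inl b₁) (Sum.inr (Y.e j b₁)) := L.he0 j (by rw [hb])
    have k3 : L.HE h (Sum.inl b₁) (Sum.inr (Y.e (j + 2) b₁)) :=
      L.he2 j (by rw [hs, ← ht]; ring)
    have k5 : L.HE h (Sum.inl b₂) (Sum.inr (Y.e (j + 1) b₂)) :=
      L.he1 j (by rw [hs2, ha, hs]; ring)
    rw [R.face] at k5
    have k6 : L.HE h (Sum.inl b₂) (Sum.inr (Y.e (j + 2) b₂)) :=
      L.he2 j (by rw [hs2, hs, ← hpp]; ring)
    have c4 : ¬ h (L.c (j + 2) b₂) = h (L.c (j + 1) b₂) + 1 := by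
      rw [ha, ← hpp]; exact z12_a t
    have c2 : ¬ h (L.c j b₁) = h (L.c (j + 2) b₁) + 1 := by
      rw [hs, hb]; exact z12_c t
    have c7 : ¬ h (L.c (j + 2) (f β₁)) = h (L.c (j + 1) (f β₁)) + 1 := by
      rw [cβ1, cβ1', ha]; exact z12_a t
    have q2 : EqvGen (L.HE h) (Sum.inl b₂) (Sum.inl (f β₂)) :=
      (EqvGen.rel _ _ k6).trans _ _ _ (EqvGen.rel _ _ (y2 hb)).symm
    have q3 : EqvGen (L.HE h) (Sum.inr (Y.e (j + 2) b₁)) (Sum.inl (f β₂)) :=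
      (EqvGen.rel _ _ k5).symm.trans _ _ _ q2
    have q1 : EqvGen (L.HE h) (Sum.inl b₁) (Sum.inl (f β₂)) :=
      (EqvGen.rel _ _ k3).trans _ _ _ q3
    refine conn_iff R L L' h₁ h₂ hh (Sum.inl β₂) (Sum.inl β₂) (Sum.inl β₂) (Sum.inl β₂)
      (fun _ => EqvGen.rel _ _ (x2 hb)) (fun h => absurd h c2) (fun _ => EqvGen.refl _)
      (fun h => absurd h c4) (fun _ => EqvGen.refl _) (fun _ => EqvGen.refl _)
      (fun h => absurd h c7) (fun _ => EqvGen.refl _) (fun h => absurd h c7) ?_ q1 q2 q3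
      (EqvGen.rel _ _ (y2 hb)).symm
    intro _
    exact q1.symm.trans _ _ _ (EqvGen.rel _ _ k1)
  · exact absurd ⟨ha, hb⟩ hn

end main

section sums

variable [Fintype B] [Fintype V] [DecidableEq V] [Fintype B']

/-- extension of a function from the smaller labelling; `a` is the value at the 4-face -/
def Lab.ext (L : Lab Y V) (j : Fin 3) (b₁ b₂ : B) (pv : L.V1 j b₁ b₂) (a : ZMod 12)
    (h' : L.V1 j b₁ b₂ → ZMod 12) (v : V) : ZMod 12 :=
  if hv : v ≠ L.c j b₁ ∧ v ≠ L.c (j + 1) b₂ then h' ⟨v, hv⟩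
  else if v = L.c j b₁ then a else h' pv

omit [Fintype B] [Fintype V] [Fintype B'] in
theorem Lab.ext_val (L : Lab Y V) (pv : L.V1 j b₁ b₂) (a : ZMod 12)
    (h' : L.V1 j b₁ b₂ → ZMod 12) (v : L.V1 j b₁ b₂) : L.ext j b₁ b₂ pv a h' v.1 = h' v := by
  unfold Lab.ext
  rw [dif_pos v.2]

omit [Fintype B] [Fintype V] [Fintype B'] in
theorem Lab.ext_s (L : Lab Y V) (pv : L.V1 j b₁ b₂) (a : ZMod 12)
    (h' : L.V1 j b₁ b₂ → ZMod 12) : L.ext j b₁ b₂ pv a h' (L.c j b₁) = a := by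
  unfold Lab.ext
  rw [dif_neg (by simp), if_pos rfl]

omit [Fintype B] [Fintype V] [Fintype B'] in
theorem Lab.ext_p' (L : Lab Y V) (pv : L.V1 j b₁ b₂) (a : ZMod 12)
    (h' : L.V1 j b₁ b₂ → ZMod 12) : L.ext j b₁ b₂ pv a h' (L.c (j + 1) b₂) = h' pv := by
  unfold Lab.ext
  rw [dif_neg (by simp), if_neg (fun h => fne1 j (L.cls _ _ _ _ h))]

omit [Fintype B] [Fintype V] [Fintype B'] in
theorem Lab.ext_res (L : Lab Y V) (pv : L.V1 j b₁ b₂) (h : V → ZMod 12)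
    (hpv : h pv.1 = h (L.c (j + 1) b₂)) :
    L.ext j b₁ b₂ pv (h (L.c j b₁)) (fun v => h v.1) = h := by
  funext v
  unfold Lab.ext
  split_ifs with h1 h2
  · rfl
  · rw [h2]
  · have : v = L.c (j + 1) b₂ := by
      by_contra h3
      exact h1 ⟨h2, h3⟩
    rw [this]
    exact hpv

omit [Fintype B] [Fintype B'] in
theorem sumV (L : Lab Y V) (j : Fin 3) (b₁ b₂ : B) (F : V → ZMod 4) :
    ∑ v, F v = (∑ v : L.V1 j b₁ b₂, F v.1) + (F (L.c j b₁) + F (L.c (j + 1) b₂)) := by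
  have hne : L.c j b₁ ≠ L.c (j + 1) b₂ := fun h => fne1' j (L.cls _ _ _ _ h)
  rw [← Finset.sum_filter_add_sum_filter_not Finset.univ
    (fun v => v ≠ L.c j b₁ ∧ v ≠ L.c (j + 1) b₂)]
  congr 1
  · exact (Finset.sum_subtype _ (by simp) _)
  · rw [← Finset.sum_pair hne]
    apply Finset.sum_congr _ (fun _ _ => rfl)
    ext v
    simp only [Finset.mem_filter, Finset.mem_univ, true_and, Finset.mem_insert,
      Finset.mem_singleton]
    tauto

omit [Fintype V] [DecidableEq V] in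
theorem sumB (R : SqRel Y X f g j b₁ b₂) (G : B → ZMod 4) :
    ∑ b, G b = (∑ b, G (f b)) + (G b₁ + G b₂) := by
  classical
  have h1 : (Finset.univ.image f) = Finset.univ \ {b₁, b₂} := by
    ext b
    simp only [Finset.mem_image, Finset.mem_univ, true_and, Finset.mem_sdiff, Finset.mem_insert,
      Finset.mem_singleton, not_or]
    exact R.fr b
  rw [← Finset.sum_sdiff (Finset.subset_univ {b₁, b₂}), ← h1, Finset.sum_pair R.ne,
    Finset.sum_image (fun x _ y _ h => R.fi h)]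

theorem sum3 (j : Fin 3) (F : Fin 3 → ZMod 4) : ∑ k, F k = F j + F (j + 1) + F (j + 2) := by
  rw [Fin.sum_univ_three]
  fin_cases j <;> simp <;> ring

theorem E_diff (R : SqRel Y X f g j b₁ b₂) (L : Lab Y V)
    (hp : L.c (j + 1) b₁ ≠ L.c (j + 1) b₂) (L' : Lab X (L.V1 j b₁ b₂))
    (hL' : ∀ k b, ((L'.c k b : L.V1 j b₁ b₂) : V) =
      if L.c k (f b) = L.c (j + 1) b₂ then L.c (j + 1) b₁ else L.c k (f b))
    (m : V → ZMod 4) (hm : m (L.c j b₁) = 0) (h : V → ZMod 12)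
    (hpp : h (L.c (j + 1) b₁) = h (L.c (j + 1) b₂)) :
    L.E m h = L'.E (L.m1 j b₁ b₂ m) (fun v => h v.1) + (kap (h (L.c j b₁)) +
      kap (h (L.c (j + 1) b₁)) - kap (h (L.c (j + 2) b₁)) - kap (h (L.c (j + 2) b₂))) := by
  have hps : L.c (j + 1) b₁ ≠ L.c j b₁ := fun h => fne1 j (L.cls _ _ _ _ h)
  let pv : L.V1 j b₁ b₂ := ⟨L.c (j + 1) b₁, hps, hp⟩
  have hval : ∀ k a, h ((L'.c k a : L.V1 j b₁ b₂) : V) = h (L.c k (f a)) := by
    intro k a
    rw [hL']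
    split_ifs with h1
    · rw [h1, hpp]
    · rfl
  unfold Lab.E
  rw [sumV L j b₁ b₂, sumB R]
  have e1 : ∑ v : L.V1 j b₁ b₂, (3 + L.m1 j b₁ b₂ m v) * kap (h v.1) =
      (∑ v : L.V1 j b₁ b₂, (3 + m v.1) * kap (h v.1)) +
        m (L.c (j + 1) b₂) * kap (h (L.c (j + 1) b₁)) := by
    have e2 : ∀ v : L.V1 j b₁ b₂, (3 + L.m1 j b₁ b₂ m v) * kap (h v.1) =
        (3 + m v.1) * kap (h v.1) +
          if v = pv then m (L.c (j + 1) b₂) * kap (h (L.c (j + 1) b₁)) else 0 := by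
      intro v
      unfold Lab.m1
      by_cases hv : v = pv
      · subst hv
        simp only [pv, if_true]
        ring
      · have hv' : v.1 ≠ L.c (j + 1) b₁ := fun h => hv (Subtype.ext h)
        rw [if_neg hv', if_neg hv, add_zero]
    rw [Finset.sum_congr rfl (fun v _ => e2 v), Finset.sum_add_distrib, Finset.sum_ite_eq']
    simp
  have e3 : ∑ b, ∑ k, kap (h ((L'.c k b : L.V1 j b₁ b₂) : V)) =
      ∑ b, ∑ k, kap (h (L.c k (f b))) := by
    refine Finset.sum_congr rfl fun b _ => Finset.sum_congr rfl fun k _ => ?_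
    rw [hval]
  rw [e1, e3, sum3 j, sum3 j, R.c_s L, hm, ← hpp]
  generalize kap (h (L.c j b₁)) = s
  generalize kap (h (L.c (j + 1) b₁)) = p
  generalize kap (h (L.c (j + 2) b₁)) = q'
  generalize kap (h (L.c (j + 2) b₂)) = q
  generalize m (L.c (j + 1) b₂) = μ
  ring_nf

end sums

section

variable {V' : Type}

theorem z12_d (t : ZMod 12) : t ≠ t - 4 + 1 := by revert t; decide
theorem z12_e (t : ZMod 12) : t ≠ t - 4 - 2 := by revert t; decide

/-- the solutions of type 1 are the non-mono solutions of the smaller web -/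
theorem sol_type1 (R : SqRel Y X f g j b₁ b₂) (L : Lab Y V) (L' : Lab X V')
    {β₁ β₂ : B'} (h₁ : Y.e j (f β₁) = Y.e (j + 2) b₁) (h₂ : Y.e j (f β₂) = Y.e (j + 2) b₂)
    {h : V → ZMod 12} {h' : V' → ZMod 12} (hh : ∀ k a, h' (L'.c k a) = h (L.c k (f a)))
    (ht : L.type1 j b₁ b₂ h) : L.Sol h ↔ L'.Sol h' ∧ ¬ L'.mono j β₁ β₂ h' := by
  obtain ⟨hpp, hsum⟩ := id ht
  have hs2 : L.c j b₂ = L.c j b₁ := R.c_s L
  obtain ⟨cβ1, cβ1'⟩ := R.c_β₁ L h₁
  obtain ⟨cβ2, cβ2'⟩ := R.c_β₂ L h₂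
  have hmono : L'.mono j β₁ β₂ h' ↔ (h (L.c (j + 2) b₂) = h (L.c (j + 1) b₁) - 2 ∧
      h (L.c (j + 2) b₁) = h (L.c (j + 1) b₁) - 2) := by
    unfold Lab.mono
    rw [hh, hh, hh, hh, cβ1, cβ1', cβ2, cβ2', ← hpp]
  have hvalid : L.Valid h ↔ L'.Valid h' ∧ ¬ L'.mono j β₁ β₂ h' := by
    rw [hmono, L.valid_iff j, L'.valid_iff j]
    constructor
    · intro hv
      refine ⟨fun a => ?_, ?_⟩
      · simp only [hh]
        exact hv (f a)
      · rintro ⟨ha, hb⟩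
        have hs : h (L.c j b₁) = h (L.c (j + 1) b₁) - 4 := by
          rw [ha, hb] at hsum
          linear_combination hsum
        have := (hv b₁).2.2
        rw [hs] at this
        rcases this with h3 | h3
        · exact z12_d _ h3
        · exact z12_e _ h3
    · rintro ⟨hv, hn⟩ b
      have hb1 := (hv β₁).1
      have hb2 := (hv β₂).1
      rw [hh, hh, cβ1, cβ1'] at hb1
      rw [hh, hh, cβ2, cβ2', ← hpp] at hb2
      rcases R.cases b with rfl | rfl | ⟨a, rfl⟩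
      · refine ⟨hb2, ?_, ?_⟩
        · rcases hb1 with h3 | h3
          · left; rw [h3] at hsum; linear_combination hsum
          · right; rw [h3] at hsum; linear_combination hsum
        · rcases hb1 with h3 | h3 <;> rcases hb2 with h4 | h4
          · right; rw [h3, h4] at hsum; linear_combination - hsum
          · left; rw [h3, h4] at hsum; linear_combination - hsum
          · left; rw [h3, h4] at hsum; linear_combination - hsum
          · exact absurd ⟨h3, h4⟩ hn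
      · rw [hs2, ← hpp]
        refine ⟨hb1, ?_, ?_⟩
        · rcases hb2 with h3 | h3
          · left; rw [h3] at hsum; linear_combination hsum
          · right; rw [h3] at hsum; linear_combination hsum
        · rcases hb1 with h3 | h3 <;> rcases hb2 with h4 | h4
          · right; rw [h3, h4] at hsum; linear_combination - hsum
          · left; rw [h3, h4] at hsum; linear_combination - hsum
          · left; rw [h3, h4] at hsum; linear_combination - hsum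
          · exact absurd ⟨h3, h4⟩ hn
      · have := hv a
        simp only [hh] at this
        exact this
  unfold Lab.Sol
  rw [hvalid]
  constructor
  · rintro ⟨⟨hv, hn⟩, hc⟩
    refine ⟨⟨hv, ?_⟩, hn⟩
    have hb1 := ((L'.valid_iff j).1 hv β₁).1
    have hb2 := ((L'.valid_iff j).1 hv β₂).1
    rw [hh, hh, cβ1, cβ1'] at hb1
    rw [hh, hh, cβ2, cβ2', ← hpp] at hb2
    exact (conn_type1 R L L' h₁ h₂ hh ht hb1 hb2 (hmono.not.1 hn)).1 hc
  · rintro ⟨⟨hv, hc⟩, hn⟩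
    refine ⟨⟨hv, hn⟩, ?_⟩
    have hb1 := ((L'.valid_iff j).1 hv β₁).1
    have hb2 := ((L'.valid_iff j).1 hv β₂).1
    rw [hh, hh, cβ1, cβ1'] at hb1
    rw [hh, hh, cβ2, cβ2', ← hpp] at hb2
    exact (conn_type1 R L L' h₁ h₂ hh ht hb1 hb2 (hmono.not.1 hn)).2 hc

/-- the outside parts correspond to the mono solutions of the smaller web -/
theorem sol_mono (R : SqRel Y X f g j b₁ b₂) (L : Lab Y V) (L' : Lab X V')
    {β₁ β₂ : B'} (h₁ : Y.e j (f β₁) = Y.e (j + 2) b₁) (h₂ : Y.e j (f β₂) = Y.e (j + 2) b₂)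
    {h : V → ZMod 12} {h' : V' → ZMod 12} (hh : ∀ k a, h' (L'.c k a) = h (L.c k (f a)))
    (hs : h (L.c j b₁) = 0) (hpp : h (L.c (j + 1) b₁) = h (L.c (j + 1) b₂)) :
    L.ZS j b₁ b₂ h ↔ L'.Sol h' ∧ L'.mono j β₁ β₂ h' := by
  obtain ⟨cβ1, cβ1'⟩ := R.c_β₁ L h₁
  obtain ⟨cβ2, cβ2'⟩ := R.c_β₂ L h₂
  have hmono : L'.mono j β₁ β₂ h' ↔ (h (L.c (j + 2) b₂) = h (L.c (j + 1) b₁) - 2 ∧
      h (L.c (j + 2) b₁) = h (L.c (j + 1) b₁) - 2) := by
    unfold Lab.mono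
    rw [hh, hh, hh, hh, cβ1, cβ1', cβ2, cβ2', ← hpp]
  have hvalid : (∀ i b, b ≠ b₁ → b ≠ b₂ →
      h (L.c (i + 2) b) = h (L.c (i + 1) b) + 1 ∨ h (L.c (i + 2) b) = h (L.c (i + 1) b) - 2) ↔
      L'.Valid h' := by
    constructor
    · intro hv i a
      rw [hh, hh]
      exact hv i (f a) (R.f_ne₁ a) (R.f_ne₂ a)
    · intro hv i b hb1 hb2
      obtain ⟨a, rfl⟩ := R.ex_f hb1 hb2
      have := hv i a
      rwa [hh, hh] at this
  have hconn : L'.mono j β₁ β₂ h' → ((∀ x y : B ⊕ W, (x ≠ Sum.inl b₁ ∧ x ≠ Sum.inl b₂ ∧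
        x ≠ Sum.inr (Y.e (j + 2) b₁) ∧ x ≠ Sum.inr (Y.e (j + 2) b₂)) →
      (y ≠ Sum.inl b₁ ∧ y ≠ Sum.inl b₂ ∧ y ≠ Sum.inr (Y.e (j + 2) b₁) ∧
        y ≠ Sum.inr (Y.e (j + 2) b₂)) →
      Relation.EqvGen (fun x y => ∃ i b, b ≠ b₁ ∧ b ≠ b₂ ∧ Y.e i b ≠ Y.e (j + 2) b₁ ∧
        Y.e i b ≠ Y.e (j + 2) b₂ ∧ h (L.c (i + 2) b) = h (L.c (i + 1) b) + 1 ∧
        x = Sum.inl b ∧ y = Sum.inr (Y.e i b)) x y) ↔ L'.Conn h') := by
    rintro ⟨m1, m2⟩
    set r : B ⊕ W → B ⊕ W → Prop := fun x y => ∃ i b, b ≠ b₁ ∧ b ≠ b₂ ∧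
        Y.e i b ≠ Y.e (j + 2) b₁ ∧
        Y.e i b ≠ Y.e (j + 2) b₂ ∧ h (L.c (i + 2) b) = h (L.c (i + 1) b) + 1 ∧
        x = Sum.inl b ∧ y = Sum.inr (Y.e i b) with hr
    have hxe : ∀ i a, Y.e i (f a) ≠ Y.e (j + 2) b₁ → Y.e i (f a) ≠ Y.e (j + 2) b₂ →
        Y.e i (f a) = g (X.e i a) := by
      intro i a n1 n2
      by_cases hi : i = j
      · subst hi
        exact R.same a n1 n2
      · exact R.other i hi a
    obtain ⟨ψ, pf, pg, -, -, -, -⟩ := R.exists_psi (Sum.inl β₁) (Sum.inl β₁) (Sum.inl β₁)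
      (Sum.inl β₁)
    have d1 : ∀ x y, r x y → EqvGen (L'.HE h') (ψ x) (ψ y) := by
      rintro x y ⟨i, b, n1, n2, n3, n4, he, rfl, rfl⟩
      obtain ⟨a, rfl⟩ := R.ex_f n1 n2
      rw [hxe i a n3 n4, pf, pg]
      refine EqvGen.rel _ _ ⟨i, a, ?_, rfl, rfl⟩
      rw [hh, hh]
      exact he
    have d1' : ∀ x y, EqvGen r x y → EqvGen (L'.HE h') (ψ x) (ψ y) := by
      intro x y h
      induction h with
      | rel x y h => exact d1 x y h
      | refl x => exact EqvGen.refl _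
      | symm x y _ ih => exact ih.symm
      | trans x y z _ _ ih1 ih2 => exact ih1.trans _ _ _ ih2
    have d2 : ∀ x y, L'.HE h' x y → EqvGen r (Sum.map f g x) (Sum.map f g y) := by
      rintro x y ⟨i, a, he, rfl, rfl⟩
      have n3 : Y.e i (f a) ≠ Y.e (j + 2) b₁ := by
        intro hc
        by_cases hi : i = j
        · subst hi
          have ha : a = β₁ := R.fi ((Y.e _).injective (hc.trans h₁.symm))
          subst ha
          rw [m1] at he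
          exact z12_a _ he
        · rw [R.other i hi] at hc
          exact R.g_ne₁ _ hc
      have n4 : Y.e i (f a) ≠ Y.e (j + 2) b₂ := by
        intro hc
        by_cases hi : i = j
        · subst hi
          have ha : a = β₂ := R.fi ((Y.e _).injective (hc.trans h₂.symm))
          subst ha
          rw [m2] at he
          exact z12_a _ he
        · rw [R.other i hi] at hc
          exact R.g_ne₂ _ hc
      refine EqvGen.rel _ _ ⟨i, f a, R.f_ne₁ a, R.f_ne₂ a, n3, n4, ?_, rfl, ?_⟩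
      · rw [hh, hh] at he
        exact he
      · rw [Sum.map_inr, hxe i a n3 n4]
    have d2' : ∀ x y, EqvGen (L'.HE h') x y → EqvGen r (Sum.map f g x) (Sum.map f g y) := by
      intro x y h
      induction h with
      | rel x y h => exact d2 x y h
      | refl x => exact EqvGen.refl _
      | symm x y _ ih => exact ih.symm
      | trans x y z _ _ ih1 ih2 => exact ih1.trans _ _ _ ih2
    have d3 : ∀ x : B' ⊕ W', (Sum.map f g x) ≠ Sum.inl b₁ ∧ (Sum.map f g x) ≠ Sum.inl b₂ ∧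
        (Sum.map f g x) ≠ Sum.inr (Y.e (j + 2) b₁) ∧
        (Sum.map f g x) ≠ Sum.inr (Y.e (j + 2) b₂) := by
      rintro (a | a)
      · simp only [Sum.map_inl, ne_eq, Sum.inl.injEq, reduceCtorEq, not_false_eq_true, and_true]
        exact ⟨R.f_ne₁ a, R.f_ne₂ a⟩
      · simp only [Sum.map_inr, ne_eq, Sum.inr.injEq, reduceCtorEq, not_false_eq_true, true_and]
        exact ⟨R.g_ne₁ a, R.g_ne₂ a⟩
    have d4 : ∀ x : B' ⊕ W', ψ (Sum.map f g x) = x := by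
      rintro (a | a)
      · exact pf a
      · exact pg a
    have d5 : ∀ x : B ⊕ W, (x ≠ Sum.inl b₁ ∧ x ≠ Sum.inl b₂ ∧
        x ≠ Sum.inr (Y.e (j + 2) b₁) ∧ x ≠ Sum.inr (Y.e (j + 2) b₂)) →
        ∃ x' : B' ⊕ W', x = Sum.map f g x' := by
      rintro (b | w) ⟨n1, n2, n3, n4⟩
      · obtain ⟨a, rfl⟩ := R.ex_f (b := b) (fun h => n1 (by rw [h])) (fun h => n2 (by rw [h]))
        exact ⟨Sum.inl a, rfl⟩
      · obtain ⟨a, rfl⟩ := (R.gr w).2 ⟨fun h => n3 (by rw [h]), fun h => n4 (by rw [h])⟩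
        exact ⟨Sum.inr a, rfl⟩
    constructor
    · intro hc x y
      have := d1' _ _ (hc _ _ (d3 x) (d3 y))
      rwa [d4, d4] at this
    · intro hc x y hx hy
      obtain ⟨x', rfl⟩ := d5 x hx
      obtain ⟨y', rfl⟩ := d5 y hy
      exact d2' _ _ (hc x' y')
  constructor
  · rintro ⟨-, -, hb, ha, hv, hc⟩
    have hm : L'.mono j β₁ β₂ h' := hmono.2 ⟨ha, hb⟩
    exact ⟨⟨hvalid.1 hv, (hconn hm).1 hc⟩, hm⟩
  · rintro ⟨⟨hv, hc⟩, hm⟩
    obtain ⟨ha, hb⟩ := hmono.1 hm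
    exact ⟨hs, hpp.symm, hb, ha, hvalid.2 hv, (hconn hm).2 hc⟩

end

variable [Fintype B] [Fintype V] [DecidableEq V] [Fintype B']

theorem eps_shift (a b c : ZMod 4) (h : a = b + c) (hc : c = 0) : eps a = eps b := by
  rw [h, hc, add_zero]

open Classical in
/-- B1 -/
theorem sum_nonmono (R : SqRel Y X f g j b₁ b₂) (L : Lab Y V)
    (hp : L.c (j + 1) b₁ ≠ L.c (j + 1) b₂) (L' : Lab X (L.V1 j b₁ b₂))
    (hL' : ∀ k b, ((L'.c k b : L.V1 j b₁ b₂) : V) =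
      if L.c k (f b) = L.c (j + 1) b₂ then L.c (j + 1) b₁ else L.c k (f b))
    {β₁ β₂ : B'} (h₁ : Y.e j (f β₁) = Y.e (j + 2) b₁) (h₂ : Y.e j (f β₂) = Y.e (j + 2) b₂)
    (m : V → ZMod 4) (hm : m (L.c j b₁) = 0) :
    L.T1 j b₁ b₂ m = ∑ h : L.V1 j b₁ b₂ → ZMod 12,
      if L'.Sol h ∧ ¬ L'.mono j β₁ β₂ h then eps (L'.E (L.m1 j b₁ b₂ m) h) else 0 := by
  have hps : L.c (j + 1) b₁ ≠ L.c j b₁ := fun h => fne1 j (L.cls _ _ _ _ h)
  have hqs : ∀ b, L.c (j + 2) b ≠ L.c j b₁ := fun b h => fne2 j (L.cls _ _ _ _ h)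
  have hqp : ∀ b, L.c (j + 2) b ≠ L.c (j + 1) b₂ := fun b h => fne21 j (L.cls _ _ _ _ h)
  let pv : L.V1 j b₁ b₂ := ⟨L.c (j + 1) b₁, hps, hp⟩
  let qv : L.V1 j b₁ b₂ := ⟨L.c (j + 2) b₂, hqs _, hqp _⟩
  let qv' : L.V1 j b₁ b₂ := ⟨L.c (j + 2) b₁, hqs _, hqp _⟩
  have hh : ∀ h : V → ZMod 12, h (L.c (j + 1) b₁) = h (L.c (j + 1) b₂) → ∀ k a,
      (fun v : L.V1 j b₁ b₂ => h v.1) (L'.c k a) = h (L.c k (f a)) := by
    intro h hpp k a
    show h ((L'.c k a : L.V1 j b₁ b₂) : V) = _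
    rw [hL']
    split_ifs with h1
    · rw [h1, hpp]
    · rfl
  have key : ∀ h : V → ZMod 12, L.type1 j b₁ b₂ h → (L.Sol h ↔
      L'.Sol (fun v => h v.1) ∧ ¬ L'.mono j β₁ β₂ (fun v => h v.1)) :=
    fun h ht => sol_type1 R L L' h₁ h₂ (hh h ht.1) ht
  unfold Lab.T1
  rw [← Finset.sum_filter, ← Finset.sum_filter]
  have hres : ∀ h' : L.V1 j b₁ b₂ → ZMod 12, (fun v : L.V1 j b₁ b₂ =>
      L.ext j b₁ b₂ pv (h' qv + h' qv' - h' pv) h' v.1) = h' := by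
    intro h'
    funext v
    exact L.ext_val pv _ h' v
  have htype : ∀ h' : L.V1 j b₁ b₂ → ZMod 12, L.type1 j b₁ b₂
      (L.ext j b₁ b₂ pv (h' qv + h' qv' - h' pv) h') := by
    intro h'
    have v1 := L.ext_val pv (h' qv + h' qv' - h' pv) h' pv
    have v2 := L.ext_val pv (h' qv + h' qv' - h' pv) h' qv
    have v3 := L.ext_val pv (h' qv + h' qv' - h' pv) h' qv'
    have v4 := L.ext_s pv (h' qv + h' qv' - h' pv) h'
    have v5 := L.ext_p' pv (h' qv + h' qv' - h' pv) h'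
    refine ⟨?_, ?_⟩
    · rw [v5]; exact v1
    · rw [v4]
      change _ + L.ext j b₁ b₂ pv (h' qv + h' qv' - h' pv) h' pv.1 =
        L.ext j b₁ b₂ pv (h' qv + h' qv' - h' pv) h' qv'.1 +
        L.ext j b₁ b₂ pv (h' qv + h' qv' - h' pv) h' qv.1
      rw [v1, v2, v3]
      ring
  refine Finset.sum_nbij' (fun h v => h v.1)
    (fun h' => L.ext j b₁ b₂ pv (h' qv + h' qv' - h' pv) h') ?_ ?_ ?_ ?_ ?_
  · intro h hh'
    simp only [Finset.mem_filter, Finset.mem_univ, true_and] at hh' ⊢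
    exact (key h hh'.2).1 hh'.1
  · intro h' hh'
    simp only [Finset.mem_filter, Finset.mem_univ, true_and] at hh' ⊢
    refine ⟨(key _ (htype h')).2 ?_, htype h'⟩
    rw [hres]
    exact hh'
  · intro h hh'
    simp only [Finset.mem_filter, Finset.mem_univ, true_and] at hh'
    have e1 : h (L.c j b₁) = (fun v : L.V1 j b₁ b₂ => h v.1) qv +
        (fun v : L.V1 j b₁ b₂ => h v.1) qv' - (fun v : L.V1 j b₁ b₂ => h v.1) pv := by
      have := hh'.2.2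
      show h (L.c j b₁) = h (L.c (j + 2) b₂) + h (L.c (j + 2) b₁) - h (L.c (j + 1) b₁)
      linear_combination this
    have := L.ext_res pv h hh'.2.1
    rw [e1] at this
    exact this
  · intro h' _
    exact hres h'
  · intro h hh'
    simp only [Finset.mem_filter, Finset.mem_univ, true_and] at hh'
    refine eps_shift _ _ _ (E_diff R L hp L' hL' m hm h hh'.2.1) ?_
    have := congrArg kap hh'.2.2
    rw [map_add, map_add] at this
    linear_combination this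

open Classical in
/-- B2 -/
theorem sum_mono (R : SqRel Y X f g j b₁ b₂) (L : Lab Y V)
    (hp : L.c (j + 1) b₁ ≠ L.c (j + 1) b₂) (L' : Lab X (L.V1 j b₁ b₂))
    (hL' : ∀ k b, ((L'.c k b : L.V1 j b₁ b₂) : V) =
      if L.c k (f b) = L.c (j + 1) b₂ then L.c (j + 1) b₁ else L.c k (f b))
    {β₁ β₂ : B'} (h₁ : Y.e j (f β₁) = Y.e (j + 2) b₁) (h₂ : Y.e j (f β₂) = Y.e (j + 2) b₂)
    (m : V → ZMod 4) (hm : m (L.c j b₁) = 0) :
    L.M1 j b₁ b₂ m = ∑ h : L.V1 j b₁ b₂ → ZMod 12,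
      if L'.Sol h ∧ L'.mono j β₁ β₂ h then eps (L'.E (L.m1 j b₁ b₂ m) h) else 0 := by
  have hps : L.c (j + 1) b₁ ≠ L.c j b₁ := fun h => fne1 j (L.cls _ _ _ _ h)
  let pv : L.V1 j b₁ b₂ := ⟨L.c (j + 1) b₁, hps, hp⟩
  have hh : ∀ h : V → ZMod 12, h (L.c (j + 1) b₁) = h (L.c (j + 1) b₂) → ∀ k a,
      (fun v : L.V1 j b₁ b₂ => h v.1) (L'.c k a) = h (L.c k (f a)) := by
    intro h hpp k a
    show h ((L'.c k a : L.V1 j b₁ b₂) : V) = _
    rw [hL']
    split_ifs with h1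
    · rw [h1, hpp]
    · rfl
  have key : ∀ h : V → ZMod 12, h (L.c j b₁) = 0 →
      h (L.c (j + 1) b₁) = h (L.c (j + 1) b₂) → (L.ZS j b₁ b₂ h ↔
      L'.Sol (fun v => h v.1) ∧ L'.mono j β₁ β₂ (fun v => h v.1)) :=
    fun h hs hpp => sol_mono R L L' h₁ h₂ (hh h hpp) hs hpp
  unfold Lab.M1
  rw [← Finset.sum_filter, ← Finset.sum_filter]
  have hres : ∀ h' : L.V1 j b₁ b₂ → ZMod 12, (fun v : L.V1 j b₁ b₂ =>
      L.ext j b₁ b₂ pv 0 h' v.1) = h' := by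
    intro h'
    funext v
    exact L.ext_val pv _ h' v
  refine Finset.sum_nbij' (fun h v => h v.1) (fun h' => L.ext j b₁ b₂ pv 0 h') ?_ ?_ ?_ ?_ ?_
  · intro h hh'
    simp only [Finset.mem_filter, Finset.mem_univ, true_and] at hh' ⊢
    exact (key h hh'.1 hh'.2.1.symm).1 hh'
  · intro h' hh'
    simp only [Finset.mem_filter, Finset.mem_univ, true_and] at hh' ⊢
    refine (key _ (L.ext_s pv 0 h') ?_).2 ?_
    · rw [L.ext_p' pv 0 h']
      exact L.ext_val pv 0 h' pv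
    · rw [hres]
      exact hh'
  · intro h hh'
    simp only [Finset.mem_filter, Finset.mem_univ, true_and] at hh'
    have := L.ext_res pv h hh'.2.1.symm
    rw [hh'.1] at this
    exact this
  · intro h' _
    exact hres h'
  · intro h hh'
    simp only [Finset.mem_filter, Finset.mem_univ, true_and] at hh'
    obtain ⟨z1, z2, z3, z4, -, -⟩ := hh'
    congr 1
    rw [E_diff R L hp L' hL' m hm h z2.symm, z1, z3, z4, map_sub, map_zero]
    have h2 : (kap 2 : ZMod 4) = 2 := by decide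
    rw [h2]
    generalize kap (h (L.c (j + 1) b₁)) = t
    have : (4 : ZMod 4) = 0 := by decide
    linear_combination this

/-- B3 (from B1 and B2) -/
theorem T1_add_M1 (R : SqRel Y X f g j b₁ b₂) (L : Lab Y V)
    (hp : L.c (j + 1) b₁ ≠ L.c (j + 1) b₂) (L' : Lab X (L.V1 j b₁ b₂))
    (hL' : ∀ k b, ((L'.c k b : L.V1 j b₁ b₂) : V) =
      if L.c k (f b) = L.c (j + 1) b₂ then L.c (j + 1) b₁ else L.c k (f b))
    (m : V → ZMod 4) (hm : m (L.c j b₁) = 0) :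
    L.T1 j b₁ b₂ m + L.M1 j b₁ b₂ m = L'.S (L.m1 j b₁ b₂ m) := by
  classical
  obtain ⟨β₁, β₂, -, h₁, h₂⟩ := R.betas
  rw [sum_nonmono R L hp L' hL' h₁ h₂ m hm, sum_mono R L hp L' hL' h₁ h₂ m hm]
  unfold Lab.S
  rw [← Finset.sum_add_distrib]
  refine Finset.sum_congr (by ext; simp) fun h _ => ?_
  by_cases h1 : L'.Sol h <;> by_cases h2 : L'.mono j β₁ β₂ h <;> simp [h1, h2]

end Vale.Agent.P039.Sk
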